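import Vale.Agent.N192.Nil
import Vale.Agent.P192Z.Bridge

/-!
# P192: algebras over the prime field given by binomial and monomial relations
-/

namespace Vale.Agent.N192

open Vale.Agent.P192Z

section

variable (p : ℕ) [Fact p.Prime]

/-- The free algebra on `X`, as the monoid algebra of the free monoid. -/
abbrev FA (X : Type) : Type := MonoidAlgebra (ZMod p) (FreeMonoid X)

variable {X : Type}

/-- The monomial of a word. -/
noncomputable def mono (w : List X) : FA p X :=
  MonoidAlgebra.of (ZMod p) (FreeMonoid X) (FreeMonoid.ofList w)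

theorem mono_nil : mono p ([] : List X) = 1 := by
  unfold mono; rw [FreeMonoid.ofList_nil, map_one]

theorem mono_append (u v : List X) : mono p (u ++ v) = mono p u * mono p v := by
  unfold mono; rw [FreeMonoid.ofList_append, map_mul]

theorem FA.induction {q : FA p X → Prop} (h0 : q 0) (hw : ∀ w, q (mono p w))
    (hadd : ∀ a b, q a → q b → q (a + b)) (a : FA p X) : q a := by
  induction a using MonoidAlgebra.induction_on with
  | of m => exact hw (FreeMonoid.toList m)
  | add f g hf hg => exact hadd f g hf hg
  | smul r f hf =>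
    obtain ⟨n, rfl⟩ := ZMod.natCast_zmod_surjective r
    rw [Nat.cast_smul_eq_nsmul]
    induction n with
    | zero => simpa using h0
    | succ n ih => rw [succ_nsmul]; exact hadd _ _ ih hf

/-- The defining relation on the free algebra. -/
inductive Rel (P : Pres X) : FA p X → FA p X → Prop
  | eq {u v : List X} : (u, v) ∈ P.eqs → Rel P (mono p u) (mono p v)
  | zero {z : List X} : z ∈ P.zeros → Rel P (mono p z) 0

/-- The algebra given by the relations `P`. -/
abbrev Alg (P : Pres X) : Type := RingQuot (Rel p P)

variable (P : Pres X)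

/-- The image of a word. -/
noncomputable def word (w : List X) : Alg p P := RingQuot.mkAlgHom (ZMod p) (Rel p P) (mono p w)

/-- Every linear matrix pencil over polynomials is nilpotent (dual form). -/
def NIL [Fintype X] : Prop :=
  ∀ (ι : Type) [Fintype ι] [DecidableEq ι] (ρ : X → Matrix ι ι (Polynomial (ZMod p))),
    ∃ N : ℕ, ∀ lam : List X → ZMod p, P.Inv lam →
      ∑ w : Fin N → X, lam (List.ofFn w) • (List.ofFn (ρ ∘ w)).prod = 0

theorem word_nil : word p P [] = 1 := by unfold word; rw [mono_nil, map_one]

theorem word_append (u v : List X) : word p P (u ++ v) = word p P u * word p P v := by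
  unfold word; rw [mono_append, map_mul]

theorem word_cons (x : X) (v : List X) : word p P (x :: v) = word p P [x] * word p P v :=
  word_append p P [x] v

theorem word_eq_prod (w : List X) : word p P w = (w.map fun x => word p P [x]).prod := by
  induction w with
  | nil => simp [word_nil]
  | cons x w ih => rw [word_cons, ih]; simp

theorem word_eq {u v : List X} (h : (u, v) ∈ P.eqs) : word p P u = word p P v :=
  RingQuot.mkAlgHom_rel (ZMod p) (Rel.eq h)

theorem word_zero {z : List X} (h : z ∈ P.zeros) : word p P z = 0 := by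
  have := RingQuot.mkAlgHom_rel (ZMod p) (Rel.zero (p := p) (P := P) h)
  rw [map_zero] at this
  exact this

theorem induction {q : Alg p P → Prop} (h0 : q 0) (hw : ∀ w, q (word p P w))
    (hadd : ∀ a b, q a → q b → q (a + b)) (a : Alg p P) : q a := by
  obtain ⟨a, rfl⟩ := RingQuot.mkAlgHom_surjective (ZMod p) (Rel p P) a
  induction a using FA.induction with
  | h0 => simpa using h0
  | hw w => exact hw w
  | hadd a b ha hb => rw [map_add]; exact hadd _ _ ha hb

theorem inv_word : P.Inv (word p P) := by
  refine ⟨fun a b u v h => ?_, fun a b z h => ?_⟩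
  · simp only [word_append, word_eq p P h]
  · simp only [word_append, word_zero p P h, mul_zero, zero_mul]

/-- Universal property for algebra maps. -/
theorem exists_algHom {B : Type*} [Ring B] [Algebra (ZMod p) B] (g : X → B)
    (h1 : ∀ u v, (u, v) ∈ P.eqs → (u.map g).prod = (v.map g).prod)
    (h2 : ∀ z ∈ P.zeros, (z.map g).prod = 0) :
    ∃ φ : Alg p P →ₐ[ZMod p] B, ∀ w, φ (word p P w) = (w.map g).prod := by
  let f : FA p X →ₐ[ZMod p] B := MonoidAlgebra.lift (ZMod p) B (FreeMonoid X) (FreeMonoid.lift g)
  have hf : ∀ w, f (mono p w) = (w.map g).prod := by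
    intro w
    simp [f, mono, FreeMonoid.lift_apply]
  refine ⟨RingQuot.liftAlgHom (ZMod p) ⟨f, ?_⟩, fun w => ?_⟩
  · intro x y h
    cases h with
    | eq h => rw [hf, hf, h1 _ _ h]
    | zero h => rw [hf, h2 _ h, map_zero]
  · unfold word
    rw [RingQuot.liftAlgHom_mkAlgHom_apply, hf]

/-- Universal property for linear maps: an invariant function on words extends linearly. -/
theorem exists_lin {V : Type*} [AddCommGroup V] [Module (ZMod p) V] (f : List X → V) (hf : P.Inv f) :
    ∃ F : Alg p P →ₗ[ZMod p] V, ∀ w, F (word p P w) = f w := by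
  let W : Submodule (ZMod p) (List X → V) :=
    { carrier := {g | P.Inv g}
      add_mem' := fun {g h} hg hh =>
        ⟨fun a b u v e => by simp only [Pi.add_apply, hg.1 a b u v e, hh.1 a b u v e],
         fun a b z e => by simp only [Pi.add_apply, hg.2 a b z e, hh.2 a b z e, add_zero]⟩
      zero_mem' := ⟨fun _ _ _ _ _ => rfl, fun _ _ _ _ => rfl⟩
      smul_mem' := fun c g hg =>
        ⟨fun a b u v e => by simp only [Pi.smul_apply, hg.1 a b u v e],
         fun a b z e => by simp only [Pi.smul_apply, hg.2 a b z e, smul_zero]⟩ }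
  let T : X → Module.End (ZMod p) W := fun x =>
    { toFun := fun g => ⟨fun w => g.1 (w ++ [x]), by
        have := Pres.Inv.shift (P := P) g.2 [] [x]
        show P.Inv (fun w => g.1 (w ++ [x]))
        simpa using this⟩
      map_add' := fun g h => rfl
      map_smul' := fun c g => rfl }
  have hT : ∀ (u : List X) (g : W) (w : List X), ((u.map T).prod g).1 w = g.1 (w ++ u) := by
    intro u
    induction u with
    | nil => intro g w; simp
    | cons x u ih =>
      intro g w
      rw [List.map_cons, List.prod_cons, Module.End.mul_apply]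
      show ((u.map T).prod g).1 (w ++ [x]) = _
      rw [ih]; simp
  obtain ⟨φ, hφ⟩ := exists_algHom p P T
    (fun u v h => by
      ext g w
      rw [hT, hT]
      simpa using g.2.1 w [] u v h)
    (fun z h => by
      ext g w
      rw [hT]
      simpa using g.2.2 w [] z h)
  refine ⟨{ toFun := fun a => (φ a ⟨f, hf⟩).1 []
            map_add' := fun a b => by rw [map_add]; rfl
            map_smul' := fun c a => by rw [map_smul]; rfl }, fun w => ?_⟩
  show (φ (word p P w) ⟨f, hf⟩).1 [] = f w
  rw [hφ, hT]; simp

/-- The augmentation exists for relations of positive degree. -/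
theorem exists_eps (h : P.Homog) :
    ∃ ε : Alg p P →ₐ[ZMod p] (ZMod p), ∀ x, ε (word p P [x]) = 0 := by
  have hz : ∀ u : List X, u ≠ [] → (u.map fun _ => (0 : (ZMod p))).prod = 0 := by
    intro u hu
    cases u with
    | nil => exact absurd rfl hu
    | cons x u => simp
  obtain ⟨φ, hφ⟩ := exists_algHom p P (B := (ZMod p)) (fun _ => 0)
    (fun u v e => by
      obtain ⟨h1, h2⟩ := h.1 u v e
      have h3 : v ≠ [] := by
        rintro rfl
        exact h2 (List.length_eq_zero_iff.mp h1)
      rw [hz u h2, hz v h3])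
    (fun z e => hz z (h.2 z e))
  exact ⟨φ, fun x => by rw [hφ]; simp⟩

theorem nil_of_nilR [Fintype X] (h : ∀ ρ, NilR (Polynomial (ZMod p)) P ρ) : NIL p P := by
  intro ι _ _ ρ
  let b := Matrix.stdBasis (Polynomial (ZMod p)) ι ι
  let eq := (Fintype.equivFin (ι × ι)).symm
  have hspan : Submodule.span (Polynomial (ZMod p)) (Set.range (fun i => b (eq i))) = ⊤ := by
    have : Set.range (fun i => b (eq i)) = Set.range b := eq.surjective.range_comp b
    rw [this, b.span_eq]
  obtain ⟨N, hN⟩ := h (Fintype.card (ι × ι)) (Matrix ι ι (Polynomial (ZMod p))) _ hspan ρ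
  refine ⟨N, fun lam hlam => ?_⟩
  have h1 := hN (fun w => algebraMap (ZMod p) (Polynomial (ZMod p)) (lam w))
    (hlam.comp (algebraMap (ZMod p) (Polynomial (ZMod p))) (map_zero _))
  simpa only [algebraMap_smul] using h1

/-- The data used by the group-theoretic part: a graded algebra generated by `gen`, with
augmentation `eps`, the twisted maps `x ↦ c ⊗ x`, and nil matrices over the augmentation ideal. -/
structure GrData (X : Type) (A : Type) [Ring A] [Algebra (ZMod p) A] where
  gen : X → A
  eps : A →+* ZMod p
  eps_gen : ∀ x, eps (gen x) = 0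
  ind : ∀ q : A → Prop, q 0 → (∀ w : List X, q (w.map gen).prod) →
    (∀ a b, q a → q b → q (a + b)) → ∀ a, q a
  psi : ∀ (q : ℕ) (c : Matrix (Fin q) (Fin q) (ZMod p)), ∃ ψ : A →+* Matrix (Fin q) (Fin q) A,
    ∀ x, ψ (gen x) = c.map fun t => t • gen x
  nil : ∀ M : Matrix (Fin 5) (Fin 5) A, (∀ i j, eps (M i j) = 0) → IsNilpotent M

end

open Polynomial

namespace Br

variable {X : Type}

variable {K A : Type} [Field K] [Ring A] [Algebra K A]

/-- a multiplicative function on words -/
structure Wd (K X A : Type) [Ring A] where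
  word : List X → A
  word_nil : word [] = 1
  word_append : ∀ u v, word (u ++ v) = word u * word v

omit [Field K] [Algebra K A] in
theorem Wd.word_cons (P : Wd K X A) (x : X) (v : List X) :
    P.word (x :: v) = P.word [x] * P.word v := P.word_append [x] v

/-- nilpotency of pencils in dual form -/
def Wd.NIL [Fintype X] (P : Wd K X A) : Prop :=
  ∀ (ι : Type) [Fintype ι] [DecidableEq ι] (ρ : X → Matrix ι ι (Polynomial K)),
    ∃ N : ℕ, ∀ φ : A →ₗ[K] K,
      ∑ w : Fin N → X, φ (P.word (List.ofFn w)) • (List.ofFn (ρ ∘ w)).prod = 0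

variable (P : Wd K X A)

/-- the central embedding of the polynomials over the prime field -/
noncomputable def emb (_ : Wd K X A) : K[X] →+* A[X] := mapRingHom (algebraMap K A)

theorem emb_comm (c : K[X]) (z : A[X]) : emb P c * z = z * emb P c := by
  ext n
  rw [coeff_mul, coeff_mul, ← Finset.Nat.sum_antidiagonal_swap]
  refine Finset.sum_congr rfl fun p _ => ?_
  simp [emb, Algebra.commutes]

/-- the pencil attached to a family of matrices -/
noncomputable def term {ι : Type} (w : List X) (r : Matrix ι ι K[X]) :
    Matrix ι ι A[X] :=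
  r.map fun c => C (P.word w) * emb P c

theorem term_mul {ι : Type} [Fintype ι] (u v : List X) (r s : Matrix ι ι K[X]) :
    term P u r * term P v s = term P (u ++ v) (r * s) := by
  ext1 i j
  simp only [term, Matrix.mul_apply, Matrix.map_apply, map_sum, Finset.mul_sum, P.word_append,
    map_mul]
  refine Finset.sum_congr rfl fun k _ => ?_
  rw [mul_assoc, ← mul_assoc (emb P _), emb_comm P (r i k) (C _)]
  simp only [mul_assoc]

theorem prod_term {ι : Type} [Fintype ι] [DecidableEq ι] (ρ : X → Matrix ι ι K[X])
    (w : List X) : (w.map fun x => term P [x] (ρ x)).prod = term P w (w.map ρ).prod := by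
  induction w with
  | nil =>
    ext1 i j
    simp only [term, List.map_nil, List.prod_nil, P.word_nil, map_one, one_mul, Matrix.map_apply,
      Matrix.one_apply]
    split_ifs <;> simp
  | cons x w ih => rw [List.map_cons, List.prod_cons, ih, term_mul]; simp

theorem pencil_nil [Fintype X] (hn : P.NIL) {ι : Type} [Fintype ι] [DecidableEq ι]
    (ρ : X → Matrix ι ι K[X]) : IsNilpotent (∑ x, term P [x] (ρ x)) := by
  obtain ⟨N, hN⟩ := hn ι ρ
  refine ⟨N, ?_⟩
  rw [P192Z.Br.sum_pow_eq_wsum]
  simp only [prod_term, Cap.wsum]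
  ext i j n
  rw [Matrix.sum_apply, finsetSum_coeff, Matrix.zero_apply, coeff_zero]
  refine (Module.forall_dual_apply_eq_zero_iff K _).1 fun φ => ?_
  have h1 := hN φ
  have h2 := congrArg (fun m : Matrix ι ι K[X] => (m i j).coeff n) h1
  simp only [Matrix.sum_apply, finsetSum_coeff, Matrix.smul_apply, coeff_smul, smul_eq_mul,
    Matrix.zero_apply, coeff_zero] at h2
  rw [map_sum, ← h2]
  refine Finset.sum_congr rfl fun w _ => ?_
  simp only [term, Matrix.map_apply, coeff_C_mul, emb, coe_mapRingHom, coeff_map, List.map_ofFn]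
  rw [← Algebra.commutes, ← Algebra.smul_def, map_smul, smul_eq_mul, mul_comm]

variable [Fintype X]

/-- sums of nonempty words of length at most `d` with polynomial coefficients -/
def Dg : ℕ → A[X] → Prop
  | 0, z => z = 0
  | d + 1, z => ∃ (c : X → K[X]) (y : X → A[X]), (∀ x, Dg d (y x)) ∧
      z = ∑ x, C (P.word [x]) * (emb P (c x) + y x)

theorem Dg_zero (d : ℕ) : Dg P d 0 := by
  induction d with
  | zero => rfl
  | succ d ih => exact ⟨0, 0, fun _ => ih, by simp⟩

theorem Dg_add {d : ℕ} {z z' : A[X]} (h : Dg P d z) (h' : Dg P d z') :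
    Dg P d (z + z') := by
  induction d generalizing z z' with
  | zero =>
    rw [show z = 0 from h, show z' = 0 from h', add_zero]
    rfl
  | succ d ih =>
    obtain ⟨c, y, hy, rfl⟩ := h
    obtain ⟨c', y', hy', rfl⟩ := h'
    refine ⟨c + c', y + y', fun x => ih (hy x) (hy' x), ?_⟩
    rw [← Finset.sum_add_distrib]
    refine Finset.sum_congr rfl fun x _ => ?_
    simp only [Pi.add_apply, map_add, mul_add]
    abel

theorem Dg_succ {d : ℕ} {z : A[X]} (h : Dg P d z) : Dg P (d + 1) z := by
  induction d generalizing z with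
  | zero =>
    rw [show z = 0 from h]
    exact Dg_zero P _
  | succ d ih =>
    obtain ⟨c, y, hy, rfl⟩ := h
    exact ⟨c, y, fun x => ih (hy x), rfl⟩

theorem Dg_mono {d d' : ℕ} (hd : d ≤ d') {z : A[X]} (h : Dg P d z) : Dg P d' z := by
  induction hd with
  | refl => exact h
  | step _ ih => exact Dg_succ P ih

theorem Dg_lin (d : ℕ) (c : X → K[X]) : Dg P (d + 1) (∑ x, C (P.word [x]) * emb P (c x)) :=
  ⟨c, 0, fun _ => Dg_zero P d, by simp⟩

theorem Dg_gen_mul [DecidableEq X] {d : ℕ} (x : X) (c : K[X]) {y : A[X]}
    (hy : Dg P d y) : Dg P (d + 1) (C (P.word [x]) * (emb P c + y)) := by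
  refine ⟨Pi.single x c, Pi.single x y, fun x' => ?_, ?_⟩
  · by_cases h : x' = x
    · subst h
      simpa using hy
    · rw [Pi.single_eq_of_ne h]
      exact Dg_zero P d
  · rw [Finset.sum_eq_single x]
    · simp
    · intro x' _ h
      simp [Pi.single_eq_of_ne h]
    · simp

theorem Dg_word (x : X) (w : List X) :
    Dg P (w.length + 1) (monomial 1 (P.word (x :: w))) := by
  classical
  induction w generalizing x with
  | nil =>
    have := Dg_gen_mul P (d := 0) x Polynomial.X (y := 0) rfl
    rw [add_zero, emb, coe_mapRingHom, map_X, C_mul_X_eq_monomial] at this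
    exact this
  | cons x' w ih =>
    have := Dg_gen_mul P x 0 (ih x')
    rw [map_zero, zero_add, C_mul_monomial, ← P.word_cons] at this
    exact this

theorem exists_Dg (ε : A →ₐ[K] K) (hε : ∀ x, ε (P.word [x]) = 0)
    (ind : ∀ p : A → Prop, p 0 → (∀ w, p (P.word w)) → (∀ a b, p a → p b → p (a + b)) →
      ∀ a, p a) (a : A) :
    ∃ d, Dg P d (monomial 1 (a - algebraMap K A (ε a))) := by
  refine ind (fun a => ∃ d, Dg P d (monomial 1 (a - algebraMap K A (ε a)))) ⟨0, by simp [Dg]⟩
    (fun w => ?_) (fun a b ha hb => ?_) a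
  · cases w with
    | nil => exact ⟨0, by simp [Dg, P.word_nil]⟩
    | cons x w =>
      refine ⟨w.length + 1, ?_⟩
      have : ε (P.word (x :: w)) = 0 := by rw [P.word_cons, map_mul, hε, zero_mul]
      rw [this, map_zero, sub_zero]
      exact Dg_word P x w
  · obtain ⟨d, hd⟩ := ha
    obtain ⟨d', hd'⟩ := hb
    refine ⟨max d d', ?_⟩
    have := Dg_add P (Dg_mono P (le_max_left d d') hd) (Dg_mono P (le_max_right d d') hd')
    rw [← map_add] at this
    convert this using 2
    rw [map_add, map_add]
    abel

theorem right_inv (hn : P.NIL) (d : ℕ) : ∀ (ι : Type) [Fintype ι] [DecidableEq ι]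
    (Z : Matrix ι ι A[X]), (∀ i j, Dg P (d + 1) (Z i j)) → ∃ Q, (1 - Z) * Q = 1 := by
  classical
  induction d with
  | zero =>
    intro ι _ _ Z hZ
    choose c y hy hc using hZ
    have h1 : Z = ∑ x, term P [x] (Matrix.of fun i j => c i j x) := by
      ext1 i j
      rw [hc i j, Matrix.sum_apply]
      refine Finset.sum_congr rfl fun x _ => ?_
      rw [show y i j x = 0 from hy i j x, add_zero]
      rfl
    obtain ⟨u, hu⟩ := (h1 ▸ pencil_nil P hn _ : IsNilpotent Z).isUnit_one_sub
    exact ⟨↑u⁻¹, by rw [← hu, Units.mul_inv]⟩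
  | succ d ih =>
    intro ι _ _ Z hZ
    choose c y hy hc using hZ
    let Z1 : Matrix ι ι A[X] := Matrix.of fun i j => ∑ x, C (P.word [x]) * emb P (c i j x)
    let a : Matrix ι (X × ι) A[X] :=
      Matrix.of fun i p => if i = p.2 then C (P.word [p.1]) else 0
    let b : Matrix (X × ι) ι A[X] := Matrix.of fun p j => y p.2 j p.1
    have hZ : Z = Z1 + a * b := by
      ext1 i j
      rw [hc i j, Matrix.add_apply, Matrix.mul_apply, Fintype.sum_prod_type]
      simp only [Z1, a, b, Matrix.of_apply, ite_mul, zero_mul, Finset.sum_ite_eq, Finset.mem_univ,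
        if_true, mul_add, Finset.sum_add_distrib]
    obtain ⟨Q, hQ⟩ := ih (ι ⊕ X × ι) (Matrix.fromBlocks Z1 a b 0) (by
      rintro (i | p) (j | p')
      · exact Dg_lin P d _
      · simp only [Matrix.fromBlocks_apply₁₂, a, Matrix.of_apply]
        split_ifs
        · have := Dg_gen_mul P (d := d) p'.1 1 (Dg_zero P d)
          rwa [map_one, add_zero, mul_one] at this
        · exact Dg_zero P _
      · exact hy _ _ _
      · exact Dg_zero P _)
    rw [← Matrix.fromBlocks_one, ← Matrix.fromBlocks_toBlocks Q, sub_eq_add_neg,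
      Matrix.fromBlocks_neg, Matrix.fromBlocks_add, Matrix.fromBlocks_multiply,
      Matrix.fromBlocks_inj] at hQ
    obtain ⟨h1, -, h3, -⟩ := hQ
    refine ⟨Q.toBlocks₁₁, ?_⟩
    have h4 : Q.toBlocks₂₁ = b * Q.toBlocks₁₁ := by
      rw [zero_add, neg_zero, add_zero, Matrix.one_mul, Matrix.neg_mul, neg_add_eq_zero] at h3
      exact h3.symm
    rw [h4, zero_add, Matrix.neg_mul, ← Matrix.mul_assoc] at h1
    rw [hZ]
    refine Eq.trans ?_ h1
    generalize a * b = ab
    noncomm_ring

theorem matrix_nil (hn : P.NIL) (ε : A →ₐ[K] K) (hε : ∀ x, ε (P.word [x]) = 0)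
    (ind : ∀ p : A → Prop, p 0 → (∀ w, p (P.word w)) → (∀ a b, p a → p b → p (a + b)) →
      ∀ a, p a) {ι : Type} [Fintype ι] [DecidableEq ι]
    (M : Matrix ι ι A) (hM : ∀ i j, ε (M i j) = 0) : IsNilpotent M := by
  choose d hd using fun p : ι × ι => exists_Dg P ε hε ind (M p.1 p.2)
  obtain ⟨Q, hQ⟩ := right_inv P hn (Finset.univ.sup d) ι (M.map (monomial 1)) fun i j => by
    have h1 := hd (i, j)
    rw [hM, map_zero, sub_zero] at h1
    exact Dg_mono P ((Finset.le_sup (Finset.mem_univ (i, j))).trans (Nat.le_succ _)) h1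
  exact P192Z.Br.nil_of_right_inv M Q hQ

end Br

variable (p : ℕ) [Fact p.Prime]

/-- Matrices over the augmentation ideal are nilpotent. -/
theorem matrix_nil {X : Type} [Fintype X] (P : Pres X) (hn : NIL p P)
    (ε : Alg p P →ₐ[ZMod p] (ZMod p))
    (hε : ∀ x, ε (word p P [x]) = 0) {ι : Type} [Fintype ι] [DecidableEq ι]
    (M : Matrix ι ι (Alg p P)) (hM : ∀ i j, ε (M i j) = 0) : IsNilpotent M := by
  refine Br.matrix_nil ⟨word p P, word_nil p P, word_append p P⟩ (fun ι _ _ ρ => ?_) ε hε
    (fun _ h0 hw hadd a => induction p P h0 hw hadd a) M hM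
  obtain ⟨N, hN⟩ := hn ι ρ
  exact ⟨N, fun φ => hN (fun w => φ (word p P w)) ((inv_word p P).comp φ (map_zero φ))⟩

theorem exists_grData {X : Type} [Fintype X] (P : Pres X) (hh : P.Homog) (hn : NIL p P) :
    Nonempty (GrData p X (Alg p P)) := by
  obtain ⟨ε, hε⟩ := exists_eps p P hh
  refine ⟨⟨fun x => word p P [x], ε.toRingHom, hε, fun _ h0 hw hadd a => ?_, fun q c => ?_,
    fun M hM => matrix_nil p P hn ε hε M hM⟩⟩
  · exact induction p P h0 (fun w => by rw [word_eq_prod p P]; exact hw w) hadd a
  · have h1 : ∀ w : List X, (w.map fun x => c.map fun t => t • word p P [x]).prod =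
        (c ^ w.length).map fun t => t • word p P w := by
      intro w
      induction w with
      | nil =>
        ext i j
        simp only [List.map_nil, List.prod_nil, List.length_nil, pow_zero, word_nil p P,
          Matrix.map_apply, Matrix.one_apply]
        split_ifs <;> simp
      | cons x w ih =>
        rw [List.map_cons, List.prod_cons, ih, List.length_cons, pow_succ', word_cons p P x w]
        ext i j
        simp only [Matrix.mul_apply, Matrix.map_apply, Finset.sum_smul, smul_mul_smul_comm]
    obtain ⟨φ, hφ⟩ := exists_algHom p P (B := Matrix (Fin q) (Fin q) (Alg p P))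
      (fun x => c.map fun t => t • word p P [x])
      (fun u v h => by rw [h1, h1, word_eq p P h, (hh.1 u v h).1])
      (fun z h => by
        rw [h1, word_zero p P h]
        ext i j
        simp)
    exact ⟨φ.toRingHom, fun x => by simpa using hφ [x]⟩

/-- The relations of `P` together with all words of length `n`. -/
def trunc {X : Type} (P : Pres X) (n : ℕ) : Pres X := ⟨P.eqs, P.zeros ∪ {w | w.length = n}⟩

theorem finite_trunc {X : Type} [Finite X] (P : Pres X) (n : ℕ) : Finite (Alg p (trunc P n)) := by
  have hS : (word p (trunc P n) '' {w | w.length ≤ n}).Finite :=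
    (List.finite_length_le X n).image _
  have hT : Submodule.span (ZMod p) (word p (trunc P n) '' {w | w.length ≤ n}) = ⊤ := by
    rw [eq_top_iff]
    intro a ha
    clear ha
    induction a using induction p (trunc P n) with
    | h0 => exact Submodule.zero_mem _
    | hadd a b ha hb => exact Submodule.add_mem _ ha hb
    | hw w =>
      by_cases h : w.length ≤ n
      · exact Submodule.subset_span ⟨w, h, rfl⟩
      · have h1 : word p (trunc P n) (w.take n) = 0 :=
          word_zero p _ (Or.inr (show (w.take n).length = n by rw [List.length_take]; omega))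
        rw [← List.take_append_drop n w, word_append, h1, zero_mul]
        exact Submodule.zero_mem _
  have : Module.Finite (ZMod p) (Alg p (trunc P n)) := ⟨⟨hS.toFinset, by simpa using hT⟩⟩
  exact Module.finite_of_finite (ZMod p)

/-- The algebra has finite quotients of unbounded size. -/
theorem exists_fin_quot {X : Type} [Finite X] (P : Pres X) (hh : P.Homog)
    (hl : ∀ N : ℕ, ∃ w : List X, N ≤ w.length ∧ ¬ IsZero P w) (n : ℕ) :
    ∃ (B : Type) (_ : Ring B) (_ : Finite B) (θ : Alg p P →+* B),
      Function.Surjective θ ∧ n ≤ Nat.card B := by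
  classical
  have hfin := finite_trunc p P n
  obtain ⟨θ, hθ⟩ := exists_algHom p P (B := Alg p (trunc P n)) (fun x => word p (trunc P n) [x])
    (fun u v h => by rw [← word_eq_prod, ← word_eq_prod, word_eq p (trunc P n) h])
    (fun z h => by rw [← word_eq_prod, word_zero p (trunc P n) (Or.inl h)])
  refine ⟨Alg p (trunc P n), inferInstance, hfin, θ.toRingHom, fun b => ?_, ?_⟩
  · induction b using induction p (trunc P n) with
    | h0 => exact ⟨0, map_zero _⟩
    | hadd a b ha hb =>
      obtain ⟨a, rfl⟩ := ha
      obtain ⟨b, rfl⟩ := hb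
      exact ⟨a + b, map_add _ _ _⟩
    | hw w => exact ⟨word p P w, (hθ w).trans (word_eq_prod p _ w).symm⟩
  obtain ⟨w, hw, hz⟩ := hl n
  have hlen : ∀ i : Fin n, (w.take i).length = i := fun i => by
    rw [List.length_take]; omega
  have hinj : Function.Injective fun i : Fin n => word p (trunc P n) (w.take i) := by
    intro i j hij
    by_contra hne
    have hinv : (trunc P n).Inv
        fun v => if v.length = i ∧ ¬ IsZero P v then (1 : ZMod p) else 0 := by
      refine ⟨fun a b u v e => ?_, fun a b z e => if_neg fun h => ?_⟩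
      · have h1 : Eqv P (a ++ u ++ b) (a ++ v ++ b) := (Eqv.of_rel e).ctx a b
        have : IsZero P (a ++ u ++ b) ↔ IsZero P (a ++ v ++ b) :=
          ⟨fun h => IsZero.of_eqv h1.symm h, fun h => IsZero.of_eqv h1 h⟩
        simp only [this, h1.length_eq hh]
      · rcases e with e | e
        · exact h.2 ((IsZero.of_mem e).ctx a b)
        · have h1 := h.1
          have h2 : z.length = n := e
          simp only [List.length_append] at h1
          omega
    obtain ⟨F, hF⟩ := exists_lin p _ _ hinv
    have h4 := congrArg F hij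
    have h5 : ¬ IsZero P (w.take i) := fun h =>
      hz (by rw [← List.take_append_drop i w]; exact h.left _)
    rw [hF, hF, if_pos ⟨hlen i, h5⟩,
      if_neg (fun h => hne (Fin.ext (h.1.symm.trans (hlen j))))] at h4
    exact one_ne_zero h4
  simpa using Nat.card_le_card_of_injective _ hinj

/-- A finitely presented graded algebra with nil matrices over the augmentation ideal and finite
quotients of unbounded size. -/
theorem algebra_main : ∃ (X : Type) (_ : Fintype X) (P : Pres X),
    P.eqs.Finite ∧ P.zeros.Finite ∧ Nonempty (GrData p X (Alg p P)) ∧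
      ∀ n : ℕ, ∃ (B : Type) (_ : Ring B) (_ : Finite B) (θ : Alg p P →+* B),
        Function.Surjective θ ∧ n ≤ Nat.card B := by
  obtain ⟨X, _, P, h1, h2, h3, h4, h5⟩ := system_main (Polynomial (ZMod p))
    (Fact.out : p.Prime).pos (CharP.cast_eq_zero _ p)
  exact ⟨X, inferInstance, P, h1, h2, exists_grData p P h3 (nil_of_nilR p P h5),
    exists_fin_quot p P h3 h4⟩

end Vale.Agent.N192
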