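import Vale.Agent.N192.St
import Vale.Agent.N192.Alg

/-!
# P192: the Steinberg group on five indices over a finitely presented algebra is finitely presented
-/

namespace Vale.Agent.N192

open Vale.Agent.P192Z (Pres)

namespace FP

open scoped commutatorElement

/-- An index different from two given ones. -/
def mid (i j : Fin 5) : Fin 5 :=
  if i ≠ 0 ∧ j ≠ 0 then 0 else if i ≠ 1 ∧ j ≠ 1 then 1 else 2

theorem mid_ne_left : ∀ i j, mid i j ≠ i := by decide

theorem mid_ne_right : ∀ i j, mid i j ≠ j := by decide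

theorem exists_fifth : ∀ i j k l : Fin 5, ∃ m, m ≠ i ∧ m ≠ j ∧ m ≠ k ∧ m ≠ l := by decide

variable {Y : Type} {Γ : Type*} [Group Γ]

/-- The element attached to a word, as an iterated commutator of letters. -/
def W (g : Fin 5 → Fin 5 → Y → Γ) : List Y → Fin 5 → Fin 5 → Γ
  | [], _, _ => 1
  | [y], i, j => g i j y
  | y :: y' :: w, i, j => ⁅g i (mid i j) y, W g (y' :: w) (mid i j) j⁆

theorem map_W {Δ : Type*} [Group Δ] (f : Γ →* Δ) (g : Fin 5 → Fin 5 → Y → Γ) :
    ∀ (w : List Y) (i j : Fin 5), f (W g w i j) = W (fun i j y => f (g i j y)) w i j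
  | [], _, _ => map_one f
  | [_], _, _ => rfl
  | y :: y' :: w, i, j => by
    rw [W, W, map_commutatorElement, map_W f g (y' :: w)]

theorem W_cons (g : Fin 5 → Fin 5 → Y → Γ) (y : Y) {w : List Y} (hw : w ≠ []) (i j : Fin 5) :
    W g (y :: w) i j = ⁅W g [y] i (mid i j), W g w (mid i j) j⁆ := by
  cases w with
  | nil => exact absurd rfl hw
  | cons y' w => rfl

theorem comm_mul_left (x y z : Γ) : ⁅x * y, z⁆ = x * ⁅y, z⁆ * x⁻¹ * ⁅x, z⁆ := by
  simp only [commutatorElement_def]; group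

theorem comm_mul_right (x y z : Γ) : ⁅x, y * z⁆ = ⁅x, y⁆ * (y * ⁅x, z⁆ * y⁻¹) := by
  simp only [commutatorElement_def]; group

theorem commute_comm {x y z : Γ} (h1 : Commute x z) (h2 : Commute y z) : Commute ⁅x, y⁆ z := by
  rw [commutatorElement_def]
  exact ((h1.mul_left h2).mul_left h1.inv_left).mul_left h2.inv_left

theorem comm_assoc {a b c : Γ} (hac : Commute a c) (hef : Commute ⁅a, b⁆ ⁅b, c⁆)
    (hcf : Commute c ⁅b, c⁆) : ⁅a, ⁅b, c⁆⁆ = ⁅⁅a, b⁆, c⁆ := by
  have h1 : a * ⁅b, c⁆ * a⁻¹ = ⁅⁅a, b⁆ * b, c⁆ := by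
    have e1 : ⁅a, b⁆ * b = a * b * a⁻¹ := by rw [commutatorElement_def]; group
    have e2 : c = a * c * a⁻¹ := by rw [hac.eq]; group
    rw [e1]
    conv_rhs => rw [e2]
    simp only [commutatorElement_def]; group
  have h2 : ⁅a, ⁅b, c⁆⁆ = a * ⁅b, c⁆ * a⁻¹ * ⁅b, c⁆⁻¹ := commutatorElement_def _ _
  rw [h2, h1, comm_mul_left, hef.eq, mul_inv_cancel_right, ← (commute_comm hef hcf).eq,
    mul_inv_cancel_right]

/-- The relations between letters. -/
structure Base (p : ℕ) (g : Fin 5 → Fin 5 → Y → Γ) : Prop where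
  sq : ∀ i j y, i ≠ j → g i j y ^ p = 1
  comm : ∀ i j k l y y', i ≠ j → k ≠ l → j ≠ k → i ≠ l → Commute (g i j y) (g k l y')
  mul : ∀ i j k y y', i ≠ j → j ≠ k → i ≠ k → ⁅g i j y, g j k y'⁆ = W g [y, y'] i k

variable {p : ℕ} {g : Fin 5 → Fin 5 → Y → Γ}

/-- The commutator formula up to total length `d`. -/
def CU (g : Fin 5 → Fin 5 → Y → Γ) (d : ℕ) : Prop :=
  ∀ u v : List Y, u ≠ [] → v ≠ [] → u.length + v.length ≤ d → ∀ i j k, i ≠ j → j ≠ k → i ≠ k →
    ⁅W g u i j, W g v j k⁆ = W g (u ++ v) i k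

theorem comm_of_CU (hb : Base p g) {d : ℕ} (hc : CU g d) (n : ℕ) :
    ∀ u v : List Y, u ≠ [] → v ≠ [] → u.length ≤ d → v.length ≤ d → u.length + v.length ≤ n →
      ∀ i j k l, i ≠ j → k ≠ l → j ≠ k → i ≠ l → Commute (W g u i j) (W g v k l) := by
  induction n with
  | zero =>
    intro u v hu _ _ _ h
    exact absurd (List.length_eq_zero_iff.1 (by omega)) hu
  | succ n ih =>
    have step : ∀ (y : Y) (u v : List Y), u ≠ [] → v ≠ [] → u.length + 1 ≤ d → v.length ≤ d →
        u.length + v.length ≤ n → ∀ i j k l, i ≠ j → k ≠ l → j ≠ k → i ≠ l →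
        Commute (W g (y :: u) i j) (W g v k l) := by
      intro y u v hu hv h1 h2 h3 i j k l hij hkl hjk hil
      obtain ⟨m, m1, m2, m3, m4⟩ := exists_fifth i j k l
      have hu1 : 1 ≤ u.length := List.length_pos_iff.2 hu
      have e := hc [y] u (by simp) hu (by simp; omega) i m j m1.symm m2 hij
      rw [List.singleton_append] at e
      rw [← e]
      exact commute_comm
        (ih [y] v (by simp) hv (by simp; omega) h2 (by simp; omega) i m k l m1.symm hkl m3 hil)
        (ih u v hu hv (by omega) h2 h3 m j k l m2 hkl hjk m4)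
    intro u v hu hv h1 h2 h3 i j k l hij hkl hjk hil
    obtain ⟨y, u, rfl⟩ := List.exists_cons_of_ne_nil hu
    by_cases hu' : u = []
    · subst hu'
      obtain ⟨y', v, rfl⟩ := List.exists_cons_of_ne_nil hv
      by_cases hv' : v = []
      · subst hv'
        exact hb.comm i j k l y y' hij hkl hjk hil
      · simp only [List.length_cons] at h1 h2 h3
        exact (step y' v [y] hv' (by simp) h2 (by simpa using h1) (by simp at h3 ⊢; omega)
          k l i j hkl hij hil.symm hjk.symm).symm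
    · simp only [List.length_cons] at h1 h2 h3
      exact step y u v hu' hv h1 h2 (by omega) i j k l hij hkl hjk hil

theorem CU_succ (hb : Base p g) {d : ℕ} (hd : 2 ≤ d) (hc : CU g d) : CU g (d + 1) := by
  have key : ∀ u s v : List Y, u ≠ [] → s ≠ [] → v ≠ [] →
      u.length + s.length + v.length ≤ d + 1 → ∀ i j j' k, i ≠ j → j ≠ k → i ≠ j' → j' ≠ k →
      i ≠ k → j ≠ j' → ⁅W g u i j, W g (s ++ v) j k⁆ = ⁅W g (u ++ s) i j', W g v j' k⁆ := by
    intro u s v hu hs hv hl i j j' k h1 h2 h3 h4 h5 h6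
    have l1 : 1 ≤ u.length := List.length_pos_iff.2 hu
    have l2 : 1 ≤ s.length := List.length_pos_iff.2 hs
    have l3 : 1 ≤ v.length := List.length_pos_iff.2 hv
    have e := hc u s hu hs (by omega) i j j' h1 h6 h3
    have f := hc s v hs hv (by omega) j j' k h6 h4 h2
    have c1 := comm_of_CU hb hc _ u v hu hv (by omega) (by omega) le_rfl i j j' k h1 h4 h6 h5
    have c2 := comm_of_CU hb hc _ (u ++ s) (s ++ v) (by simp [hu]) (by simp [hs])
      (by simp; omega) (by simp; omega) le_rfl i j' j k h3 h2 h6.symm h5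
    have c3 := comm_of_CU hb hc _ v (s ++ v) hv (by simp [hs])
      (by omega) (by simp; omega) le_rfl j' k j k h4 h2 h2.symm h4
    rw [← e] at c2 ⊢
    rw [← f] at c2 c3 ⊢
    exact comm_assoc c1 c2 c3
  have first : ∀ (y : Y) (v : List Y), 2 ≤ v.length → 1 + v.length ≤ d + 1 →
      ∀ i j k, i ≠ j → j ≠ k → i ≠ k → ⁅W g [y] i j, W g v j k⁆ = W g (y :: v) i k := by
    intro y v h2 hl i j k hij hjk hik
    have hv : v ≠ [] := List.length_pos_iff.1 (by omega)
    rw [W_cons g y hv]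
    obtain ⟨z, s, rfl⟩ := List.exists_cons_of_ne_nil hv
    have hs : s ≠ [] := List.length_pos_iff.1 (by simp at h2; omega)
    obtain ⟨m, m1, m2, m3, m4⟩ := exists_fifth i j k (mid i k)
    have e1 := key [y] [z] s (by simp) (by simp) hs (by simp at hl ⊢; omega) i j m k hij hjk
      m1.symm m3 hik m2.symm
    have e2 := key [y] [z] s (by simp) (by simp) hs (by simp at hl ⊢; omega) i (mid i k) m k
      (mid_ne_left i k).symm (mid_ne_right i k) m1.symm m3 hik m4.symm
    exact e1.trans e2.symm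
  intro u v hu hv hl i j k hij hjk hik
  by_cases hle : u.length + v.length ≤ d
  · exact hc u v hu hv hle i j k hij hjk hik
  obtain ⟨y, s, rfl⟩ := List.exists_cons_of_ne_nil hu
  simp only [List.length_cons] at hl hle
  by_cases hs : s = []
  · subst hs
    exact first y v (by simp at hle; omega) (by simp at hl; omega) i j k hij hjk hik
  · have l2 : 1 ≤ s.length := List.length_pos_iff.2 hs
    have l3 : 1 ≤ v.length := List.length_pos_iff.2 hv
    obtain ⟨m, m1, m2, m3, -⟩ := exists_fifth i j k k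
    have e1 := key [y] s v (by simp) hs hv (by simp; omega) i m j k m1.symm m3 hij hjk hik m2
    rw [List.singleton_append] at e1
    rw [← e1, List.cons_append]
    exact first y (s ++ v) (by simp; omega) (by simp; omega) i m k m1.symm m3 hik

theorem CU_all (hb : Base p g) (d : ℕ) : CU g (d + 2) := by
  induction d with
  | zero =>
    intro u v hu hv hl i j k hij hjk hik
    have l1 : 1 ≤ u.length := List.length_pos_iff.2 hu
    have l2 : 1 ≤ v.length := List.length_pos_iff.2 hv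
    obtain ⟨y, rfl⟩ := List.length_eq_one_iff.1 (show u.length = 1 by omega)
    obtain ⟨y', rfl⟩ := List.length_eq_one_iff.1 (show v.length = 1 by omega)
    exact hb.mul i j k y y' hij hjk hik
  | succ d ih => exact CU_succ hb (by omega) ih

theorem Base.W_mul (hb : Base p g) {u v : List Y} (hu : u ≠ []) (hv : v ≠ []) {i j k : Fin 5}
    (hij : i ≠ j) (hjk : j ≠ k) (hik : i ≠ k) : ⁅W g u i j, W g v j k⁆ = W g (u ++ v) i k :=
  CU_all hb (u.length + v.length) u v hu hv (by omega) i j k hij hjk hik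

theorem Base.W_comm (hb : Base p g) {u v : List Y} (hu : u ≠ []) (hv : v ≠ []) {i j k l : Fin 5}
    (hij : i ≠ j) (hkl : k ≠ l) (hjk : j ≠ k) (hil : i ≠ l) : Commute (W g u i j) (W g v k l) :=
  comm_of_CU hb (CU_all hb (u.length + v.length)) _ u v hu hv (by omega) (by omega) le_rfl
    i j k l hij hkl hjk hil

theorem comm_pow_left {x z : Γ} (h : Commute x ⁅x, z⁆) (n : ℕ) : ⁅x ^ n, z⁆ = ⁅x, z⁆ ^ n := by
  induction n with
  | zero => simp
  | succ n ih =>
    rw [pow_succ', comm_mul_left, ih, (h.pow_right n).eq, mul_inv_cancel_right, pow_succ]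

theorem Base.W_sq (hb : Base p g) {u : List Y} (hu : u ≠ []) {i j : Fin 5} (hij : i ≠ j) :
    W g u i j ^ p = 1 := by
  obtain ⟨y, s, rfl⟩ := List.exists_cons_of_ne_nil hu
  by_cases hs : s = []
  · subst hs
    exact hb.sq i j y hij
  have m1 := mid_ne_left i j
  have c1 : Commute (W g [y] i (mid i j)) (W g (y :: s) i j) :=
    hb.W_comm (by simp) (by simp) m1.symm hij m1 hij
  rw [W_cons g y hs] at c1 ⊢
  rw [← comm_pow_left c1, show W g [y] i (mid i j) ^ p = 1 from hb.sq _ _ y m1.symm,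
    commutatorElement_one_left]

section Unit

variable {X : Type} {g : Fin 5 → Fin 5 → Option X → Γ}

/-- The element attached to a word in the generators of the algebra, the empty word included. -/
def Z (g : Fin 5 → Fin 5 → Option X → Γ) (w : List X) (i j : Fin 5) : Γ :=
  W g (none :: w.map some) i j

/-- The relations between letters, with a unit letter. -/
structure BaseU (p : ℕ) (g : Fin 5 → Fin 5 → Option X → Γ) : Prop extends Base p g where
  left : ∀ i j y, i ≠ j → W g [none, y] i j = g i j y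
  right : ∀ i j y, i ≠ j → W g [y, none] i j = g i j y

theorem BaseU.W_none_cons (hb : BaseU p g) {v : List (Option X)} (hv : v ≠ []) {i k : Fin 5}
    (hik : i ≠ k) : W g (none :: v) i k = W g v i k := by
  obtain ⟨y, s, rfl⟩ := List.exists_cons_of_ne_nil hv
  by_cases hs : s = []
  · subst hs
    exact hb.left i k y hik
  have m1 := mid_ne_left i k
  have e := hb.toBase.W_mul (u := [none, y]) (by simp) hs m1.symm (mid_ne_right i k) hik
  rw [hb.left _ _ _ m1.symm] at e
  rw [W_cons g y hs]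
  exact e.symm

theorem BaseU.W_append_none (hb : BaseU p g) {u : List (Option X)} (hu : u ≠ []) {i k : Fin 5}
    (hik : i ≠ k) : W g (u ++ [none]) i k = W g u i k := by
  obtain ⟨s, y, rfl⟩ : ∃ s y, u = s ++ [y] :=
    ⟨u.dropLast, u.getLast hu, (List.dropLast_append_getLast hu).symm⟩
  by_cases hs : s = []
  · subst hs
    exact hb.right i k y hik
  have m1 := mid_ne_left i k
  have m2 := mid_ne_right i k
  have e := hb.toBase.W_mul (v := [y, none]) hs (by simp) m1.symm m2 hik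
  have e' := hb.toBase.W_mul (v := [y]) hs (by simp) m1.symm m2 hik
  rw [hb.right _ _ _ m2] at e
  rw [List.append_assoc, ← e']
  exact e.symm

theorem BaseU.Z_mul (hb : BaseU p g) (u v : List X) {i j k : Fin 5}
    (hij : i ≠ j) (hjk : j ≠ k) (hik : i ≠ k) : ⁅Z g u i j, Z g v j k⁆ = Z g (u ++ v) i k := by
  unfold Z
  by_cases hv : v = []
  · subst hv
    rw [hb.toBase.W_mul (by simp) (by simp) hij hjk hik, List.map_nil,
      hb.W_append_none (by simp) hik, List.append_nil]
  · have hv' : v.map some ≠ [] := by simpa using hv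
    rw [hb.W_none_cons hv' hjk, hb.toBase.W_mul (by simp) hv' hij hjk hik, List.map_append,
      List.cons_append]

theorem BaseU.Z_ctx (hb : BaseU p g) (a u b : List X) {i j : Fin 5} (hij : i ≠ j) :
    Z g (a ++ u ++ b) i j = ⁅⁅Z g a i (mid i (mid i j)), Z g u (mid i (mid i j)) (mid i j)⁆,
      Z g b (mid i j) j⁆ := by
  rw [hb.Z_mul a u (mid_ne_left _ _).symm (mid_ne_right _ _) (mid_ne_left _ _).symm,
    hb.Z_mul (a ++ u) b (mid_ne_left _ _).symm (mid_ne_right _ _) hij]

end Unit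

end FP

namespace FP

open scoped commutatorElement

variable (p : ℕ) [Fact p.Prime] {X : Type} {Γ : Type} [Group Γ]

theorem exists_add {V : Type} [AddCommGroup V] [Module (ZMod p) V] (P : Pres X) (f : List X → V)
    (hf : P.Inv f) :
    ∃ F : Alg p P → V, (∀ a b, F (a + b) = F a + F b) ∧ ∀ w, F (word p P w) = f w := by
  obtain ⟨F, hF⟩ := exists_lin p P f hf
  exact ⟨F, map_add F, hF⟩

theorem exists_ext_comm {C : Type} [CommGroup C] (hC : ∀ x : C, x ^ p = 1) (P : Pres X)
    (f : List X → C) (h1 : ∀ a b u v, (u, v) ∈ P.eqs → f (a ++ u ++ b) = f (a ++ v ++ b))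
    (h2 : ∀ a b z, z ∈ P.zeros → f (a ++ z ++ b) = 1) :
    ∃ F : Alg p P → C, (∀ a b, F (a + b) = F a * F b) ∧ ∀ w, F (word p P w) = f w := by
  let _ : Module (ZMod p) (Additive C) := AddCommGroup.zmodModule fun x => hC x.toMul
  obtain ⟨F, hF', hF⟩ := exists_add p (V := Additive C) P (fun w => Additive.ofMul (f w))
    ⟨fun a b u v h => congrArg _ (h1 a b u v h), fun a b z h => congrArg _ (h2 a b z h)⟩
  exact ⟨fun a => (F a).toMul, fun a b => congrArg Additive.toMul (hF' a b),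
    fun w => congrArg Additive.toMul (hF w)⟩

/-- A commuting family of elements of exponent `p` indexed by words extends to the algebra. -/
theorem exists_ext (P : Pres X) (f : List X → Γ) (hc : ∀ u v, Commute (f u) (f v))
    (hs : ∀ u, f u ^ p = 1)
    (h1 : ∀ a b u v, (u, v) ∈ P.eqs → f (a ++ u ++ b) = f (a ++ v ++ b))
    (h2 : ∀ a b z, z ∈ P.zeros → f (a ++ z ++ b) = 1) :
    ∃ F : Alg p P → Γ, (∀ a b, F (a + b) = F a * F b) ∧ ∀ w, F (word p P w) = f w := by
  have hm : IsMulCommutative (Subgroup.closure (Set.range f)) :=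
    Subgroup.isMulCommutative_closure (by
      rintro _ ⟨u, rfl⟩ _ ⟨v, rfl⟩
      exact (hc u v).eq)
  let _ : CommGroup (Subgroup.closure (Set.range f)) :=
    { (inferInstance : Group (Subgroup.closure (Set.range f))) with
      mul_comm := hm.is_comm.comm }
  have hsq : ∀ x : Subgroup.closure (Set.range f), x ^ p = 1 := by
    rintro ⟨x, hx⟩
    induction hx using Subgroup.closure_induction with
    | mem x hx =>
      obtain ⟨u, rfl⟩ := hx
      exact Subtype.ext (hs u)
    | one => exact Subtype.ext (one_pow p)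
    | mul x y hx hy ihx ihy =>
      have e : (⟨x * y, mul_mem hx hy⟩ : Subgroup.closure (Set.range f)) = ⟨x, hx⟩ * ⟨y, hy⟩ := rfl
      rw [e, mul_pow, ihx, ihy, one_mul]
    | inv x hx ih =>
      have e : (⟨x⁻¹, inv_mem hx⟩ : Subgroup.closure (Set.range f)) = ⟨x, hx⟩⁻¹ := rfl
      rw [e, inv_pow, ih, inv_one]
  obtain ⟨F, hF1, hF2⟩ := exists_ext_comm p hsq P
    (fun w => ⟨f w, Subgroup.subset_closure ⟨w, rfl⟩⟩)
    (fun a b u v h => Subtype.ext (h1 a b u v h)) (fun a b z h => Subtype.ext (h2 a b z h))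
  exact ⟨fun a => (F a).1, fun a b => congrArg Subtype.val (hF1 a b),
    fun w => congrArg Subtype.val (hF2 w)⟩

theorem exists_isSt (P : Pres X) {g : Fin 5 → Fin 5 → Option X → Γ} (hb : BaseU p g)
    (h1 : ∀ i j u v, i ≠ j → (u, v) ∈ P.eqs → Z g u i j = Z g v i j)
    (h2 : ∀ i j z, i ≠ j → z ∈ P.zeros → Z g z i j = 1)
    (ok : Fin 5 → Fin 5 → Alg p P → Prop) (hok : ∀ i j a, ok i j a ↔ i ≠ j) :
    ∃ x : Fin 5 → Fin 5 → Alg p P → Γ, IsSt ok x ∧
      ∀ i j w, i ≠ j → x i j (word p P w) = Z g w i j := by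
  have hex : ∀ i j : Fin 5, ∃ F : Alg p P → Γ, i ≠ j →
      (∀ a b, F (a + b) = F a * F b) ∧ ∀ w, F (word p P w) = Z g w i j := by
    intro i j
    by_cases hij : i = j
    · exact ⟨fun _ => 1, fun h => absurd hij h⟩
    obtain ⟨F, hF⟩ := exists_ext p P (fun w => Z g w i j)
      (fun u v => hb.toBase.W_comm (by simp) (by simp) hij hij (Ne.symm hij) hij)
      (fun u => hb.toBase.W_sq (by simp) hij)
      (fun a b u v h => by
        rw [hb.Z_ctx a u b hij, hb.Z_ctx a v b hij, h1 _ _ u v (mid_ne_right _ _) h])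
      (fun a b z h => by
        rw [hb.Z_ctx a z b hij, h2 _ _ z (mid_ne_right _ _) h, commutatorElement_one_right,
          commutatorElement_one_left])
    exact ⟨F, fun _ => hF⟩
  choose x hx using hex
  have hadd : ∀ {i j}, i ≠ j → ∀ a b, x i j (a + b) = x i j a * x i j b := fun h => (hx _ _ h).1
  have hw : ∀ {i j}, i ≠ j → ∀ w, x i j (word p P w) = Z g w i j := fun h => (hx _ _ h).2
  have h0 : ∀ {i j}, i ≠ j → x i j 0 = 1 := fun h => by
    have := hadd h 0 0
    rw [add_zero] at this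
    exact left_eq_mul.mp this
  have hcomm : ∀ {i j k l}, i ≠ j → k ≠ l → j ≠ k → i ≠ l → ∀ a b,
      Commute (x i j a) (x k l b) := by
    intro i j k l hij hkl hjk hil a b
    induction a using induction p P with
    | h0 => rw [h0 hij]; exact Commute.one_left _
    | hadd a a' ha ha' => rw [hadd hij]; exact ha.mul_left ha'
    | hw u =>
      induction b using induction p P with
      | h0 => rw [h0 hkl]; exact Commute.one_right _
      | hadd b b' hb hb' => rw [hadd hkl]; exact hb.mul_right hb'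
      | hw v =>
        rw [hw hij, hw hkl]
        exact hb.toBase.W_comm (by simp) (by simp) hij hkl hjk hil
  have hmul : ∀ {i j k}, i ≠ j → j ≠ k → i ≠ k → ∀ a b,
      ⁅x i j a, x j k b⁆ = x i k (a * b) := by
    intro i j k hij hjk hik a b
    induction a using induction p P with
    | h0 => rw [h0 hij, zero_mul, h0 hik, commutatorElement_one_left]
    | hadd a a' ha ha' =>
      rw [hadd hij, comm_mul_left, ha, ha', (hcomm hij hik hij.symm hik a _).eq,
        mul_inv_cancel_right, ← hadd hik, add_mul, add_comm]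
    | hw u =>
      induction b using induction p P with
      | h0 => rw [h0 hjk, mul_zero, h0 hik, commutatorElement_one_right]
      | hadd b b' hb hb' =>
        rw [hadd hjk, comm_mul_right, hb, hb', (hcomm hjk hik hik.symm hjk b _).eq,
          mul_inv_cancel_right, ← hadd hik, mul_add]
      | hw v => rw [hw hij, hw hjk, ← word_append p P, hw hik, hb.Z_mul u v hij hjk hik]
  exact ⟨x, ⟨fun ha _ => hadd ((hok _ _ _).1 ha) _ _,
    fun ha hb h3 h4 => hcomm ((hok _ _ _).1 ha) ((hok _ _ _).1 hb) h3 h4 _ _,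
    fun ha hb h3 => hmul ((hok _ _ _).1 ha) ((hok _ _ _).1 hb) h3 _ _⟩,
    fun i j w h => hw h w⟩

/-- The free generators. -/
def g0 (i j : Fin 5) (y : Option X) : FreeGroup (Fin 5 × Fin 5 × Option X) :=
  FreeGroup.of (i, j, y)

/-- The finitely many relators. -/
def rels (P : Pres X) : Set (FreeGroup (Fin 5 × Fin 5 × Option X)) :=
  Set.range (fun t : Fin 5 × Option X => g0 t.1 t.1 t.2) ∪
  Set.range (fun t : Fin 5 × Fin 5 × Option X => g0 t.1 t.2.1 t.2.2 ^ p) ∪
  (fun t : (Fin 5 × Fin 5 × Option X) × (Fin 5 × Fin 5 × Option X) =>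
      ⁅g0 t.1.1 t.1.2.1 t.1.2.2, g0 t.2.1 t.2.2.1 t.2.2.2⁆) ''
    {t | t.1.1 ≠ t.1.2.1 ∧ t.2.1 ≠ t.2.2.1 ∧ t.1.2.1 ≠ t.2.1 ∧ t.1.1 ≠ t.2.2.1} ∪
  (fun t : (Fin 5 × Fin 5 × Fin 5) × Option X × Option X =>
      ⁅g0 t.1.1 t.1.2.1 t.2.1, g0 t.1.2.1 t.1.2.2 t.2.2⁆ * (W g0 [t.2.1, t.2.2] t.1.1 t.1.2.2)⁻¹) ''
    {t | t.1.1 ≠ t.1.2.1 ∧ t.1.2.1 ≠ t.1.2.2 ∧ t.1.1 ≠ t.1.2.2} ∪
  (fun t : Fin 5 × Fin 5 × Option X => W g0 [none, t.2.2] t.1 t.2.1 * (g0 t.1 t.2.1 t.2.2)⁻¹) ''
    {t | t.1 ≠ t.2.1} ∪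
  (fun t : Fin 5 × Fin 5 × Option X => W g0 [t.2.2, none] t.1 t.2.1 * (g0 t.1 t.2.1 t.2.2)⁻¹) ''
    {t | t.1 ≠ t.2.1} ∪
  (fun t : (Fin 5 × Fin 5) × List X × List X =>
      Z g0 t.2.1 t.1.1 t.1.2 * (Z g0 t.2.2 t.1.1 t.1.2)⁻¹) '' ({t | t.1 ≠ t.2} ×ˢ P.eqs) ∪
  (fun t : (Fin 5 × Fin 5) × List X => Z g0 t.2 t.1.1 t.1.2) '' ({t | t.1 ≠ t.2} ×ˢ P.zeros)

omit [Fact p.Prime] in
theorem rels_finite [Finite X] (P : Pres X) (h1 : P.eqs.Finite) (h2 : P.zeros.Finite) :
    (rels p P).Finite :=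
  (((((((Set.finite_range _).union (Set.finite_range _)).union
    ((Set.toFinite _).image _)).union ((Set.toFinite _).image _)).union
    ((Set.toFinite _).image _)).union ((Set.toFinite _).image _)).union
    (((Set.toFinite _).prod h1).image _)).union (((Set.toFinite _).prod h2).image _)

/-- The generators of the finitely presented group. -/
def g1 (P : Pres X) (i j : Fin 5) (y : Option X) : PresentedGroup (rels p P) :=
  PresentedGroup.mk (rels p P) (g0 i j y)

omit [Fact p.Prime] in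
theorem mk_W (P : Pres X) (w : List (Option X)) (i j : Fin 5) :
    PresentedGroup.mk (rels p P) (W g0 w i j) = W (g1 p P) w i j := map_W _ _ _ _ _

omit [Fact p.Prime] in
theorem g1_diag (P : Pres X) (i : Fin 5) (y : Option X) : g1 p P i i y = 1 :=
  PresentedGroup.one_of_mem (rels := rels p P)
    (Or.inl (Or.inl (Or.inl (Or.inl (Or.inl (Or.inl (Or.inl ⟨(i, y), rfl⟩)))))))

omit [Fact p.Prime] in
theorem g1_base (P : Pres X) : BaseU p (g1 p P) := by
  refine ⟨⟨fun i j y _ => ?_, fun i j k l y y' h1 h2 h3 h4 => ?_, fun i j k y y' h1 h2 h3 => ?_⟩,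
    fun i j y h => ?_, fun i j y h => ?_⟩
  · exact PresentedGroup.one_of_mem (rels := rels p P)
      (Or.inl (Or.inl (Or.inl (Or.inl (Or.inl (Or.inl (Or.inr ⟨(i, j, y), rfl⟩)))))))
  · rw [← commutatorElement_eq_one_iff_commute]
    exact PresentedGroup.one_of_mem (rels := rels p P)
      (Or.inl (Or.inl (Or.inl (Or.inl (Or.inl (Or.inr
        ⟨((i, j, y), (k, l, y')), ⟨h1, h2, h3, h4⟩, rfl⟩))))))
  · rw [← mk_W]
    exact PresentedGroup.mk_eq_mk_of_mul_inv_mem (rels := rels p P)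
      (Or.inl (Or.inl (Or.inl (Or.inl (Or.inr ⟨((i, j, k), y, y'), ⟨h1, h2, h3⟩, rfl⟩)))))
  · rw [← mk_W]
    exact PresentedGroup.mk_eq_mk_of_mul_inv_mem (rels := rels p P)
      (Or.inl (Or.inl (Or.inl (Or.inr ⟨(i, j, y), h, rfl⟩))))
  · rw [← mk_W]
    exact PresentedGroup.mk_eq_mk_of_mul_inv_mem (rels := rels p P)
      (Or.inl (Or.inl (Or.inr ⟨(i, j, y), h, rfl⟩)))

omit [Fact p.Prime] in
theorem g1_eqs (P : Pres X) (i j : Fin 5) (u v : List X) (h : i ≠ j) (huv : (u, v) ∈ P.eqs) :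
    Z (g1 p P) u i j = Z (g1 p P) v i j := by
  unfold Z
  rw [← mk_W, ← mk_W]
  exact PresentedGroup.mk_eq_mk_of_mul_inv_mem (rels := rels p P)
    (Or.inl (Or.inr ⟨((i, j), u, v), ⟨h, huv⟩, rfl⟩))

omit [Fact p.Prime] in
theorem g1_zeros (P : Pres X) (i j : Fin 5) (z : List X) (h : i ≠ j) (hz : z ∈ P.zeros) :
    Z (g1 p P) z i j = 1 := by
  unfold Z
  rw [← mk_W]
  exact PresentedGroup.one_of_mem (rels := rels p P) (Or.inr ⟨((i, j), z), ⟨h, hz⟩, rfl⟩)

/-- The value of a letter in the algebra. -/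
noncomputable def val (P : Pres X) : Option X → Alg p P
  | none => 1
  | some x => word p P [x]

section Back

variable (P : Pres X) (ok : Fin 5 → Fin 5 → Alg p P → Prop) (hok : ∀ i j a, ok i j a ↔ i ≠ j)

include hok

theorem W_St : ∀ (w : List (Option X)) (i j : Fin 5), w ≠ [] → i ≠ j →
    W (fun i j y => St.x ok i j (val p P y)) w i j = St.x ok i j (w.map (val p P)).prod
  | [], _, _, h, _ => absurd rfl h
  | [y], i, j, _, _ => by simp [W]
  | y :: y' :: w, i, j, _, hij => by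
    rw [W, W_St (y' :: w) _ _ (by simp) (mid_ne_right i j),
      (St.isSt ok).mul ((hok _ _ _).2 (mid_ne_left i j).symm) ((hok _ _ _).2 (mid_ne_right i j))
        hij]
    simp

theorem Z_St (w : List X) {i j : Fin 5} (hij : i ≠ j) :
    Z (fun i j y => St.x ok i j (val p P y)) w i j = St.x ok i j (word p P w) := by
  unfold Z
  rw [W_St p P ok hok _ i j (by simp) hij, word_eq_prod p P, List.map_cons, List.prod_cons,
    List.map_map]
  simp only [val, one_mul]
  rfl

theorem closed_ok : Closed ok :=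
  ⟨fun h => (hok _ _ _).1 h, fun h => (hok _ _ _).2 ((hok _ _ _).1 h),
    fun h => (hok _ _ _).2 ((hok _ _ _).1 h),
    fun h _ => (hok _ _ _).2 ((hok _ _ _).1 h), fun _ _ h => (hok _ _ _).2 h⟩

theorem rels_hold : ∀ r ∈ rels p P,
    FreeGroup.lift (fun t : Fin 5 × Fin 5 × Option X => St.x ok t.1 t.2.1 (val p P t.2.2)) r = 1 := by
  set φ := FreeGroup.lift (fun t : Fin 5 × Fin 5 × Option X => St.x ok t.1 t.2.1 (val p P t.2.2))
    with hφ
  have hg : ∀ i j y, φ (g0 i j y) = St.x ok i j (val p P y) := fun i j y => by simp [hφ, g0]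
  have hW : ∀ w i j, φ (W g0 w i j) = W (fun i j y => St.x ok i j (val p P y)) w i j := by
    intro w i j
    rw [map_W]
    simp only [hg]
  have hZ : ∀ w i j, φ (Z g0 w i j) = Z (fun i j y => St.x ok i j (val p P y)) w i j :=
    fun w i j => hW _ i j
  have hS := St.isSt ok
  rintro r (((((((⟨⟨i, y⟩, rfl⟩ | ⟨⟨i, j, y⟩, rfl⟩) | ⟨⟨⟨i, j, y⟩, k, l, y'⟩, ⟨h1, h2, h3, h4⟩, rfl⟩) |
    ⟨⟨⟨i, j, k⟩, y, y'⟩, ⟨h1, h2, h3⟩, rfl⟩) | ⟨⟨i, j, y⟩, h, rfl⟩) | ⟨⟨i, j, y⟩, h, rfl⟩) |
    ⟨⟨⟨i, j⟩, u, v⟩, ⟨h, huv⟩, rfl⟩) | ⟨⟨⟨i, j⟩, z⟩, ⟨h, hz⟩, rfl⟩)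
  · rw [hg]
    exact St.x_not_ok ok fun h => (hok _ _ _).1 h rfl
  · rw [map_pow, hg]
    by_cases hij : i = j
    · rw [St.x_not_ok ok fun h => (hok _ _ _).1 h hij, one_pow]
    · have e : ∀ (n : ℕ) (a : Alg p P), St.x ok i j a ^ n = St.x ok i j (n • a) := by
        intro n a
        induction n with
        | zero => rw [pow_zero, zero_nsmul, hS.zero ((hok _ _ _).2 hij)]
        | succ n ih =>
          rw [pow_succ, ih, succ_nsmul, hS.add ((hok _ _ _).2 hij) ((hok _ _ _).2 hij)]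
      rw [e, ← Nat.cast_smul_eq_nsmul (ZMod p), ZMod.natCast_self, zero_smul]
      exact hS.zero ((hok _ _ _).2 hij)
  · rw [map_commutatorElement, hg, hg, commutatorElement_eq_one_iff_commute]
    exact hS.comm ((hok _ _ _).2 h1) ((hok _ _ _).2 h2) h3 h4
  · rw [map_mul, map_inv, map_commutatorElement, hg, hg, hW, W_St p P ok hok _ _ _ (by simp) h3,
      hS.mul ((hok _ _ _).2 h1) ((hok _ _ _).2 h2) h3]
    simp
  · rw [map_mul, map_inv, hg, hW, W_St p P ok hok _ _ _ (by simp) h]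
    simp [val]
  · rw [map_mul, map_inv, hg, hW, W_St p P ok hok _ _ _ (by simp) h]
    simp [val]
  · rw [map_mul, map_inv, hZ, hZ, Z_St p P ok hok _ h, Z_St p P ok hok _ h, word_eq p P huv,
      mul_inv_cancel]
  · rw [hZ, Z_St p P ok hok _ h, word_zero p P hz]
    exact hS.zero ((hok _ _ _).2 h)

end Back

end FP

open Vale.Agent.N192.FP in
theorem st_fp (p : ℕ) [Fact p.Prime] {X : Type} [Finite X] (P : Pres X) (h1 : P.eqs.Finite) (h2 : P.zeros.Finite)
    (ok : Fin 5 → Fin 5 → Alg p P → Prop) (hok : ∀ i j a, ok i j a ↔ i ≠ j) :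
    Group.IsFinitelyPresented (St ok) := by
  have _ : Finite (rels p P) := rels_finite p P h1 h2
  obtain ⟨x, hx, hxw⟩ := exists_isSt p P (g1_base p P) (g1_eqs p P) (g1_zeros p P) ok hok
  have hc := closed_ok p P ok hok
  let f : St ok →* PresentedGroup (rels p P) := St.lift hc x hx
  let h : PresentedGroup (rels p P) →* St ok := PresentedGroup.toGroup (rels_hold p P ok hok)
  have hg : ∀ i j y, h (g1 p P i j y) = St.x ok i j (val p P y) := fun i j y =>
    PresentedGroup.toGroup.of (rels_hold p P ok hok)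
  have e1 : f.comp h = MonoidHom.id _ := by
    refine PresentedGroup.ext fun ⟨i, j, y⟩ => ?_
    show f (h (g1 p P i j y)) = g1 p P i j y
    rw [hg]
    by_cases hij : i = j
    · subst hij
      rw [g1_diag, St.x_not_ok ok fun h => (hok _ _ _).1 h rfl, map_one]
    · rw [St.lift_x hc x hx ((hok _ _ _).2 hij)]
      cases y with
      | none =>
        have := hxw i j [] hij
        rw [word_nil p P] at this
        exact this
      | some y => exact (hxw i j [y] hij).trans ((g1_base p P).left i j (some y) hij)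
  have e2 : h.comp f = MonoidHom.id _ := by
    refine St.hom_ext fun i j a ha => ?_
    show h (f (St.x ok i j a)) = St.x ok i j a
    have hij := (hok _ _ _).1 ha
    rw [St.lift_x hc x hx ha]
    clear ha
    induction a using induction p P with
    | h0 =>
      rw [hx.zero ((hok _ _ _).2 hij), map_one, (St.isSt ok).zero ((hok _ _ _).2 hij)]
    | hadd a b ha hb =>
      rw [hx.add ((hok _ _ _).2 hij) ((hok _ _ _).2 hij), map_mul, ha, hb,
        (St.isSt ok).add ((hok _ _ _).2 hij) ((hok _ _ _).2 hij)]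
    | hw w =>
      rw [hxw i j w hij, ← Z_St p P ok hok w hij]
      unfold Z
      rw [map_W]
      simp only [hg]
  exact Group.IsFinitelyPresented.equiv (MonoidHom.toMulEquiv h f e1 e2)

end Vale.Agent.N192
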