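import Vale.Agent.N192.St
import Vale.Agent.N192.Alg

/-!
# P192: the transfer argument: kernel elements of the Iwahori group have prime power order
-/

namespace Vale.Agent.N192

namespace Tr

open scoped commutatorElement

section General

variable {ι A : Type} [Ring A]

theorem commute_UT {ok : ι → ι → A → Prop} (hc : Closed ok) {T T' : ι → ι → Prop}
    (h : ∀ i j k l, T i j → T' k l → j ≠ k ∧ i ≠ l) {g g' : St ok} (hg : g ∈ UT ok T)
    (hg' : g' ∈ UT ok T') : Commute g g' := by
  refine UT_induction hc (p := fun g => Commute g g') (Commute.one_left _)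
    (fun i j a g ha hT _ ih => Commute.mul_left ?_ ih) hg
  refine UT_induction hc (p := fun g' => Commute (St.x ok i j a) g') (Commute.one_right _)
    (fun k l b g' hb hT' _ ih => Commute.mul_right ?_ ih) hg'
  exact (St.isSt ok).comm ha hb (h i j k l hT hT').1 (h i j k l hT hT').2

variable [Fintype ι] [DecidableEq ι]

theorem exists_unip {ok : ι → ι → A → Prop} (hc : Closed ok) (ρ : ι → ℕ)
    (N : Matrix ι ι A) (hN : ∀ i j, N i j ≠ 0 → ok i j (N i j))
    (hρ : ∀ i j, N i j ≠ 0 → ρ i < ρ j) :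
    ∃ g ∈ UT ok (fun i j => N i j ≠ 0), phi hc g = 1 + N := by
  have key : ∀ n : ℕ, ∃ g ∈ UT ok (fun i j => N i j ≠ 0),
      phi hc g = 1 + Matrix.of fun i j => if ρ j < n then N i j else 0 := by
    intro n
    induction n with
    | zero => exact ⟨1, Subgroup.one_mem _, by ext i j; simp⟩
    | succ n ih =>
      obtain ⟨g, hg, e⟩ := ih
      have hne : ∀ i j, (Matrix.of fun i j => if ρ j = n then N i j else 0) i j ≠ 0 →
          ρ j = n ∧ N i j ≠ 0 := by
        intro i j h
        rw [Matrix.of_apply] at h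
        by_cases h' : ρ j = n
        · exact ⟨h', by simpa [h'] using h⟩
        · simp [h'] at h
      obtain ⟨u, hu, eu⟩ := exists_block hc (Matrix.of fun i j => if ρ j = n then N i j else 0)
        (fun i j h => by
          obtain ⟨h1, h2⟩ := hne i j h
          rw [Matrix.of_apply, if_pos h1]
          exact hN i j h2)
        (fun i j k l h h' e => by
          obtain ⟨h1, _⟩ := hne i j h
          obtain ⟨h3, h4⟩ := hne k l h'
          have := hρ k l h4
          subst e
          omega)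
      refine ⟨u * g, Subgroup.mul_mem _ (UT_mono (fun i j h => (hne i j h).2) hu) hg, ?_⟩
      have hz : (Matrix.of fun i j => if ρ j = n then N i j else 0) *
          (Matrix.of fun i j => if ρ j < n then N i j else 0) = 0 := by
        ext i k
        rw [Matrix.mul_apply, Matrix.zero_apply]
        refine Finset.sum_eq_zero fun j _ => ?_
        rw [Matrix.of_apply, Matrix.of_apply]
        by_cases h1 : ρ j = n
        · by_cases h2 : ρ k < n
          · have : N j k = 0 := by
              by_contra h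
              have := hρ j k h
              omega
            simp [this]
          · simp [h2]
        · simp [h1]
      rw [map_mul, eu, e, add_mul, one_mul, mul_add, mul_one, hz, add_zero]
      ext i j
      simp only [Matrix.add_apply, Matrix.of_apply, add_assoc, add_right_inj]
      by_cases h1 : ρ j < n
      · simp [h1, h1.ne, Nat.lt_succ_of_lt h1]
      · by_cases h2 : ρ j = n
        · simp [h2]
        · have h3 : ¬ ρ j < n + 1 := by omega
          simp [h1, h2, h3]
  obtain ⟨g, hg, e⟩ := key (Finset.univ.sup ρ + 1)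
  refine ⟨g, hg, ?_⟩
  rw [e]
  ext i j
  have : ρ j < Finset.univ.sup ρ + 1 := Nat.lt_succ_of_le (Finset.le_sup (Finset.mem_univ j))
  simp only [Matrix.add_apply, Matrix.of_apply, if_pos this]

end General

variable {κ A : Type} [Ring κ] [Ring A] (ε : A →+* κ) (m : ℕ)

/-- Square blocks. -/
abbrev Blk (A : Type) (m : ℕ) : Type := Matrix (Fin (m + 1)) (Fin (m + 1)) A

/-- Index set of the parahoric group. -/
abbrev Ix (m : ℕ) : Type := Fin 5 × Fin (m + 1)

/-- From block matrices to matrices. -/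
abbrev cmp : Matrix (Fin 5) (Fin 5) (Blk A m) ≃+* Matrix (Ix m) (Ix m) A :=
  Matrix.compRingEquiv (Fin 5) (Fin (m + 1)) A

/-- The parahoric group. -/
abbrev Gam : Type := St (bigNet ε m).ok

/-- The matrix of an element of the parahoric group. -/
noncomputable abbrev Phi : Gam ε m →* Matrix (Ix m) (Ix m) A := phi (bigNet ε m).closed

/-- Subgroups of the parahoric group given by positions. -/
abbrev U (T : Ix m → Ix m → Prop) : Subgroup (Gam ε m) := UT (bigNet ε m).ok T

theorem cmp_apply (M : Matrix (Fin 5) (Fin 5) (Blk A m)) (p p' : Ix m) :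
    cmp m M p p' = M p.1 p'.1 p.2 p'.2 := rfl

/-- Admissible blocks. -/
def Adm (i j : Fin 5) (M : Blk A m) : Prop :=
  i ≠ j ∧ ∀ r r', ε (M r r') = 0 ∨ (r = r' ∧ i < j)

variable {ε m}

theorem Adm.ok {i j : Fin 5} {M : Blk A m} (h : Adm ε m i j M) (r r' : Fin (m + 1)) :
    (bigNet ε m).ok (i, r) (j, r') (M r r') := by
  refine ⟨Finset.mem_univ _, Finset.mem_univ _, fun e => h.1 (congrArg Prod.fst e), ?_⟩
  rcases h.2 r r' with h' | ⟨rfl, h'⟩
  · exact Or.inr h'
  · left
    have : i.val < j.val := h'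
    simp only [bigNet]
    split_ifs <;> omega

theorem exists_XB {i j : Fin 5} {M : Blk A m} (h : Adm ε m i j M) :
    ∃ g ∈ U ε m (fun p p' => p.1 = i ∧ p'.1 = j ∧ M p.2 p'.2 ≠ 0),
      Phi ε m g = cmp m (1 + Matrix.single i j M) := by
  have hne : ∀ p p' : Ix m, cmp m (Matrix.single i j M) p p' ≠ 0 →
      p.1 = i ∧ p'.1 = j ∧ M p.2 p'.2 ≠ 0 := by
    intro p p' hp
    rw [cmp_apply, Matrix.single_apply] at hp
    by_cases e : i = p.1 ∧ j = p'.1
    · rw [if_pos e] at hp
      exact ⟨e.1.symm, e.2.symm, hp⟩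
    · rw [if_neg e] at hp
      exact absurd rfl hp
  obtain ⟨g, hg, e⟩ := exists_block (bigNet ε m).closed (cmp m (Matrix.single i j M))
    (fun p p' hp => by
      obtain ⟨h1, h2, _⟩ := hne p p' hp
      obtain ⟨k, r⟩ := p
      obtain ⟨l, r'⟩ := p'
      simp only at h1 h2
      subst h1 h2
      rw [cmp_apply, Matrix.single_apply_same]
      exact h.ok r r')
    (fun p p' p'' p''' h1 h2 e => by
      have e1 := (hne _ _ h1).2.1
      have e2 := (hne _ _ h2).1
      rw [e, e2] at e1
      exact h.1 e1)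
  exact ⟨g, UT_mono hne hg, by rw [map_add, map_one]; exact e⟩

variable (ε)

open Classical in
/-- The block generator. -/
noncomputable def XB (i j : Fin 5) (M : Blk A m) : Gam ε m :=
  if h : Adm ε m i j M then (exists_XB h).choose else 1

variable {ε}

theorem XB_mem {i j : Fin 5} {M : Blk A m} (h : Adm ε m i j M) :
    XB ε i j M ∈ U ε m (fun p p' => p.1 = i ∧ p'.1 = j ∧ M p.2 p'.2 ≠ 0) := by
  unfold XB; rw [dif_pos h]; exact (exists_XB h).choose_spec.1

theorem XB_mem' {i j : Fin 5} {M : Blk A m} (h : Adm ε m i j M) {T : Ix m → Ix m → Prop}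
    (hT : ∀ r r', M r r' ≠ 0 → T (i, r) (j, r')) : XB ε i j M ∈ U ε m T := by
  refine UT_mono ?_ (XB_mem h)
  rintro ⟨k, r⟩ ⟨l, r'⟩ ⟨h1, h2, h3⟩
  simp only at h1 h2 h3
  subst h1 h2
  exact hT r r' h3

theorem Phi_XB {i j : Fin 5} {M : Blk A m} (h : Adm ε m i j M) :
    Phi ε m (XB ε i j M) = cmp m (1 + Matrix.single i j M) := by
  unfold XB; rw [dif_pos h]; exact (exists_XB h).choose_spec.2

theorem XB_add {i j : Fin 5} {M M' : Blk A m} (h : Adm ε m i j M) (h' : Adm ε m i j M')
    (h'' : Adm ε m i j (M + M')) : XB ε i j (M + M') = XB ε i j M * XB ε i j M' := by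
  refine unip_ext (bigNet ε m).closed (T := fun p p' => p.1 = i ∧ p'.1 = j)
    (fun p => if p.1 = j then 1 else 0) (fun p p' hp => ?_)
    (XB_mem' h'' fun _ _ _ => ⟨rfl, rfl⟩)
    (Subgroup.mul_mem _ (XB_mem' h fun _ _ _ => ⟨rfl, rfl⟩) (XB_mem' h' fun _ _ _ => ⟨rfl, rfl⟩)) ?_
  · simp [hp.1, hp.2, h.1]
  · rw [map_mul, Phi_XB h, Phi_XB h', Phi_XB h'', ← map_mul]
    congr 1
    rw [add_mul, mul_add, mul_add, one_mul, one_mul, mul_one,
      Matrix.single_mul_single_of_ne _ _ _ _ (Ne.symm h.1), Matrix.single_add]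
    abel

theorem XB_comm {i j k l : Fin 5} {M M' : Blk A m} (h : Adm ε m i j M) (h' : Adm ε m k l M')
    (h1 : j ≠ k) (h2 : i ≠ l) : Commute (XB ε i j M) (XB ε k l M') := by
  refine commute_UT (bigNet ε m).closed ?_ (XB_mem h) (XB_mem h')
  rintro p p' p'' p''' ⟨e1, e2, _⟩ ⟨e3, e4, _⟩
  exact ⟨fun e => h1 (by rw [← e2, e, e3]), fun e => h2 (by rw [← e1, e, e4])⟩

theorem XB_mul {i j k : Fin 5} {M M' : Blk A m} (h : Adm ε m i j M) (h' : Adm ε m j k M')
    (h'' : Adm ε m i k (M * M')) : ⁅XB ε i j M, XB ε j k M'⁆ = XB ε i k (M * M') := by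
  have hij := h.1
  have hjk := h'.1
  have hik := h''.1
  have key : XB ε i j M * XB ε j k M' = XB ε i k (M * M') * XB ε j k M' * XB ε i j M := by
    refine unip_ext (bigNet ε m).closed
      (T := fun p p' => (p.1 = i ∧ p'.1 = j) ∨ (p.1 = j ∧ p'.1 = k) ∨ (p.1 = i ∧ p'.1 = k))
      (fun p => if p.1 = j then 1 else if p.1 = k then 2 else 0) (fun p p' hp => ?_)
      (Subgroup.mul_mem _ (XB_mem' h fun _ _ _ => Or.inl ⟨rfl, rfl⟩)
        (XB_mem' h' fun _ _ _ => Or.inr (Or.inl ⟨rfl, rfl⟩)))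
      (Subgroup.mul_mem _ (Subgroup.mul_mem _
        (XB_mem' h'' fun _ _ _ => Or.inr (Or.inr ⟨rfl, rfl⟩))
        (XB_mem' h' fun _ _ _ => Or.inr (Or.inl ⟨rfl, rfl⟩)))
        (XB_mem' h fun _ _ _ => Or.inl ⟨rfl, rfl⟩)) ?_
    · rcases hp with hp | hp | hp <;> simp [hp.1, hp.2, hij, hik, hjk.symm]
    · rw [map_mul, map_mul, map_mul, Phi_XB h, Phi_XB h', Phi_XB h'', ← map_mul, ← map_mul,
        ← map_mul]
      congr 1
      simp only [add_mul, mul_add, one_mul, mul_one, Matrix.single_mul_single_same,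
        Matrix.single_mul_single_of_ne _ _ _ _ (Ne.symm hjk),
        Matrix.single_mul_single_of_ne _ _ _ _ (Ne.symm hik), add_zero]
      abel
  rw [commutatorElement_def, key]
  group

/-- Non-unital homomorphisms to blocks that respect the augmentation. -/
structure Good (ε : A →+* κ) (m : ℕ) where
  f : A →ₙ+* Blk A m
  good : ∀ a r r', ε (f a r r') = 0 ∨ (r = r' ∧ ε a ≠ 0)

theorem Good.adm (F : Good ε m) {i j : Fin 5} {a : A} (ha : (iwNet ε).ok i j a) :
    Adm ε m i j (F.f a) := by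
  obtain ⟨h1, h2⟩ := (iwNet_ok ε i j a).mp ha
  refine ⟨h1, fun r r' => ?_⟩
  rcases F.good a r r' with h | ⟨h, h'⟩
  · exact Or.inl h
  · exact Or.inr ⟨h, lt_of_le_of_ne (h2.resolve_right h') h1⟩

/-- The twisted homomorphism from the Iwahori group to the parahoric group. -/
noncomputable def Good.th (F : Good ε m) : St (iwNet ε).ok →* Gam ε m :=
  St.lift (iwNet ε).closed (fun i j a => XB ε i j (F.f a))
    ⟨fun ha hb => by
      rw [map_add]
      exact XB_add (F.adm ha) (F.adm hb)
        (by rw [← map_add]; exact F.adm ((iwNet ε).closed.add ha hb)),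
     fun ha hb h1 h2 => XB_comm (F.adm ha) (F.adm hb) h1 h2,
     fun ha hb h1 => by
      rw [map_mul]
      exact XB_mul (F.adm ha) (F.adm hb)
        (by rw [← map_mul]; exact F.adm ((iwNet ε).closed.mul ha hb h1))⟩

theorem Good.th_x (F : Good ε m) {i j : Fin 5} {a : A} (ha : (iwNet ε).ok i j a) :
    F.th (St.x _ i j a) = XB ε i j (F.f a) :=
  St.lift_x _ _ _ ha

theorem Good.Phi_th (F : Good ε m) (g : St (iwNet ε).ok) :
    Phi ε m (F.th g) = cmp m (1 + (phi (iwNet ε).closed g - 1).map F.f) := by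
  refine St.induction_left (iwNet ε).closed
    (p := fun g => Phi ε m (F.th g) = cmp m (1 + (phi (iwNet ε).closed g - 1).map F.f)) ?_
    (fun i j a g ha ih => ?_) g
  · rw [map_one, map_one, map_one, sub_self, Matrix.map_zero _ (map_zero _), add_zero, map_one]
  · rw [map_mul, map_mul, map_mul, ih, F.th_x ha, Phi_XB (F.adm ha), ← map_mul, phi_x _ ha]
    congr 1
    have e : (1 + Matrix.single i j a) * phi (iwNet ε).closed g - 1 =
        Matrix.single i j a + (phi (iwNet ε).closed g - 1) +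
          Matrix.single i j a * (phi (iwNet ε).closed g - 1) := by noncomm_ring
    rw [e, Matrix.map_add _ (map_add _), Matrix.map_add _ (map_add _), Matrix.map_mul,
      Matrix.map_single]
    noncomm_ring

theorem Good.Phi_th_eq_one (F : Good ε m) {y : St (iwNet ε).ok}
    (hy : phi (iwNet ε).closed y = 1) : Phi ε m (F.th y) = 1 := by
  rw [F.Phi_th, hy, sub_self, Matrix.map_zero _ (map_zero _), add_zero, map_one]

/-- The image lies in the subgroup given by the support of the blocks. -/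
theorem Good.th_mem (F : Good ε m) {T : Ix m → Ix m → Prop}
    (hT : ∀ i j a r r', (iwNet ε).ok i j a → F.f a r r' ≠ 0 → T (i, r) (j, r'))
    (g : St (iwNet ε).ok) : F.th g ∈ U ε m T :=
  St.mem_of_gen ((U ε m T).comap F.th) (fun i j a ha => by
    rw [Subgroup.mem_comap, F.th_x ha]
    exact XB_mem' (F.adm ha) fun r r' h => hT i j a r r' ha h) g

end Tr

namespace Tr

variable {κ A : Type} [Ring κ] [Ring A] {ε : A →+* κ} {m : ℕ}

theorem Adm.sub {i j : Fin 5} {M M' : Blk A m} (h : Adm ε m i j M) (h' : Adm ε m i j M') :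
    Adm ε m i j (M - M') := by
  refine ⟨h.1, fun r r' => ?_⟩
  rcases h.2 r r' with e | e
  · rcases h'.2 r r' with e' | e'
    · left; rw [Matrix.sub_apply, map_sub, e, e', sub_self]
    · exact Or.inr e'
  · exact Or.inr e

theorem th_mul_inv_x (F G : Good ε m) {i j : Fin 5} {a : A} (ha : (iwNet ε).ok i j a) :
    F.th (St.x _ i j a) * (G.th (St.x _ i j a))⁻¹ = XB ε i j (F.f a - G.f a) := by
  rw [F.th_x ha, G.th_x ha, mul_inv_eq_iff_eq_mul,
    ← XB_add ((F.adm ha).sub (G.adm ha)) (G.adm ha) (by rw [sub_add_cancel]; exact F.adm ha),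
    sub_add_cancel]

theorem th_step (F G : Good ε m) (x g : St (iwNet ε).ok) :
    F.th (x * g) * (G.th (x * g))⁻¹ =
      (F.th x * (G.th x)⁻¹) * (G.th x * (F.th g * (G.th g)⁻¹) * (G.th x)⁻¹) := by
  rw [map_mul, map_mul]; group

variable (ε) in
/-- The diagonal homomorphism supported on `s`. -/
def dl (s : Finset (Fin (m + 1))) : Good ε m where
  f :=
    { toFun := fun a => Matrix.diagonal fun r => if r ∈ s then a else 0
      map_mul' := fun a b => by
        rw [Matrix.diagonal_mul_diagonal]; congr 1; funext r; split_ifs <;> simp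
      map_zero' := by simp
      map_add' := fun a b => by
        rw [Matrix.diagonal_add]; congr 1; funext r; split_ifs <;> simp }
  good := fun a r r' => by
    show ε (Matrix.diagonal (fun r => if r ∈ s then a else 0) r r') = 0 ∨ _
    rw [Matrix.diagonal_apply]
    by_cases h : r = r'
    · by_cases h' : ε a = 0
      · left; split_ifs <;> simp [h']
      · exact Or.inr ⟨h, h'⟩
    · left; simp [h]

theorem dl_apply (s : Finset (Fin (m + 1))) (a : A) (r r' : Fin (m + 1)) :
    (dl ε s).f a r r' = if r = r' ∧ r ∈ s then a else 0 := by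
  show Matrix.diagonal (fun r => if r ∈ s then a else 0) r r' = _
  rw [Matrix.diagonal_apply]
  by_cases h : r = r' <;> simp [h]

theorem dl_ne {s : Finset (Fin (m + 1))} {a : A} {r r' : Fin (m + 1)}
    (h : (dl ε s).f a r r' ≠ 0) : r = r' ∧ r ∈ s := by
  rw [dl_apply] at h
  by_contra h'
  exact h (if_neg h')

theorem dl_mem (s : Finset (Fin (m + 1))) (g : St (iwNet ε).ok) :
    (dl ε s).th g ∈ U ε m (fun p p' => p.2 = p'.2 ∧ p.2 ∈ s) :=
  (dl ε s).th_mem (fun _ _ _ _ _ _ h => dl_ne h) g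

/-- A lower triangular homomorphism agrees with its diagonal part on the kernel. -/
theorem th_eq_dl (F : Good ε m) (s : Finset (Fin (m + 1)))
    (h1 : ∀ a r r', r < r' → F.f a r r' = 0) (h2 : ∀ a r, r ∈ s → F.f a r r = a)
    (h3 : ∀ a r, r ∉ s → ε a = 0 → F.f a r r = 0) {y : St (iwNet ε).ok}
    (hy : phi (iwNet ε).closed y = 1) : F.th y = (dl ε s).th y := by
  have key : ∀ g, F.th g * ((dl ε s).th g)⁻¹ ∈
      U ε m (fun p p' => p'.2 < p.2 ∨ (p.2 = p'.2 ∧ p.2 ∉ s ∧ p.1 < p'.1)) := by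
    intro g
    refine St.induction_left (iwNet ε).closed (p := fun g => F.th g * ((dl ε s).th g)⁻¹ ∈
      U ε m (fun p p' => p'.2 < p.2 ∨ (p.2 = p'.2 ∧ p.2 ∉ s ∧ p.1 < p'.1))) (by simp)
      (fun i j a g ha ih => ?_) g
    rw [th_step, th_mul_inv_x _ _ ha]
    refine Subgroup.mul_mem _ (XB_mem' ((F.adm ha).sub ((dl ε s).adm ha)) fun r r' h => ?_)
      (conj_UT_UT (bigNet ε m).closed ?_ ?_ ?_ (dl_mem s _) ih)
    · rw [Matrix.sub_apply, dl_apply] at h
      rcases lt_trichotomy r r' with e | e | e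
      · exact absurd (by rw [h1 a r r' e, if_neg (fun h => e.ne h.1), sub_zero]) h
      · subst e
        by_cases hs : r ∈ s
        · exact absurd (by rw [h2 a r hs, if_pos ⟨rfl, hs⟩, sub_self]) h
        · refine Or.inr ⟨rfl, hs, ?_⟩
          obtain ⟨e1, e2⟩ := (iwNet_ok ε i j a).mp ha
          refine lt_of_le_of_ne (e2.resolve_right fun e => h ?_) e1
          rw [h3 a r hs e, if_neg (fun h => hs h.2), sub_zero]
      · exact Or.inl e
    · rintro p p' ⟨e, hs⟩ (h | h)
      · exact h.ne e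
      · exact h.2.1 (e ▸ hs)
    · rintro p p' l ⟨e, hs⟩ (h | h)
      · exact Or.inl (e ▸ h)
      · exact absurd (e ▸ hs) h.2.1
    · rintro p p' l ⟨e, hs⟩ (h | h)
      · exact Or.inl (e ▸ h)
      · exact absurd (h.1 ▸ hs) h.2.1
  rw [← mul_inv_eq_one]
  refine unip_inj (bigNet ε m).closed (fun p => (m - p.2.val) * 5 + p.1.val) ?_ (key y) ?_
  · rintro ⟨i, r⟩ ⟨j, r'⟩ (h | ⟨h, _, h'⟩)
    · have h : r'.val < r.val := h
      have := r.2
      have := i.2
      simp only
      omega
    · have h' : i.val < j.val := h'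
      simp only at h
      subst h
      simp only
      omega
  · rw [mul_inv_eq_iff_eq_mul.mpr (mul_inv_eq_iff_eq_mul.mp rfl), map_mul, F.Phi_th_eq_one hy,
      one_mul, ← map_inv]
    exact (dl ε s).Phi_th_eq_one (by
      rw [← one_mul (phi _ y⁻¹), ← hy, ← map_mul, mul_inv_cancel, map_one, hy])

theorem dl_empty (g : St (iwNet ε).ok) : (dl ε (∅ : Finset (Fin (m + 1)))).th g = 1 :=
  UT_induction (bigNet ε m).closed (p := fun g => g = 1) rfl
    (fun _ _ _ _ _ h => absurd h.2 (Finset.notMem_empty _)) (dl_mem ∅ g)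

theorem dl_insert {s : Finset (Fin (m + 1))} {r : Fin (m + 1)} (hr : r ∉ s)
    (g : St (iwNet ε).ok) : (dl ε (insert r s)).th g = (dl ε {r}).th g * (dl ε s).th g := by
  refine St.induction_left (iwNet ε).closed
    (p := fun g => (dl ε (insert r s)).th g = (dl ε {r}).th g * (dl ε s).th g) (by simp)
    (fun i j a g ha ih => ?_) g
  have e : (dl ε (insert r s)).f a = (dl ε {r}).f a + (dl ε s).f a := by
    ext t t'
    simp only [Matrix.add_apply, dl_apply, Finset.mem_insert, Finset.mem_singleton]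
    by_cases h : t = t'
    · by_cases h' : t = r
      · subst h h'; simp [hr]
      · simp [h']
    · simp [h]
  have hc : Commute ((dl ε s).th (St.x _ i j a)) ((dl ε {r}).th g) := by
    refine commute_UT (bigNet ε m).closed ?_ (dl_mem s _) (dl_mem {r} _)
    rintro p p' l l' ⟨e1, e2⟩ ⟨e3, e4⟩
    rw [Finset.mem_singleton] at e4
    exact ⟨fun e => hr (by rw [← e4, ← e, ← e1]; exact e2),
      fun e => hr (by rw [← e4, e3, ← e]; exact e2)⟩
  rw [map_mul, map_mul, map_mul, ih, mul_assoc, ← mul_assoc ((dl ε {r}).th g), ← hc.eq,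
    ← mul_assoc, ← mul_assoc, ← mul_assoc, Good.th_x _ ha, Good.th_x _ ha, Good.th_x _ ha, e,
    XB_add ((dl ε {r}).adm ha) ((dl ε s).adm ha) (by rw [← e]; exact (dl ε _).adm ha)]

theorem dl_zero (g : St (iwNet ε).ok) :
    (dl ε ({0} : Finset (Fin (m + 1)))).th g = unToBig ε m (iwToUn ε g) := by
  have : (dl ε ({0} : Finset (Fin (m + 1)))).th = (unToBig ε m).comp (iwToUn ε) := by
    refine St.hom_ext fun i j a ha => ?_
    have hij : i ≠ j := ha.2.2.1
    have ha' : (unNet ε).ok i j a := (unNet_ok ε i j a).mpr hij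
    have hb : (bigNet ε m).ok (i, 0) (j, 0) a :=
      ⟨Finset.mem_univ _, Finset.mem_univ _, fun e => hij (congrArg Prod.fst e),
        Or.inl (by simp [bigNet])⟩
    have e : (unToBig ε m).comp (iwToUn ε) (St.x _ i j a) =
        St.x (bigNet ε m).ok (i, 0) (j, 0) a := by
      rw [MonoidHom.comp_apply]
      unfold iwToUn unToBig
      rw [St.reindex_x _ _ _ _ ha]
      exact St.reindex_x _ _ _ _ ha'
    rw [e, Good.th_x _ ha]
    refine unip_ext (bigNet ε m).closed (T := fun p p' => p.1 = i ∧ p'.1 = j)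
      (fun p => if p.1 = j then 1 else 0) (fun p p' hp => by simp [hp.1, hp.2, hij])
      (XB_mem' ((dl ε _).adm ha) fun _ _ _ => ⟨rfl, rfl⟩) (x_mem_UT ⟨rfl, rfl⟩) ?_
    rw [Phi_XB ((dl ε _).adm ha), phi_x _ hb, map_add, map_one]
    congr 1
    ext ⟨k, r⟩ ⟨l, r'⟩
    rw [cmp_apply]
    simp only [Matrix.single_apply, Prod.mk.injEq]
    by_cases h : i = k ∧ j = l
    · rw [if_pos h, dl_apply]
      simp only [h.1, h.2, true_and, Finset.mem_singleton]
      refine if_congr ⟨fun ⟨a, b⟩ => ⟨b.symm, by rw [← a, b]⟩, fun ⟨a, b⟩ => ⟨by rw [← a, b], a.symm⟩⟩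
        rfl rfl
    · rw [if_neg h, if_neg (fun h' => h ⟨h'.1.1, h'.2.1⟩)]
      rfl
  rw [this, MonoidHom.comp_apply]

theorem exists_Ph (P : Blk A m) (h0 : ∀ r r', r' < r → P r r' = 0) (h1 : ∀ r, P r r = 1) :
    ∃ g ∈ U ε m (fun p p' => p.1 = p'.1 ∧ p.2 < p'.2 ∧ P p.2 p'.2 ≠ 0),
      Phi ε m g = cmp m (Matrix.diagonal fun _ => P) := by
  have hne : ∀ p p' : Ix m, cmp m (Matrix.diagonal fun _ => P - 1) p p' ≠ 0 →
      p.1 = p'.1 ∧ p.2 < p'.2 ∧ P p.2 p'.2 ≠ 0 := by
    intro p p' hp
    rw [cmp_apply, Matrix.diagonal_apply] at hp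
    by_cases e : p.1 = p'.1
    · rw [if_pos e, Matrix.sub_apply] at hp
      rcases lt_trichotomy p.2 p'.2 with h | h | h
      · exact ⟨e, h, by rwa [Matrix.one_apply_ne h.ne, sub_zero] at hp⟩
      · exact absurd (by rw [h, h1, Matrix.one_apply_eq, sub_self]) hp
      · exact absurd (by rw [h0 _ _ h, Matrix.one_apply_ne h.ne', sub_self]) hp
    · rw [if_neg e] at hp
      exact absurd rfl hp
  obtain ⟨g, hg, e⟩ := exists_unip (bigNet ε m).closed (fun p => p.2.val)
    (cmp m (Matrix.diagonal fun _ => P - 1))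
    (fun p p' hp => by
      obtain ⟨e1, e2, _⟩ := hne p p' hp
      refine ⟨Finset.mem_univ _, Finset.mem_univ _, fun e => e2.ne (congrArg Prod.snd e),
        Or.inl ?_⟩
      have e3 : p.2.val < p'.2.val := e2
      have e4 : p'.2 ≠ 0 := fun e => by rw [e] at e3; simp at e3
      simp only [bigNet, e1, if_neg e4]
      split_ifs <;> omega)
    (fun p p' hp => (hne p p' hp).2.1)
  refine ⟨g, UT_mono hne hg, ?_⟩
  rw [e, ← map_one (cmp m), ← map_add]
  congr 1
  rw [← Matrix.diagonal_one, Matrix.diagonal_add]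
  simp

theorem conj_th {P : Blk A m} {z : Gam ε m}
    (hz : z ∈ U ε m (fun p p' => p.1 = p'.1 ∧ p.2 < p'.2 ∧ P p.2 p'.2 ≠ 0))
    (ez : Phi ε m z = cmp m (Matrix.diagonal fun _ => P)) (F G : Good ε m)
    (h : ∀ a, P * G.f a = F.f a * P) (g : St (iwNet ε).ok) : z * G.th g = F.th g * z := by
  refine St.induction_left (iwNet ε).closed (p := fun g => z * G.th g = F.th g * z) (by simp)
    (fun i j a g ha ih => ?_) g
  have hij : i ≠ j := ha.2.2.1
  have e : z * G.th (St.x _ i j a) = F.th (St.x _ i j a) * z := by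
    rw [G.th_x ha, F.th_x ha]
    have hz' : z ∈ U ε m (fun p p' => (p.1 = p'.1 ∧ p.2 < p'.2) ∨ (p.1 = i ∧ p'.1 = j)) :=
      UT_mono (fun _ _ h => Or.inl ⟨h.1, h.2.1⟩) hz
    refine unip_ext (bigNet ε m).closed
      (T := fun p p' => (p.1 = p'.1 ∧ p.2 < p'.2) ∨ (p.1 = i ∧ p'.1 = j))
      (fun p => (if p.1 = j then m + 1 else 0) + p.2.val) ?_
      (Subgroup.mul_mem _ hz' (XB_mem' (G.adm ha) fun _ _ _ => Or.inr ⟨rfl, rfl⟩))
      (Subgroup.mul_mem _ (XB_mem' (F.adm ha) fun _ _ _ => Or.inr ⟨rfl, rfl⟩) hz') ?_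
    · rintro p p' (⟨e1, e2⟩ | ⟨e1, e2⟩)
      · have : p.2.val < p'.2.val := e2
        simp only [e1]
        omega
      · have := p.2.2
        simp only [e1, e2, if_neg hij, if_true]
        omega
    · rw [map_mul, map_mul, ez, Phi_XB (G.adm ha), Phi_XB (F.adm ha), ← map_mul, ← map_mul]
      congr 1
      rw [mul_add, add_mul, mul_one, one_mul]
      congr 1
      refine Matrix.ext fun k l => ?_
      rw [Matrix.diagonal_mul, Matrix.mul_diagonal, Matrix.single_apply, Matrix.single_apply]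
      split_ifs
      · exact h a
      · simp
  rw [map_mul, map_mul, ← mul_assoc, e, mul_assoc, ih, mul_assoc]

end Tr

namespace Tr

variable {q : ℕ} [Fact q.Prime] {A : Type} [Ring A] [Algebra (ZMod q) A] {X : Type}
  (D : GrData q X A) {m : ℕ}

theorem ind' (p : A → Prop) (h0 : p 0) (h1 : p 1) (hx : ∀ x a, p a → p (D.gen x * a))
    (hadd : ∀ a b, p a → p b → p (a + b)) : ∀ a, p a := by
  refine D.ind p h0 (fun w => ?_) hadd
  induction w with
  | nil => simpa using h1
  | cons x w ih => rw [List.map_cons, List.prod_cons]; exact hx x _ ih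

/-- The twisted ring homomorphism. -/
noncomputable def ps (c : Blk (ZMod q) m) : A →+* Blk A m := (D.psi (m + 1) c).choose

theorem ps_gen (c : Blk (ZMod q) m) (x : X) : ps D c (D.gen x) = c.map fun t => t • D.gen x :=
  (D.psi (m + 1) c).choose_spec x

theorem ps_mul (c : Blk (ZMod q) m) (x : X) (a : A) (r r' : Fin (m + 1)) :
    ps D c (D.gen x * a) r r' = ∑ s, c r s • (D.gen x * ps D c a s r') := by
  rw [map_mul, ps_gen, Matrix.mul_apply]
  simp only [Matrix.map_apply, smul_mul_assoc]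

theorem eps_ps (c : Blk (ZMod q) m) (a : A) :
    ∀ r r', D.eps (ps D c a r r') = if r = r' then D.eps a else 0 := by
  refine ind' D (fun a => ∀ r r', D.eps (ps D c a r r') = if r = r' then D.eps a else 0)
    (by simp) (fun r r' => ?_) (fun x a _ r r' => ?_) (fun a b ha hb r r' => ?_) a
  · rw [map_one, Matrix.one_apply]; split_ifs <;> simp
  · rw [ps_mul, map_sum, map_mul, D.eps_gen, zero_mul, ite_self]
    refine Finset.sum_eq_zero fun s _ => ?_
    rw [Algebra.smul_def, map_mul, map_mul, D.eps_gen, zero_mul, mul_zero]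
  · rw [map_add, Matrix.add_apply, map_add, ha, hb, map_add]; split_ifs <;> simp

/-- The twisted ring homomorphism respects the augmentation. -/
noncomputable def gd (c : Blk (ZMod q) m) : Good D.eps m where
  f := ps D c
  good := fun a r r' => by
    show D.eps (ps D c a r r') = 0 ∨ _
    rw [eps_ps]
    by_cases h : r = r'
    · by_cases h' : D.eps a = 0
      · left; simp [h']
      · exact Or.inr ⟨h, h'⟩
    · left; simp [h]

theorem gd_f (c : Blk (ZMod q) m) (a : A) : (gd D c).f a = ps D c a := rfl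

theorem ps_conj {P c c' : Blk (ZMod q) m} (h : P * c' = c * P) (a : A) :
    P.map (algebraMap (ZMod q) A) * ps D c' a = ps D c a * P.map (algebraMap (ZMod q) A) := by
  refine ind' D
    (fun a => P.map (algebraMap (ZMod q) A) * ps D c' a = ps D c a * P.map (algebraMap (ZMod q) A))
    (by simp) (by simp) (fun x a ih => ?_) (fun a b ha hb => ?_) a
  · have e : P.map (algebraMap (ZMod q) A) * ps D c' (D.gen x) =
        ps D c (D.gen x) * P.map (algebraMap (ZMod q) A) := by
      ext r r'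
      have := congrArg (fun t => t • D.gen x) (congrFun (congrFun h r) r')
      simp only [Matrix.mul_apply, Finset.sum_smul] at this
      simp only [ps_gen, Matrix.mul_apply, Matrix.map_apply, Algebra.algebraMap_eq_smul_one,
        smul_mul_assoc, mul_smul_comm, one_mul, mul_one, smul_smul]
      simpa only [mul_comm] using this
    rw [map_mul, map_mul, ← mul_assoc, e, mul_assoc, ih, mul_assoc]
  · rw [map_add, map_add, mul_add, add_mul, ha, hb]

theorem ps_lower {c : Blk (ZMod q) m} (hc : ∀ r r', r < r' → c r r' = 0)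
    (hd : ∀ r, c r r = 0 ∨ c r r = 1) (a : A) :
    (∀ r r', r < r' → ps D c a r r' = 0) ∧
      ∀ r, ps D c a r r = if c r r = 1 then a else algebraMap (ZMod q) A (D.eps a) := by
  refine ind' D (fun a => (∀ r r', r < r' → ps D c a r r' = 0) ∧
      ∀ r, ps D c a r r = if c r r = 1 then a else algebraMap (ZMod q) A (D.eps a))
    (by simp) ⟨fun r r' h => ?_, fun r => ?_⟩ (fun x a ih => ⟨fun r r' h => ?_, fun r => ?_⟩)
    (fun a b ha hb => ⟨fun r r' h => ?_, fun r => ?_⟩) a
  · rw [map_one, Matrix.one_apply_ne h.ne]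
  · simp
  · rw [ps_mul]
    refine Finset.sum_eq_zero fun s _ => ?_
    rcases lt_or_ge r s with e | e
    · rw [hc r s e, zero_smul]
    · rw [ih.1 s r' (lt_of_le_of_lt e h), mul_zero, smul_zero]
  · rw [ps_mul, Finset.sum_eq_single r]
    · rw [ih.2, map_mul, D.eps_gen, zero_mul, map_zero]
      rcases hd r with h | h
      · simp [h]
      · simp [h]
    · intro s _ hs
      rcases lt_or_gt_of_ne hs with e | e
      · rw [ih.1 s r e, mul_zero, smul_zero]
      · rw [hc r s e, zero_smul]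
    · simp
  · rw [map_add, Matrix.add_apply, ha.1 r r' h, hb.1 r r' h, add_zero]
  · rw [map_add, Matrix.add_apply, ha.2, hb.2, map_add, map_add]; split_ifs <;> rfl

theorem gd_lower {c : Blk (ZMod q) m} (hc : ∀ r r', r < r' → c r r' = 0) (s : Finset (Fin (m + 1)))
    (hs : ∀ r, c r r = if r ∈ s then 1 else 0) {y : St (iwNet D.eps).ok}
    (hy : phi (iwNet D.eps).closed y = 1) : (gd D c).th y = (dl D.eps s).th y :=
  have hd : ∀ r, c r r = 0 ∨ c r r = 1 := fun r => by rw [hs]; split_ifs <;> simp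
  th_eq_dl _ s (fun a => (ps_lower D hc hd a).1)
    (fun a r hr => by rw [gd_f, (ps_lower D hc hd a).2, if_pos (by rw [hs, if_pos hr])])
    (fun a r hr e => by
      rw [gd_f, (ps_lower D hc hd a).2, if_neg (by rw [hs, if_neg hr]; exact zero_ne_one), e,
        map_zero]) hy

theorem exists_conj {P c c' : Blk (ZMod q) m} (h0 : ∀ r r', r' < r → P r r' = 0) (h1 : ∀ r, P r r = 1)
    (h : P * c' = c * P) :
    ∃ z ∈ U D.eps m (fun p p' => p.1 = p'.1 ∧ p.2 < p'.2 ∧ P p.2 p'.2 ≠ 0),
      ∀ g, z * (gd D c').th g = (gd D c).th g * z := by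
  obtain ⟨z, hz, ez⟩ := exists_Ph (ε := D.eps) (P.map (algebraMap (ZMod q) A))
    (fun r r' e => by rw [Matrix.map_apply, h0 r r' e, map_zero])
    (fun r => by rw [Matrix.map_apply, h1, map_one])
  refine ⟨z, UT_mono ?_ hz, conj_th hz ez _ _ (ps_conj D h)⟩
  rintro p p' ⟨e1, e2, e3⟩
  exact ⟨e1, e2, fun e => e3 (by rw [Matrix.map_apply, e, map_zero])⟩

theorem dl_single (r : Fin (m + 1)) {y : St (iwNet D.eps).ok}
    (hy : phi (iwNet D.eps).closed y = 1) : (dl D.eps {r}).th y = (dl D.eps {0}).th y := by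
  by_cases hr : r = 0
  · rw [hr]
  have hr' : (0 : Fin (m + 1)) ≠ r := Ne.symm hr
  have hlt : ∀ t : Fin (m + 1), ¬ t < 0 := fun t => Fin.not_lt_zero t
  obtain ⟨z, hz, ez⟩ := exists_conj D (P := 1 + Matrix.single 0 r 1)
    (c := Matrix.single 0 0 1 + Matrix.single r 0 1)
    (c' := Matrix.single r r 1 + Matrix.single r 0 1)
    (fun t t' h => by
      rw [Matrix.add_apply, Matrix.one_apply_ne h.ne', Matrix.single_apply, if_neg, add_zero]
      rintro ⟨rfl, rfl⟩
      exact hlt _ h)
    (fun t => by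
      rw [Matrix.add_apply, Matrix.one_apply_eq, Matrix.single_apply, if_neg, add_zero]
      rintro ⟨rfl, e⟩
      exact hr e)
    (by
      simp only [add_mul, mul_add, one_mul, mul_one, Matrix.single_mul_single_same]
      abel)
  have e1 := gd_lower D (c := Matrix.single 0 0 1 + Matrix.single r 0 1)
    (fun t t' h => by
      rw [Matrix.add_apply, Matrix.single_apply, Matrix.single_apply, if_neg, if_neg, add_zero]
      · rintro ⟨_, rfl⟩; exact hlt _ h
      · rintro ⟨_, rfl⟩; exact hlt _ h) {0}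
    (fun t => by
      rw [Matrix.add_apply, Matrix.single_apply, Matrix.single_apply]
      by_cases h : t = 0
      · simp [h, hr]
      · simp [h, Ne.symm h]) hy
  have e2 := gd_lower D (c := Matrix.single r r 1 + Matrix.single r 0 1)
    (fun t t' h => by
      rw [Matrix.add_apply, Matrix.single_apply, Matrix.single_apply, if_neg, if_neg, add_zero]
      · rintro ⟨_, rfl⟩; exact hlt _ h
      · rintro ⟨rfl, rfl⟩; exact lt_irrefl _ h) {r}
    (fun t => by
      rw [Matrix.add_apply, Matrix.single_apply, Matrix.single_apply]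
      by_cases h : t = r
      · simp [h, hr']
      · simp [h, Ne.symm h]) hy
  have e3 := ez y
  rw [e1, e2] at e3
  have hz' : z ∈ U D.eps m (fun p p' => p.2 = 0 ∧ p'.2 = r) := by
    refine UT_mono ?_ hz
    rintro p p' ⟨_, h1, h2⟩
    rw [Matrix.add_apply, Matrix.one_apply_ne h1.ne, zero_add, Matrix.single_apply] at h2
    by_contra h
    exact h2 (if_neg fun h' => h ⟨h'.1.symm, h'.2.symm⟩)
  have hw := conj_UT_UT (bigNet D.eps m).closed (T := fun p p' => p.2 = 0 ∧ p'.2 = r)
    (T' := fun p p' => p.2 = p'.2 ∧ p.2 ∈ ({r} : Finset (Fin (m + 1))))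
    (fun p p' h h' => hr (by rw [← Finset.mem_singleton.mp h.2, h.1, h'.1]))
    (fun p p' l h h' => absurd (by rw [← Finset.mem_singleton.mp h.2, h.1, h'.1]) hr)
    (fun p p' l h h' => ⟨h'.1, by rw [← h.1, h'.2]⟩) (dl_mem {r} y) hz'
  have e4 : (dl D.eps {r}).th y * z * ((dl D.eps {r}).th y)⁻¹ = z := by
    refine unip_ext (bigNet D.eps m).closed (fun p => p.2.val) ?_ hw hz' ?_
    · rintro p p' ⟨h1, h2⟩
      simp only [h1, h2]
      exact Nat.pos_of_ne_zero fun e => hr (Fin.ext e)
    · rw [map_mul, map_mul, Good.Phi_th_eq_one _ hy, one_mul, ← map_inv, Good.Phi_th_eq_one _ (by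
        rw [← one_mul (phi _ y⁻¹), ← hy, ← map_mul, mul_inv_cancel, map_one, hy]), mul_one]
  rw [mul_inv_eq_iff_eq_mul, e3] at e4
  exact mul_right_cancel e4

theorem dl_pow (s : Finset (Fin (m + 1))) {y : St (iwNet D.eps).ok}
    (hy : phi (iwNet D.eps).closed y = 1) :
    (dl D.eps s).th y = unToBig D.eps m (iwToUn D.eps y) ^ s.card := by
  induction s using Finset.induction_on with
  | empty => rw [dl_empty, Finset.card_empty, pow_zero]
  | insert r s hr ih =>
    rw [dl_insert hr, ih, dl_single D r hy, dl_zero, Finset.card_insert_of_notMem hr, pow_succ']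

/-- The cyclic shift. -/
def cyc (q m : ℕ) : Blk (ZMod q) m := Matrix.of fun r s => if s = r - 1 then 1 else 0

/-- The nilpotent shift. -/
def shf (q m : ℕ) : Blk (ZMod q) m := Matrix.of fun r s => if r.val = s.val + 1 then 1 else 0

theorem ps_cyc (x : X) (a : A) (r r' : Fin (m + 1)) :
    ps D (cyc q m) (D.gen x * a) r r' = D.gen x * ps D (cyc q m) a (r - 1) r' := by
  rw [ps_mul, Finset.sum_eq_single (r - 1)]
  · simp [cyc]
  · intro s _ hs; simp [cyc, hs]
  · simp

theorem ps_shf (x : X) (a : A) (r r' : Fin (m + 1)) :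
    ps D (shf q m) (D.gen x * a) r r' =
      if r = 0 then 0 else D.gen x * ps D (shf q m) a (r - 1) r' := by
  rw [ps_mul]
  split_ifs with h
  · refine Finset.sum_eq_zero fun s _ => ?_
    simp [shf, h]
  · have hv : (r - 1).val = r.val - 1 := by rw [Fin.coe_sub_one, if_neg h]
    have h' : r.val ≠ 0 := fun e => h (Fin.ext e)
    rw [Finset.sum_eq_single (r - 1)]
    · have : r.val = (r - 1).val + 1 := by omega
      simp only [shf, Matrix.of_apply, if_pos this, one_smul]
    · intro s _ hs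
      have : ¬ r.val = s.val + 1 := fun e => hs (Fin.ext (by omega))
      simp only [shf, Matrix.of_apply, if_neg this, zero_smul]
    · simp

/-- Band structure of the images under the two shifts. -/
def Band (n : ℕ) (a : A) : Prop :=
  ∀ (m : ℕ) (r r' : Fin (m + 1)),
    (ps D (shf q m) a r r' ≠ 0 → r'.val ≤ r.val ∧ r.val ≤ r'.val + n) ∧
    (ps D (cyc q m) a r r' ≠ ps D (shf q m) a r r' → r.val < n ∧ m + 1 ≤ r'.val + n)

theorem exists_band (a : A) : ∃ n, Band D n a := by
  refine ind' D (fun a => ∃ n, Band D n a) ⟨0, fun m r r' => by simp⟩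
    ⟨0, fun m r r' => ⟨fun h => ?_, by simp⟩⟩ ?_ ?_ a
  · rw [map_one, Matrix.one_apply] at h
    have : r = r' := by
      by_contra e
      exact h (if_neg e)
    omega
  · rintro x a ⟨n, hn⟩
    refine ⟨n + 1, fun m r r' => ?_⟩
    have hv := Fin.coe_sub_one r
    obtain ⟨h1, h2⟩ := hn m (r - 1) r'
    rw [ps_cyc, ps_shf]
    by_cases hr : r = 0
    · rw [if_pos hr] at hv ⊢
      refine ⟨fun h => absurd rfl h, fun h => ⟨by rw [hr]; simp, ?_⟩⟩
      by_cases e : ps D (shf q m) a (r - 1) r' = 0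
      · have := h2 (fun e' => h (by rw [e', e, mul_zero]))
        omega
      · have := h1 e
        omega
    · rw [if_neg hr] at hv ⊢
      have h' : r.val ≠ 0 := fun e => hr (Fin.ext e)
      refine ⟨fun h => ?_, fun h => ?_⟩
      · have := h1 (fun e => h (by rw [e, mul_zero]))
        omega
      · have := h2 (fun e => h (by rw [e]))
        omega
  · rintro a b ⟨n, hn⟩ ⟨k, hk⟩
    refine ⟨n + k, fun m r r' => ?_⟩
    obtain ⟨h1, h2⟩ := hn m r r'
    obtain ⟨h3, h4⟩ := hk m r r'
    simp only [map_add, Matrix.add_apply]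
    refine ⟨fun h => ?_, fun h => ?_⟩
    · by_cases e : ps D (shf q m) a r r' = 0
      · have := h3 (fun e' => h (by rw [e, e', add_zero]))
        omega
      · have := h1 e
        omega
    · by_cases e : ps D (cyc q m) a r r' = ps D (shf q m) a r r'
      · have := h4 (fun e' => h (by rw [e, e']))
        omega
      · have := h2 e
        omega

theorem exists_local (g : St (iwNet D.eps).ok) : ∃ d : ℕ, ∀ m : ℕ, 2 * d ≤ m →
    (gd D (cyc q m)).th g * ((gd D (shf q m)).th g)⁻¹ ∈
      U D.eps m (fun p p' => p.2.val < d ∧ m + 1 ≤ p'.2.val + d) := by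
  refine St.induction_left (iwNet D.eps).closed (p := fun g => ∃ d : ℕ, ∀ m : ℕ, 2 * d ≤ m →
    (gd D (cyc q m)).th g * ((gd D (shf q m)).th g)⁻¹ ∈
      U D.eps m (fun p p' => p.2.val < d ∧ m + 1 ≤ p'.2.val + d)) ⟨0, fun m _ => by simp⟩ ?_ g
  rintro i j a g ha ⟨d, hd⟩
  obtain ⟨n, hn⟩ := exists_band D a
  have hij : i ≠ j := ha.2.2.1
  refine ⟨d + n, fun m hm => ?_⟩
  rw [th_step, th_mul_inv_x _ _ ha]
  refine Subgroup.mul_mem _ (XB_mem' (((gd D _).adm ha).sub ((gd D _).adm ha)) fun r r' h => ?_) ?_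
  · have := (hn m r r').2 (fun e => h (by rw [Matrix.sub_apply, gd_f, gd_f, e, sub_self]))
    simp only
    omega
  · have hx : (gd D (shf q m)).th (St.x _ i j a) ∈ U D.eps m (fun p p' =>
        p.1 = i ∧ p'.1 = j ∧ p'.2.val ≤ p.2.val ∧ p.2.val ≤ p'.2.val + n) := by
      rw [Good.th_x _ ha]
      exact XB_mem' ((gd D _).adm ha) fun r r' h => ⟨rfl, rfl, (hn m r r').1 h⟩
    refine UT_mono ?_ (conj_UT_UT (bigNet D.eps m).closed
      (T := fun p p' => (p.2.val < d ∨ (p.1 = i ∧ p.2.val < d + n)) ∧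
        (m + 1 ≤ p'.2.val + d ∨ (p'.1 = j ∧ m + 1 ≤ p'.2.val + (d + n)))) ?_ ?_ ?_ hx
      (UT_mono (fun p p' h => ⟨Or.inl h.1, Or.inl h.2⟩) (hd m (by omega))))
    · rintro p p' ⟨h1, h2⟩
      constructor <;> omega
    · rintro p p' ⟨e1, e2, e3, e4⟩ ⟨h1 | h1, h2 | h2⟩
      · omega
      · exact hij (by rw [← e1, h2.1])
      · exact hij (by rw [← e2, h1.1])
      · exact hij (by rw [← e2, h1.1])
    · rintro p p' l ⟨e1, e2, e3, e4⟩ ⟨h1 | h1, h2⟩
      · exact ⟨Or.inr ⟨e1, by omega⟩, h2⟩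
      · exact absurd (by rw [← e2, h1.1]) hij
    · rintro p p' l ⟨e1, e2, e3, e4⟩ ⟨h1, h2 | h2⟩
      · exact ⟨h1, Or.inr ⟨e2, by omega⟩⟩
      · exact absurd (by rw [← e1, h2.1]) hij

theorem cyc_eq_one {y : St (iwNet D.eps).ok} (hy : phi (iwNet D.eps).closed y = 1) :
    ∃ d : ℕ, ∀ m : ℕ, d ≤ m → (gd D (cyc q m)).th y = 1 := by
  obtain ⟨d, hd⟩ := exists_local D y
  refine ⟨2 * d, fun m hm => ?_⟩
  have h1 := hd m hm
  have h2 : (gd D (shf q m)).th y = 1 := by
    rw [gd_lower D (c := shf q m) (fun r r' h => by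
      have : r.val < r'.val := h
      simp only [shf, Matrix.of_apply]
      rw [if_neg (by omega)]) ∅ (fun r => by simp [shf]) hy, dl_empty]
  rw [h2, inv_one, mul_one] at h1
  refine unip_inj (bigNet D.eps m).closed (fun p => if p.2.val < d then 0 else 1) ?_ h1
    (Good.Phi_th_eq_one _ hy)
  rintro p p' ⟨e1, e2⟩
  rw [if_pos e1, if_neg (by omega)]
  exact Nat.zero_lt_one

/-- The Pascal matrix with signs. -/
def pas (q m : ℕ) : Blk (ZMod q) m :=
  Matrix.of fun s r => (-1) ^ (r.val + s.val) * ((r.val.choose s.val : ℕ) : ZMod q)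

theorem pas_conj {m k : ℕ} (hm : m + 1 = q ^ k) :
    pas q m * (1 + shf q m) = cyc q m * pas q m := by
  ext s r
  have e1 : (cyc q m * pas q m) s r =
      (-1) ^ (r.val + (s - 1).val) * ((r.val.choose (s - 1).val : ℕ) : ZMod q) := by
    rw [Matrix.mul_apply, Finset.sum_eq_single (s - 1)]
    · simp [cyc, pas]
    · intro t _ ht; simp [cyc, ht]
    · simp
  have e2 : (pas q m * shf q m) s r =
      if r.val < m then (-1) ^ (r.val + 1 + s.val) * (((r.val + 1).choose s.val : ℕ) : ZMod q)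
        else 0 := by
    rw [Matrix.mul_apply]
    split_ifs with h
    · rw [Finset.sum_eq_single ⟨r.val + 1, by omega⟩]
      · simp [shf, pas]
      · intro t _ ht
        have : ¬ t.val = r.val + 1 := fun e => ht (Fin.ext e)
        simp [shf, this]
      · simp
    · refine Finset.sum_eq_zero fun t _ => ?_
      have : ¬ t.val = r.val + 1 := by have := t.2; omega
      simp [shf, this]
  rw [mul_add, mul_one, Matrix.add_apply, e1, e2, Fin.coe_sub_one]
  simp only [pas, Matrix.of_apply]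
  by_cases hs : s = 0
  · subst hs
    simp only [if_true, Fin.val_zero, Nat.choose_zero_right, Nat.cast_one]
    split_ifs with h
    · rw [Nat.choose_eq_zero_of_lt h]; ring
    · have : r.val = m := by have := r.2; omega
      have h5 : (-1 : ZMod q) ^ (m + 1) = -1 := by rw [hm]; exact neg_one_pow_char_pow (ZMod q) q k
      rw [this, Nat.choose_self, ← two_mul, pow_mul]
      rw [pow_succ] at h5
      simp only [add_zero, mul_one, even_two, Even.neg_pow, one_pow, Nat.cast_one]
      linear_combination -h5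
  · rw [if_neg hs]
    obtain ⟨t, ht⟩ : ∃ t, s.val = t + 1 := ⟨s.val - 1, by
      have : s.val ≠ 0 := fun e => hs (Fin.ext e)
      omega⟩
    have e3 : (((r.val + 1).choose s.val : ℕ) : ZMod q) =
        (r.val.choose (s.val - 1) : ℕ) + (r.val.choose s.val : ℕ) := by
      rw [ht, Nat.choose_succ_succ', Nat.cast_add, Nat.add_sub_cancel]
    split_ifs with h
    · rw [e3, ht, Nat.add_sub_cancel]
      ring
    · have h3 : r.val + 1 = q ^ k := by have := r.2; omega
      have h4 : (((r.val + 1).choose s.val : ℕ) : ZMod q) = 0 := by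
        rw [h3, ZMod.natCast_eq_zero_iff]
        exact (Fact.out : q.Prime).dvd_choose_pow (by omega) (by have := s.2; omega)
      rw [h4] at e3
      rw [add_zero, eq_neg_of_add_eq_zero_left e3.symm, ht, Nat.add_sub_cancel]
      ring

end Tr

open Tr in
theorem transfer {q : ℕ} [Fact q.Prime] {A : Type} [Ring A] [Algebra (ZMod q) A] {X : Type}
    (D : GrData q X A)
    (y : St (iwNet D.eps).ok) (hy : phi (iwNet D.eps).closed y = 1) :
    ∃ m d : ℕ, unToBig D.eps m (iwToUn D.eps y) ^ q ^ d = 1 := by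
  obtain ⟨d, hd⟩ := cyc_eq_one D hy
  have hlt : d < q ^ d := Nat.lt_pow_self (Fact.out : q.Prime).one_lt
  obtain ⟨m, hm⟩ : ∃ m, m + 1 = q ^ d := ⟨q ^ d - 1, by omega⟩
  refine ⟨m, d, ?_⟩
  rw [← hm]
  obtain ⟨z, _, ez⟩ := exists_conj D (P := pas q m) (c := cyc q m) (c' := 1 + shf q m)
    (fun r r' h => by simp only [pas, Matrix.of_apply]; rw [Nat.choose_eq_zero_of_lt h]; simp)
    (fun r => by simp [pas, ← two_mul]) (pas_conj hm)
  have e1 := ez y
  rw [hd m (by omega), one_mul, mul_eq_left, gd_lower D (c := 1 + shf q m) (fun r r' h => by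
      have : r.val < r'.val := h
      simp only [shf, Matrix.add_apply, Matrix.of_apply]
      rw [if_neg (by omega), Matrix.one_apply_ne h.ne, add_zero]) Finset.univ
      (fun r => by simp [shf]) hy, dl_pow D _ hy, Finset.card_univ, Fintype.card_fin] at e1
  exact e1

end Vale.Agent.N192
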