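import Vale.Agent.N192.One2
import Vale.Agent.N192.Tr
import Vale.Agent.N192.FP
import Vale.Agent.P192.H663.Calc

/-!
# P192: an infinite finitely presented `p`-group for every prime `p`
-/

namespace Vale.Agent.N192

open scoped commutatorElement

namespace Nm

variable {A : Type} [Ring A] {ι Γ : Type} [Group Γ] {x : ι → ι → A → Γ}

theorem cl : Closed (fun (i j : ι) (_ : A) => i ≠ j) :=
  ⟨fun h => h, fun h => h, fun h => h, fun h _ => h, fun _ _ h => h⟩

variable (h : IsSt (fun (i j : ι) (_ : A) => i ≠ j) x)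
include h

theorem weyl_row {i j p : ι} (hij : i ≠ j) (hi : i ≠ p) (hj : j ≠ p) {t t' : A} (ht : t' * t = 1)
    (a : A) : x i j (-t') * x j i t * x i p a * (x i j (-t') * x j i t)⁻¹ = x j p (t * a) := by
  have e1 := h.conj_left (a := t) (b := a) hij.symm hi hj
  have e2 := h.conj_left (a := -t') (b := t * a) hij hj hi
  have e3 := h.conj_comm (a := -t') (b := a) hij hi hij.symm hi
  have e4 := h.comm (a := -a) (b := t * a) hi hj hj.symm hi
  rw [neg_mul, ← mul_assoc t', ht, one_mul] at e2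
  calc x i j (-t') * x j i t * x i p a * (x i j (-t') * x j i t)⁻¹
      = x i j (-t') * (x j i t * x i p a * (x j i t)⁻¹) * (x i j (-t'))⁻¹ := by group
    _ = (x i j (-t') * x j p (t * a) * (x i j (-t'))⁻¹) *
          (x i j (-t') * x i p a * (x i j (-t'))⁻¹) := by rw [e1]; group
    _ = x j p (t * a) := by rw [e2, e3, e4.eq, mul_assoc, h.neg_mul cl hi, mul_one]

theorem weyl_col {i j p : ι} (hij : i ≠ j) (hi : i ≠ p) (hj : j ≠ p) {t t' : A} (ht : t * t' = 1)
    (a : A) : x i j (-t') * x j i t * x p j a * (x i j (-t') * x j i t)⁻¹ = x p i (-(a * t)) := by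
  have e1 := h.conj_right cl (a := a) (b := t) hj.symm hij.symm hi.symm
  have e2 := h.conj_right cl (a := -(a * t)) (b := -t') hi.symm hij hj.symm
  have e3 := h.conj_comm (a := -t') (b := a) hij hj.symm hj hij
  have e4 := h.comm (a := -a) (b := -(a * t)) hj.symm hi.symm hj hi.symm
  rw [neg_mul_neg, mul_assoc a, ht, mul_one] at e2
  calc x i j (-t') * x j i t * x p j a * (x i j (-t') * x j i t)⁻¹
      = x i j (-t') * (x j i t * x p j a * (x j i t)⁻¹) * (x i j (-t'))⁻¹ := by group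
    _ = (x i j (-t') * x p i (-(a * t)) * (x i j (-t'))⁻¹) *
          (x i j (-t') * x p j a * (x i j (-t'))⁻¹) := by rw [e1]; group
    _ = x p i (-(a * t)) := by rw [e2, e3, e4.eq, mul_assoc, h.neg_mul cl hj.symm, mul_one]

theorem weyl {i j p : ι} (hij : i ≠ j) (hi : i ≠ p) (hj : j ≠ p) {t t' : A} (ht : t' * t = 1)
    (ht' : t * t' = 1) (a : A) :
    x j i t * x i j a * (x j i t)⁻¹ = x i j t' * x j i (-(t * a * t)) * (x i j t')⁻¹ := by
  have e1 := h.mul (a := a) (b := 1) hi hj.symm hij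
  have e2 := h.mul (a := t * a) (b := -(1 * t)) hj hi.symm hij.symm
  rw [mul_one] at e1
  have e3 : x i j (-t') * x j i t * x i j a * (x i j (-t') * x j i t)⁻¹ =
      x j i (-(t * a * t)) := by
    rw [show -(t * a * t) = t * a * -(1 * t) by rw [one_mul, mul_neg], ← e1, ← e2,
      ← weyl_row h hij hi hj ht a, ← weyl_col h hij hi hj ht' 1]
    simp only [commutatorElement_def]
    group
  rw [← e3, ← h.inv cl hij]
  group

variable {q : ℕ} [Fact q.Prime] [Algebra (ZMod q) A]

omit h in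
/-- The subgroup generated by entries in the augmentation ideal. -/
def Y (x : ι → ι → A → Γ) (ε : A →+* ZMod q) : Subgroup Γ :=
  Subgroup.closure {g | ∃ i j a, i ≠ j ∧ ε a = 0 ∧ g = x i j a}

omit h in
/-- The subgroup generated by their conjugates by the opposite root. -/
def Z (x : ι → ι → A → Γ) (ε : A →+* ZMod q) : Subgroup Γ :=
  Subgroup.closure {g | ∃ i j a, ∃ t : ZMod q, i ≠ j ∧ ε a = 0 ∧
    g = x j i (algebraMap _ A t) * x i j a * (x j i (algebraMap _ A t))⁻¹}

variable {ε : A →+* ZMod q}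

omit h [Algebra (ZMod q) A] in
theorem mem_Y {i j : ι} {a : A} (hij : i ≠ j) (ha : ε a = 0) : x i j a ∈ Y x ε :=
  Subgroup.subset_closure ⟨i, j, a, hij, ha, rfl⟩

omit h in
theorem mem_Z' {i j : ι} {a : A} (hij : i ≠ j) (ha : ε a = 0) (t : ZMod q) :
    x j i (algebraMap _ A t) * x i j a * (x j i (algebraMap _ A t))⁻¹ ∈ Z x ε :=
  Subgroup.subset_closure ⟨i, j, a, t, hij, ha, rfl⟩

theorem mem_Z {i j : ι} {a : A} (hij : i ≠ j) (ha : ε a = 0) : x i j a ∈ Z x ε := by
  have := mem_Z' (x := x) hij ha 0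
  rwa [map_zero, h.zero hij.symm, one_mul, inv_one, mul_one] at this

theorem Y_le_Z : Y x ε ≤ Z x ε :=
  (Subgroup.closure_le _).2 fun _ ⟨_, _, _, hij, ha, e⟩ => e ▸ mem_Z h hij ha

omit h in
theorem conj_closure {S : Set Γ} {H : Subgroup Γ} {g : Γ} (hS : ∀ s ∈ S, g * s * g⁻¹ ∈ H)
    {z : Γ} (hz : z ∈ Subgroup.closure S) : g * z * g⁻¹ ∈ H := by
  have : Subgroup.closure S ≤ H.comap (MulAut.conj g).toMonoidHom :=
    (Subgroup.closure_le _).2 hS
  exact this hz

omit [Algebra (ZMod q) A] in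
theorem conj_Y {i j k l : ι} {a : A} (hij : i ≠ j) (ha : ε a = 0) (hkl : k ≠ l) (b : A)
    (h0 : ¬ (l = i ∧ j = k)) : x k l b * x i j a * (x k l b)⁻¹ ∈ Y x ε := by
  by_cases e1 : l = i
  · subst e1
    have hkj : k ≠ j := fun e => h0 ⟨rfl, e.symm⟩
    rw [h.conj_left hkl hij hkj]
    exact mul_mem (mem_Y hkj (by rw [map_mul, ha, mul_zero])) (mem_Y hij ha)
  · by_cases e2 : j = k
    · subst e2
      rw [h.conj_right cl hij hkl (Ne.symm e1)]
      exact mul_mem (mem_Y (Ne.symm e1) (by rw [map_neg, map_mul, ha, zero_mul, neg_zero]))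
        (mem_Y hij ha)
    · rw [h.conj_comm hkl hij e1 (Ne.symm e2)]
      exact mem_Y hij ha

theorem conj_YZ {k l : ι} (hkl : k ≠ l) (s : ZMod q) {y : Γ} (hy : y ∈ Y x ε) :
    x k l (algebraMap _ A s) * y * (x k l (algebraMap _ A s))⁻¹ ∈ Z x ε := by
  refine conj_closure ?_ hy
  rintro _ ⟨i, j, a, hij, ha, rfl⟩
  by_cases h0 : l = i ∧ j = k
  · obtain ⟨rfl, rfl⟩ := h0
    exact mem_Z' hij ha s
  · exact Y_le_Z h (conj_Y h hij ha hkl _ h0)

theorem conj_Z (h3 : ∀ i j : ι, ∃ p, i ≠ p ∧ j ≠ p) {k l : ι} (hkl : k ≠ l) (s : ZMod q) {z : Γ}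
    (hz : z ∈ Z x ε) : x k l (algebraMap _ A s) * z * (x k l (algebraMap _ A s))⁻¹ ∈ Z x ε := by
  refine conj_closure ?_ hz
  rintro _ ⟨i, j, a, t, hij, ha, rfl⟩
  have same : ∀ {i j : ι} {a : A} (t : ZMod q), i ≠ j → ε a = 0 →
      x j i (algebraMap _ A s) * (x j i (algebraMap _ A t) * x i j a *
        (x j i (algebraMap _ A t))⁻¹) * (x j i (algebraMap _ A s))⁻¹ ∈ Z x ε := by
    intro i j a t hij ha
    have := mem_Z' (x := x) hij ha (s + t)
    rw [map_add, h.add hij.symm hij.symm] at this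
    simpa only [mul_assoc, mul_inv_rev] using this
  generalize hs : algebraMap (ZMod q) A s = s' at same ⊢
  have key : ∀ g : Γ, x k l s' * x j i (algebraMap _ A t) * (x k l s')⁻¹ =
        x j i (algebraMap _ A t) * g →
      g * (x k l s' * x i j a * (x k l s')⁻¹) * g⁻¹ ∈ Y x ε →
      x k l s' * (x j i (algebraMap _ A t) * x i j a * (x j i (algebraMap _ A t))⁻¹) *
        (x k l s')⁻¹ ∈ Z x ε := by
    intro g e hg
    have h1 := conj_YZ h hij.symm t hg
    generalize algebraMap (ZMod q) A t = t' at h1 e ⊢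
    have h2 : x k l s' * (x j i t' * x i j a * (x j i t')⁻¹) * (x k l s')⁻¹ =
        (x k l s' * x j i t' * (x k l s')⁻¹) * (x k l s' * x i j a * (x k l s')⁻¹) *
          (x k l s' * x j i t' * (x k l s')⁻¹)⁻¹ := by group
    rw [h2, e]
    simpa only [mul_assoc, mul_inv_rev] using h1
  by_cases e1 : l = j
  · subst e1
    by_cases e2 : i = k
    · subst e2
      obtain ⟨p, hi, hj⟩ := h3 i l
      by_cases ht : t = 0
      · rw [ht, map_zero, h.zero hij.symm, one_mul, inv_one, mul_one,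
          h.conj_comm hij hij hij.symm hij]
        exact mem_Z h hij ha
      · rw [weyl h hij hi hj (t' := algebraMap _ A t⁻¹)
          (by rw [← map_mul, inv_mul_cancel₀ ht, map_one])
          (by rw [← map_mul, mul_inv_cancel₀ ht, map_one])]
        exact same _ hij.symm (by rw [map_neg, map_mul, map_mul, ha, mul_zero, zero_mul, neg_zero])
    · refine key (x k i (s' * algebraMap _ A t)) ?_ ?_
      · rw [h.conj_left hkl hij.symm (Ne.symm e2)]
        exact (h.comm (Ne.symm e2) hij.symm hij (Ne.symm e2)).eq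
      · rw [h.conj_comm hkl hij hij.symm hkl]
        exact conj_Y h hij ha (Ne.symm e2) _ fun e => hkl e.2.symm
  · by_cases e2 : i = k
    · subst e2
      refine key (x j l (-(algebraMap _ A t * s'))) ?_ ?_
      · rw [h.conj_right cl hij.symm hkl (Ne.symm e1)]
        exact (h.comm (Ne.symm e1) hij.symm e1 hij.symm).eq
      · rw [h.conj_comm hkl hij hkl.symm hij]
        exact conj_Y h hij ha (Ne.symm e1) _ fun e => hkl e.1.symm
    · by_cases h0 : l = i ∧ j = k
      · obtain ⟨rfl, rfl⟩ := h0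
        exact same t hij ha
      · refine key 1 ?_ ?_
        · rw [h.conj_comm hkl hij.symm e1 (Ne.symm e2), mul_one]
        · rw [one_mul, inv_one, mul_one]
          exact conj_Y h hij ha hkl _ h0

theorem split {i j : ι} (hij : i ≠ j) (ε : A →+* ZMod q) (b : A) :
    ∃ a, ε a = 0 ∧ x i j b = x i j a * x i j (algebraMap _ A (ε b)) := by
  refine ⟨b - algebraMap _ A (ε b), ?_, by rw [← h.add hij hij, sub_add_cancel]⟩
  have : ε.comp (algebraMap (ZMod q) A) = RingHom.id _ := RingHom.ext_zmod _ _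
  rw [map_sub, show ε (algebraMap _ A (ε b)) = ε b from DFunLike.congr_fun this (ε b), sub_self]

end Nm

section General

variable {κ A : Type} [Ring κ] [Ring A]

theorem un_isSt (ε : A →+* κ) :
    IsSt (fun (i j : Fin 5) (_ : A) => i ≠ j) (St.x (unNet ε).ok) := by
  have := St.isSt (unNet ε).ok
  exact ⟨fun ha hb => this.add ((unNet_ok ..).2 ha) ((unNet_ok ..).2 hb),
    fun ha hb => this.comm ((unNet_ok ..).2 ha) ((unNet_ok ..).2 hb),
    fun ha hb => this.mul ((unNet_ok ..).2 ha) ((unNet_ok ..).2 hb)⟩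

theorem iwToUn_x (ε : A →+* κ) {i j : Fin 5} {a : A} (ha : (iwNet ε).ok i j a) :
    iwToUn ε (St.x (iwNet ε).ok i j a) = St.x (unNet ε).ok i j a :=
  St.reindex_x _ _ _ _ ha

theorem phi_iwToUn (ε : A →+* κ) (y : St (iwNet ε).ok) :
    phi (unNet ε).closed (iwToUn ε y) = phi (iwNet ε).closed y := by
  have : (phiU (unNet ε).closed).comp (iwToUn ε) = phiU (iwNet ε).closed := by
    refine St.hom_ext fun i j a ha => ?_
    ext1
    rw [MonoidHom.comp_apply, iwToUn_x ε ha]
    exact (phi_x (unNet ε).closed ((unNet_ok ..).2 ha.2.2.1)).trans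
      (phi_x (iwNet ε).closed ha).symm
  exact congrArg Units.val (DFunLike.congr_fun this y)

/-- Matrices of the Iwahori group are unitriangular modulo the augmentation ideal. -/
theorem eps_phi (ε : A →+* κ) (y : St (iwNet ε).ok) :
    ∀ i j, j ≤ i → ε ((phi (iwNet ε).closed y - 1) i j) = 0 := by
  refine St.induction_left (iwNet ε).closed
    (p := fun y => ∀ i j, j ≤ i → ε ((phi (iwNet ε).closed y - 1) i j) = 0) (by simp)
    (fun k l a g ha ih i j hij => ?_) y
  obtain ⟨h1, h2⟩ := (iwNet_ok ε k l a).1 ha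
  have e : phi (iwNet ε).closed (St.x _ k l a * g) - 1 = (phi (iwNet ε).closed g - 1) +
      (Matrix.single k l a * (phi (iwNet ε).closed g - 1) + Matrix.single k l a) := by
    rw [map_mul, phi_x _ ha]; noncomm_ring
  rw [e, Matrix.add_apply, Matrix.add_apply, map_add, map_add, ih i j hij, zero_add]
  by_cases hk : i = k
  · subst hk
    rw [Matrix.single_mul_apply_same, map_mul, Matrix.single_apply]
    rcases h2 with h2 | h2
    · rw [ih l j (hij.trans h2), mul_zero, if_neg, map_zero, add_zero]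
      rintro ⟨-, rfl⟩
      exact h1 (le_antisymm h2 hij)
    · rw [h2, zero_mul, zero_add]
      split_ifs
      · exact h2
      · exact map_zero _
  · rw [Matrix.single_mul_apply_of_ne _ _ _ _ _ hk, Matrix.single_apply,
      if_neg fun h => hk h.1.symm, map_zero, add_zero]

theorem eps_pow (ε : A →+* κ) (M : Matrix (Fin 5) (Fin 5) A) (hM : ∀ i j, j ≤ i → ε (M i j) = 0)
    (n : ℕ) : ∀ i j : Fin 5, j.val < i.val + n → ε ((M ^ n) i j) = 0 := by
  induction n with
  | zero =>
    intro i j h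
    rw [pow_zero, Matrix.one_apply_ne (by rintro rfl; omega), map_zero]
  | succ n ih =>
    intro i j h
    rw [pow_succ', Matrix.mul_apply, map_sum]
    refine Finset.sum_eq_zero fun k _ => ?_
    rw [map_mul]
    rcases le_or_gt k i with e | e
    · rw [hM i k e, zero_mul]
    · have : i.val < k.val := e
      rw [ih k j (by omega), mul_zero]

end General

variable {q : ℕ} [Fact q.Prime] {A : Type} [Ring A] [Algebra (ZMod q) A]

theorem normal_le_iw (ε : A →+* ZMod q) :
    Subgroup.normalClosure {g | ∃ i j a, ε a = 0 ∧ g = St.x (unNet ε).ok i j a} ≤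
      (iwToUn ε).range := by
  have h := un_isSt ε
  have h3 : ∀ i j : Fin 5, ∃ p, i ≠ p ∧ j ≠ p := by decide
  have hN : (Nm.Z (St.x (unNet ε).ok) ε).Normal := by
    refine ⟨fun z hz g => ?_⟩
    refine St.induction_left (unNet ε).closed
      (p := fun g => g * z * g⁻¹ ∈ Nm.Z (St.x (unNet ε).ok) ε) (by simpa using hz)
      (fun i j a g ha ih => ?_) g
    have hij := (unNet_ok ..).1 ha
    obtain ⟨a', e, e'⟩ := Nm.split h hij ε a
    rw [e', show ∀ u v : St (unNet ε).ok, u * v * g * z * (u * v * g)⁻¹ =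
      u * (v * (g * z * g⁻¹) * v⁻¹) * u⁻¹ from fun u v => by group]
    exact mul_mem (mul_mem (Nm.mem_Z h hij e) (Nm.conj_Z h h3 hij _ ih))
      (inv_mem (Nm.mem_Z h hij e))
  have hr : ∀ {i j : Fin 5} {a : A}, i ≠ j → (i ≤ j ∨ ε a = 0) →
      St.x (unNet ε).ok i j a ∈ (iwToUn ε).range :=
    fun h1 h2 => ⟨_, iwToUn_x ε ((iwNet_ok ..).2 ⟨h1, h2⟩)⟩
  refine le_trans (Subgroup.normalClosure_le_normal (N := Nm.Z (St.x (unNet ε).ok) ε) ?_) ?_
  · rintro _ ⟨i, j, a, ha, rfl⟩
    by_cases hij : i = j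
    · rw [St.x_not_ok _ fun e => (unNet_ok ..).1 e hij]
      exact one_mem _
    · exact Nm.mem_Z h hij ha
  · refine (Subgroup.closure_le _).2 ?_
    rintro _ ⟨i, j, a, t, hij, ha, rfl⟩
    rcases le_total j i with e | e
    · exact mul_mem (mul_mem (hr hij.symm (Or.inl e)) (hr hij (Or.inr ha)))
        (inv_mem (hr hij.symm (Or.inl e)))
    · obtain ⟨p, hi, hj⟩ := h3 i j
      by_cases ht : t = 0
      · rw [ht, map_zero, h.zero hij.symm, one_mul, inv_one, mul_one]
        exact hr hij (Or.inl e)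
      · rw [Nm.weyl h hij hi hj (t' := algebraMap _ A t⁻¹)
          (by rw [← map_mul, inv_mul_cancel₀ ht, map_one])
          (by rw [← map_mul, mul_inv_cancel₀ ht, map_one])]
        exact mul_mem (mul_mem (hr hij (Or.inl e)) (hr hij.symm
          (Or.inr (by rw [map_neg, map_mul, map_mul, ha, mul_zero, zero_mul, neg_zero]))))
          (inv_mem (hr hij (Or.inl e)))

theorem one_add_pow_of_nil {R : Type*} [Ring R] [Algebra (ZMod q) R] {M : R}
    (hM : IsNilpotent M) : ∃ b, (1 + M) ^ q ^ b = 1 := by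
  obtain ⟨b, hb⟩ := hM
  obtain ⟨r, hr⟩ := (Commute.one_left M).exists_add_pow_prime_pow_eq (Fact.out : q.Prime) b
  have h0 : (q : R) = 0 := by rw [← map_natCast (algebraMap (ZMod q) R), ZMod.natCast_self, map_zero]
  refine ⟨b, ?_⟩
  rw [hr, h0, pow_eq_zero_of_le (Nat.lt_pow_self (Fact.out : q.Prime).one_lt).le hb]
  simp

theorem GrData.unit {X : Type} (D : GrData q X A) (a : A) (ha : D.eps a = 0) :
    IsUnit (1 + a) := by
  have h := D.nil (Matrix.scalar (Fin 5) a) (fun i j => by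
    rw [Matrix.scalar_apply, Matrix.diagonal_apply]
    split_ifs
    · exact ha
    · exact map_zero _)
  obtain ⟨n, hn⟩ := h
  rw [← map_pow] at hn
  have h2 : a ^ n = 0 := by
    have := congrFun (congrFun hn 0) 0
    simpa using this
  exact IsNilpotent.isUnit_one_add ⟨n, h2⟩

/-- The image of the Iwahori group in the Steinberg group is a `q`-group. -/
theorem iw_pow {X : Type} (D : GrData q X A) (y : St (iwNet D.eps).ok) :
    ∃ d : ℕ, iwToUn D.eps y ^ q ^ d = 1 := by
  have h1 : IsNilpotent (phi (iwNet D.eps).closed y - 1) :=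
    IsNilpotent.of_pow (m := 5) (D.nil _ fun i j =>
      eps_pow D.eps _ (eps_phi D.eps y) 5 i j (by have := j.2; omega))
  obtain ⟨b, hb⟩ := one_add_pow_of_nil (q := q) h1
  rw [add_sub_cancel, ← map_pow] at hb
  obtain ⟨m, d, hd⟩ := transfer D _ hb
  rw [← map_pow, ← map_one (unToBig D.eps m)] at hd
  have h2 := unToBig_injective D.eps D.unit m hd
  exact ⟨b + d, by rw [pow_add, pow_mul, ← map_pow, h2]⟩

/-- Modulo finitely many relators that hold for matrices, the image of the Iwahori group has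
finite index. -/
theorem exists_quot (ε : A →+* ZMod q) :
    ∃ K : Subgroup (St (unNet ε).ok), ∃ _ : K.Normal, K.IsFinitelyNormallyGenerated ∧
      K ≤ (phi (unNet ε).closed).ker ∧ ((iwToUn ε).range.map (QuotientGroup.mk' K)).FiniteIndex := by
  have h := un_isSt ε
  let f : FreeGroup (Fin 5 × Fin 5 × ZMod q) →* St (unNet ε).ok :=
    FreeGroup.lift fun p => St.x (unNet ε).ok p.1 p.2.1 (algebraMap _ A p.2.2)
  let f0 : FreeGroup (Fin 5 × Fin 5 × ZMod q) →* (Matrix (Fin 5) (Fin 5) (ZMod q))ˣ :=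
    FreeGroup.lift fun p => elem p.1 p.2.1 p.2.2
  have hf : ∀ w, phi (unNet ε).closed (f w) =
      (f0 w : Matrix (Fin 5) (Fin 5) (ZMod q)).map (algebraMap (ZMod q) A) := by
    have : (phi (unNet ε).closed).comp f =
        (((algebraMap (ZMod q) A).mapMatrix.toMonoidHom).comp (Units.coeHom _)).comp f0 := by
      refine FreeGroup.ext_hom _ _ fun ⟨i, j, t⟩ => ?_
      simp only [MonoidHom.comp_apply, f, f0, FreeGroup.lift_apply_of, Units.coeHom_apply,
        RingHom.toMonoidHom_eq_coe, MonoidHom.coe_coe]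
      by_cases hij : i = j
      · rw [St.x_not_ok _ fun e => (unNet_ok ..).1 e hij, elem, dif_pos hij, map_one,
          Units.val_one, map_one]
      · rw [phi_x _ ((unNet_ok ..).2 hij), elem_val hij, map_add, map_one,
          RingHom.mapMatrix_apply, Matrix.map_single]
    exact fun w => DFunLike.congr_fun this w
  obtain ⟨S, hS, hSf⟩ := (Subgroup.fg_iff _).1 ((Group.fg_iff_subgroup_fg f0.ker).1 inferInstance)
  have hK : ∀ w ∈ f0.ker, f w ∈ Subgroup.normalClosure (f '' S) := by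
    intro w hw
    rw [← hS] at hw
    have : Subgroup.closure S ≤ (Subgroup.normalClosure (f '' S)).comap f :=
      (Subgroup.closure_le _).2 fun s hs => Subgroup.subset_normalClosure ⟨s, hs, rfl⟩
    exact this hw
  refine ⟨Subgroup.normalClosure (f '' S), inferInstance, ⟨_, hSf.image _, rfl⟩, ?_, ?_⟩
  · refine Subgroup.normalClosure_le_normal ?_
    rintro _ ⟨s, hs, rfl⟩
    have h1 : s ∈ f0.ker := hS ▸ Subgroup.subset_closure hs
    rw [SetLike.mem_coe, MonoidHom.mem_ker, hf, MonoidHom.mem_ker.1 h1, Units.val_one,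
      Matrix.map_one _ (map_zero _) (map_one _)]
  set N := Subgroup.normalClosure {g | ∃ i j a, ε a = 0 ∧ g = St.x (unNet ε).ok i j a} with hN
  have hx : ∀ i j a, ε a = 0 → QuotientGroup.mk' N (St.x (unNet ε).ok i j a) = 1 :=
    fun i j a ha => (QuotientGroup.eq_one_iff _).2
      (Subgroup.subset_normalClosure ⟨i, j, a, ha, rfl⟩)
  have hw : ∀ g, ∃ w, QuotientGroup.mk' N g = QuotientGroup.mk' N (f w) := by
    intro g
    refine St.induction_left (unNet ε).closed
      (p := fun g => ∃ w, QuotientGroup.mk' N g = QuotientGroup.mk' N (f w)) ⟨1, by simp⟩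
      (fun i j a g ha ih => ?_) g
    obtain ⟨w, hw⟩ := ih
    obtain ⟨a', e, e'⟩ := Nm.split h ((unNet_ok ..).1 ha) ε a
    refine ⟨FreeGroup.of (i, j, ε a) * w, ?_⟩
    rw [e', map_mul, map_mul, hx i j _ e, one_mul, hw, map_mul, map_mul]
    simp only [f, FreeGroup.lift_apply_of]
  set π := QuotientGroup.mk' (Subgroup.normalClosure (f '' S)) with hπ
  have : Finite ((St (unNet ε).ok ⧸ Subgroup.normalClosure (f '' S)) ⧸ (iwToUn ε).range.map π) := by
    refine Finite.of_surjective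
      (fun u : FreeGroup (Fin 5 × Fin 5 × ZMod q) ⧸ f0.ker => QuotientGroup.mk (π (f u.out)))
      fun g => ?_
    obtain ⟨g, rfl⟩ := QuotientGroup.mk_surjective g
    obtain ⟨g, rfl⟩ := QuotientGroup.mk'_surjective _ g
    obtain ⟨w, hw⟩ := hw g
    obtain ⟨k, hk⟩ := QuotientGroup.mk_out_eq_mul f0.ker w
    refine ⟨QuotientGroup.mk w, ?_⟩
    have h1 : π (f k) = 1 := (QuotientGroup.eq_one_iff _).2 (hK _ k.2)
    simp only
    rw [hk, map_mul, map_mul, h1, mul_one, QuotientGroup.eq, ← hπ, ← map_inv, ← map_mul]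
    exact ⟨_, normal_le_iw ε (QuotientGroup.eq.1 hw.symm), rfl⟩
  exact Subgroup.finiteIndex_of_finite_quotient

/-- For each prime `p` there is a finitely presented `p`-group with finite quotients of unbounded
order. -/
theorem group_main (p : ℕ) [Fact p.Prime] :
    ∃ (G : Type) (_ : Group G), Group.IsFinitelyPresented G ∧ IsPGroup p G ∧
      ∀ n : ℕ, ∃ N : Subgroup G, N.Normal ∧ N.FiniteIndex ∧ n ≤ N.index := by
  obtain ⟨X, _, P, h1, h2, ⟨D⟩, h3⟩ := algebra_main p
  obtain ⟨K, hK, hfin, hker, hidx⟩ := exists_quot D.eps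
  have := st_fp p P h1 h2 (unNet D.eps).ok (unNet_ok D.eps)
  have := Group.IsFinitelyPresented.quotient K hfin
  refine ⟨(iwToUn D.eps).range.map (QuotientGroup.mk' K), inferInstance,
    P192.fp_of_finiteIndex _ _, ?_, fun n => ?_⟩
  · rintro ⟨_, _, ⟨y, rfl⟩, rfl⟩
    obtain ⟨d, hd⟩ := iw_pow D y
    exact ⟨d, Subtype.ext (by rw [Subgroup.coe_pow, ← map_pow, hd, map_one]; rfl)⟩
  obtain ⟨B, _, _, θ, hθ, hn⟩ := h3 n
  let Θ : St (unNet D.eps).ok ⧸ K →* (Matrix (Fin 5) (Fin 5) B)ˣ := QuotientGroup.lift K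
    ((Units.map θ.mapMatrix.toMonoidHom).comp (phiU (unNet D.eps).closed)) fun g hg => by
      have : phiU (unNet D.eps).closed g = 1 := Units.ext (hker hg)
      rw [MonoidHom.mem_ker, MonoidHom.comp_apply, this, map_one]
  let Ψ := Θ.comp ((iwToUn D.eps).range.map (QuotientGroup.mk' K)).subtype
  refine ⟨Ψ.ker, inferInstance, inferInstance, ?_⟩
  rw [Subgroup.index_ker]
  refine hn.trans (Nat.card_le_card_of_surjective
    (fun u : Ψ.range => (u.1 : Matrix (Fin 5) (Fin 5) B) 0 1) fun b => ?_)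
  obtain ⟨a, rfl⟩ := hθ b
  have ha : (iwNet D.eps).ok 0 1 a := (iwNet_ok ..).2 ⟨by decide, Or.inl (by decide)⟩
  refine ⟨⟨_, ⟨_, _, ⟨St.x _ 0 1 a, rfl⟩, rfl⟩, rfl⟩, ?_⟩
  show θ (phi (unNet D.eps).closed (iwToUn D.eps (St.x _ 0 1 a)) 0 1) = θ a
  rw [phi_iwToUn, phi_x _ ha]
  simp

end Vale.Agent.N192
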