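import Vale.Agent.P192Z.Mach.Main

/-!
# P192: nilpotency of pencils over a commutative ring of prime characteristic
-/

namespace Vale.Agent.N192

open Vale.Agent.P192Z

/-- nilpotency of linear pencils with coefficients in an algebra spanned by `ρ` elements over
`K` (dual form) -/
def NilR (K : Type) [CommRing K] {X : Type} (P : Pres X) [Fintype X] (ρ : ℕ) : Prop :=
  ∀ (B : Type) [Ring B] [Algebra K B] (e : Fin ρ → B),
    Submodule.span K (Set.range e) = ⊤ → ∀ a : X → B,
      ∃ N : ℕ, ∀ lam : List X → K, P.Inv lam →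
        ∑ w : Fin N → X, lam (List.ofFn w) • (List.ofFn (a ∘ w)).prod = 0

/-- A sum that is invariant under the transpositions of a set `T` of `p` places, and supported on
functions that are injective on `T`, is a multiple of `p`. -/
theorem sum_swaps {Z V ι : Type} [Fintype Z] [DecidableEq ι] [AddCommGroup V] {p : ℕ}
    (hp : 0 < p) (hV : ∀ v : V, p • v = 0) (T : Finset ι) (hT : T.card = p)
    (s : Finset (ι → Z)) (F : (ι → Z) → V)
    (h1 : ∀ z ∈ s, ∀ i ∈ T, ∀ j ∈ T, i ≠ j →
      z ∘ Equiv.swap i j ∈ s ∧ F (z ∘ Equiv.swap i j) = F z ∧ (z i = z j → F z = 0)) :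
    ∑ z ∈ s, F z = 0 := by
  classical
  let r : Z → ℕ := fun y => (Fintype.equivFin Z y).val
  have hr : ∀ y y', r y = r y' → y = y' := fun y y' h =>
    (Fintype.equivFin Z).injective (Fin.ext h)
  obtain ⟨t0, ht0⟩ : T.Nonempty := Finset.card_pos.mp (by omega)
  let m : (ι → Z) → ι → Prop := fun z t => ∀ u ∈ T, u ≠ t → r (z t) < r (z u)
  have e1 : ∀ z ∈ s, F z = ∑ t ∈ T, if m z t then F z else 0 := by
    intro z hz
    by_cases h0 : F z = 0
    · simp [h0]
    obtain ⟨t, ht, hmin⟩ := T.exists_min_image (fun t => r (z t)) ⟨t0, ht0⟩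
    have hm : m z t := fun u hu hut =>
      lt_of_le_of_ne (hmin u hu) fun e => h0 ((h1 z hz t ht u hu hut.symm).2.2 (hr _ _ e))
    rw [Finset.sum_eq_single t]
    · rw [if_pos hm]
    · intro u hu hut
      exact if_neg fun h => lt_asymm (hm u hu hut) (h t ht hut.symm)
    · exact fun h => absurd ht h
  have hsw : ∀ t ∈ T, t ≠ t0 → ∀ u ∈ T, Equiv.swap t t0 u ∈ T := by
    intro t ht _ u hu
    rw [Equiv.swap_apply_def]
    split_ifs
    · exact ht0
    · exact ht
    · exact hu
  have e2 : ∀ t ∈ T, (∑ z ∈ s, if m z t then F z else 0) = ∑ z ∈ s, if m z t0 then F z else 0 := by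
    intro t ht
    by_cases htt : t = t0
    · rw [htt]
    have hinv : ∀ z : ι → Z, (z ∘ Equiv.swap t t0) ∘ Equiv.swap t t0 = z := fun z => by
      funext k; simp
    refine Finset.sum_nbij' (fun z => z ∘ Equiv.swap t t0) (fun z => z ∘ Equiv.swap t t0)
      (fun z hz => (h1 z hz t ht t0 ht0 htt).1) (fun z hz => (h1 z hz t ht t0 ht0 htt).1)
      (fun z _ => hinv z) (fun z _ => hinv z) (fun z hz => ?_)
    have e3 : m (z ∘ Equiv.swap t t0) t0 ↔ m z t := by
      constructor
      · intro h u hu hut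
        have := h (Equiv.swap t t0 u) (hsw t ht htt u hu) (fun e => hut (by
          have := congrArg (Equiv.swap t t0) e
          simpa using this))
        simpa using this
      · intro h u hu hut
        have := h (Equiv.swap t t0 u) (hsw t ht htt u hu) (fun e => hut (by
          have := congrArg (Equiv.swap t t0) e
          simpa using this))
        simpa using this
    rw [(h1 z hz t ht t0 ht0 htt).2.1]
    exact if_congr e3.symm rfl rfl
  rw [Finset.sum_congr rfl e1, Finset.sum_comm, Finset.sum_congr rfl e2, Finset.sum_const, hT, hV]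

theorem capelli {K B Z S : Type} [CommRing K] [Ring B] [Algebra K B] [Fintype Z] [DecidableEq Z]
    {p : ℕ} (hp : 0 < p) (h2 : (p : K) = 0) {ρ M : ℕ} (e : Fin ρ → B) (he : Submodule.span K (Set.range e) = ⊤)
    (b : Z → B) (μ : (Fin M → Z) → K) (sk : (Fin M → Z) → S)
    (h : ∀ z0, μ z0 ≠ 0 → ∃ J : Finset (Fin M), ρ * p < J.card ∧ ∀ z, sk z = sk z0 →
      ∀ i ∈ J, ∀ j ∈ J, i ≠ j → sk (z ∘ Equiv.swap i j) = sk z ∧ μ (z ∘ Equiv.swap i j) = μ z ∧
        (z i = z j → μ z = 0)) :
    ∑ z : Fin M → Z, μ z • (List.ofFn (b ∘ z)).prod = 0 := by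
  classical
  have hc : ∀ y : Z, ∃ c : Fin ρ → K, ∑ i, c i • e i = b y := fun y =>
    (Submodule.mem_span_range_iff_exists_fun K).1 (he ▸ Submodule.mem_top)
  choose c hc using hc
  have hBB : ∀ x : B, p • x = 0 := fun x => by rw [← Nat.cast_smul_eq_nsmul K, h2, zero_smul]
  have hexp : ∀ z : Fin M → Z, (List.ofFn (b ∘ z)).prod =
      ∑ idx : Fin M → Fin ρ, (∏ k, c (z k) (idx k)) • (List.ofFn (e ∘ idx)).prod := by
    intro z
    have h1 : b ∘ z = fun k => ∑ i, c (z k) i • e i := funext fun k => (hc (z k)).symm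
    rw [← MultilinearMap.mkPiAlgebraFin_apply (R := K), h1, MultilinearMap.map_sum]
    refine Finset.sum_congr rfl fun idx _ => ?_
    rw [MultilinearMap.map_smul_univ, MultilinearMap.mkPiAlgebraFin_apply]
    rfl
  rw [← Finset.sum_fiberwise_of_maps_to (s := Finset.univ) (t := Finset.univ.image sk) (g := sk)
    (fun z _ => Finset.mem_image_of_mem _ (Finset.mem_univ z))]
  refine Finset.sum_eq_zero fun s _ => ?_
  by_cases hex : ∃ z0, sk z0 = s ∧ μ z0 ≠ 0
  swap
  · push Not at hex
    refine Finset.sum_eq_zero fun z hz => ?_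
    rw [hex z (Finset.mem_filter.1 hz).2, zero_smul]
  obtain ⟨z0, rfl, hz0⟩ := hex
  obtain ⟨J, hJ, hsw⟩ := h z0 hz0
  simp only [hexp, Finset.smul_sum]
  rw [Finset.sum_comm]
  refine Finset.sum_eq_zero fun idx _ => ?_
  obtain ⟨y, -, hy⟩ := Finset.exists_lt_card_fiber_of_mul_lt_card_of_maps_to
    (s := J) (t := Finset.univ) (f := idx) (n := p) (fun _ _ => Finset.mem_univ _)
    (by simpa using hJ)
  obtain ⟨T, hT, hTc⟩ := Finset.exists_subset_card_eq hy.le
  refine sum_swaps hp hBB T hTc _ _ fun z hz i hi j hj hij => ?_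
  have hz' := (Finset.mem_filter.1 hz).2
  have hi' := Finset.mem_filter.1 (hT hi)
  have hj' := Finset.mem_filter.1 (hT hj)
  have hidx : idx i = idx j := hi'.2.trans hj'.2.symm
  obtain ⟨h5, h3, h6⟩ := hsw z hz' i hi'.1 j hj'.1 hij
  refine ⟨Finset.mem_filter.2 ⟨Finset.mem_univ _, h5.trans hz'⟩, ?_, fun h => ?_⟩
  · have h4 : ∏ k, c ((z ∘ Equiv.swap i j) k) (idx k) = ∏ k, c (z k) (idx k) := by
      rw [← Equiv.prod_comp (Equiv.swap i j)]
      refine Finset.prod_congr rfl fun k _ => ?_
      rw [Function.comp_apply, Equiv.swap_apply_self, Equiv.apply_swap_eq_self hidx k]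
    rw [h3, h4]
  · rw [h6 h, zero_smul]

open Cap in
theorem nilR_direct {K : Type} [CommRing K] {p : ℕ} (hp : 0 < p) (hK : (p : K) = 0)
    {X S : Type} [Fintype X] (P : Pres X) (St : X → Prop) (L q M ρ : ℕ)
    (hqM : 0 < q * M)
    (h2 : ∀ w : List X, ¬ IsZero P w → L ≤ w.length → ∃ i < L, StAt St w i)
    (sk : (Fin M → Fin q → X) → S)
    (h4 : ∀ z0 : Fin M → Fin q → X, ¬ IsZero P (flat z0) → StAt St (flat z0) 0 →
      ∃ J : Finset (Fin M), ρ * p < J.card ∧ ∀ z, sk z = sk z0 → ∀ i ∈ J, ∀ j ∈ J, i ≠ j →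
        sk (z ∘ Equiv.swap i j) = sk z ∧
        (StAt St (flat (z ∘ Equiv.swap i j)) 0 ↔ StAt St (flat z) 0) ∧
        (¬ IsZero P (flat z) → StAt St (flat z) 0 →
          Eqv P (flat z) (flat (z ∘ Equiv.swap i j)) ∧ z i ≠ z j)) :
    NilR K P ρ := by
  classical
  intro B _ _ e he a
  have step1 : ∀ lam : List X → K, P.Inv lam →
      ∑ z : Fin M → Fin q → X,
        (if StAt St (flat z) 0 then lam (flat z) else 0) • ((flat z).map a).prod = 0 := by
    intro lam hlam
    simp only [prod_flat]
    refine capelli hp hK e he _ (fun z => if StAt St (flat z) 0 then lam (flat z) else 0) sk ?_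
    intro z0 hz0
    have hst0 : StAt St (flat z0) 0 := by
      by_contra hn
      exact hz0 (if_neg hn)
    have hnz0 : ¬ IsZero P (flat z0) := fun hz => hz0 (by rw [if_pos hst0, hlam.isZero hz])
    obtain ⟨J, hJ, hsw⟩ := h4 z0 hnz0 hst0
    refine ⟨J, hJ, fun z hz i hi j hj hij => ?_⟩
    obtain ⟨a1, a2, a3⟩ := hsw z hz i hi j hj hij
    refine ⟨a1, ?_, fun hzz => ?_⟩
    · by_cases hst : StAt St (flat z) 0
      · rw [if_pos hst, if_pos (a2.2 hst)]
        by_cases hz1 : IsZero P (flat z)
        · by_cases hz2 : IsZero P (flat (z ∘ Equiv.swap i j))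
          · rw [hlam.isZero hz1, hlam.isZero hz2]
          · obtain ⟨-, -, b3⟩ := hsw (z ∘ Equiv.swap i j) (a1.trans hz) i hi j hj hij
            exact absurd (IsZero.of_eqv (b3 hz2 (a2.2 hst)).1 (by
              have : (z ∘ Equiv.swap i j) ∘ Equiv.swap i j = z := by
                funext k
                simp
              rwa [this])) hz2
        · exact (hlam.eqv (a3 hz1 hst).1).symm
      · rw [if_neg hst, if_neg (fun h => hst (a2.1 h))]
    · by_cases hst : StAt St (flat z) 0
      · rw [if_pos hst]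
        by_contra hne
        exact (a3 (fun hz1 => hne (hlam.isZero hz1)) hst).2 hzz
      · rw [if_neg hst]
  refine ⟨L + q * M, fun lam hlam => ?_⟩
  have h5 : ∑ w : Fin (L + q * M) → X, lam (List.ofFn w) • (List.ofFn (a ∘ w)).prod =
      wsum (L + q * M) fun w => ∑ o ∈ Finset.range L,
        if StAt St w o ∧ ∀ i < o, ¬ StAt St w i then lam w • (w.map a).prod else 0 := by
    refine Finset.sum_congr rfl fun w _ => ?_
    beta_reduce
    rw [List.map_ofFn]
    by_cases hz : IsZero P (List.ofFn w)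
    · simp [hlam.isZero hz]
    have hex := h2 _ hz (by simp)
    have hex' : ∃ i, StAt St (List.ofFn w) i := hex.imp fun i h => h.2
    rw [Finset.sum_eq_single (Nat.find hex')]
    · rw [if_pos ⟨Nat.find_spec hex', fun i hi => Nat.find_min hex' hi⟩]
    · intro o _ ho
      rw [if_neg]
      rintro ⟨h6, h7⟩
      exact ho ((Nat.find_eq_iff hex').2 ⟨h6, h7⟩).symm
    · intro hn
      obtain ⟨i, hi, hi'⟩ := hex
      exact absurd (Finset.mem_range.2 ((Nat.find_min' hex' hi').trans_lt hi)) hn
  rw [h5, wsum_sum]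
  refine Finset.sum_eq_zero fun o ho => ?_
  have ho' := Finset.mem_range.1 ho
  rw [show L + q * M = o + (q * M + (L - o)) by omega, wsum_add]
  refine wsum_eq_zero fun u hu => ?_
  rw [wsum_add, wsum_comm]
  refine wsum_eq_zero fun v _ => ?_
  rw [wsum_flat]
  by_cases hu' : ∀ i < o, ¬ StAt St u i
  · have h6 := step1 (fun w => lam (u ++ w ++ v)) (hlam.shift u v)
    have h7 : ∀ z : Fin M → Fin q → X,
        (if StAt St (u ++ (flat z ++ v)) o ∧ ∀ i < o, ¬ StAt St (u ++ (flat z ++ v)) i then
          lam (u ++ (flat z ++ v)) • ((u ++ (flat z ++ v)).map a).prod else 0) =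
        (u.map a).prod * ((if StAt St (flat z) 0 then lam (u ++ flat z ++ v) else 0) •
          ((flat z).map a).prod) * (v.map a).prod := by
      intro z
      have e1 : StAt St (u ++ (flat z ++ v)) o ↔ StAt St (flat z) 0 := by
        rw [← hu, stAt_append_right, stAt_append_left (by rwa [length_flat])]
      have e2 : ∀ i < o, ¬ StAt St (u ++ (flat z ++ v)) i := fun i hi => by
        rw [stAt_append_left (by rwa [hu])]
        exact hu' i hi
      by_cases hst : StAt St (flat z) 0
      · rw [if_pos ⟨e1.2 hst, e2⟩, if_pos hst]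
        simp [List.append_assoc, mul_assoc]
      · rw [if_neg (fun h => hst (e1.1 h.1)), if_neg hst]
        simp
    simp only [h7]
    rw [← Finset.sum_mul, ← Finset.mul_sum, h6, mul_zero, zero_mul]
  · refine Finset.sum_eq_zero fun z _ => if_neg ?_
    rintro ⟨-, h8⟩
    refine hu' fun i hi h9 => h8 i hi ?_
    rwa [stAt_append_left (by rwa [hu])]

namespace Ds

open Desc

section Main

open Classical

variable {K : Type} [CommRing K] {X X' : Type} [Fintype X] [Fintype X'] (P : Pres X) (St : X → Prop) (Q : ℕ) (enc : X' → List X)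
  {B : Type} [Ring B] [Algebra K B] (a : X → B)

/-- The sum over the words that start with a marked letter. -/
noncomputable def G (lam : List X → K) (N : ℕ) : B :=
  WS N fun w => if StAt St w 0 then lam w • (w.map a).prod else 0

/-- The letter encoded by a single block. -/
noncomputable def d1 (p : List X) : Option X' :=
  if h : StAt St p 0 ∧ ∃ y, Eqv P p (enc y) then some h.2.choose else none

/-- The two letters encoded by a double block. -/
noncomputable def d2 (p : List X) : Option (X' × X') :=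
  if h : StAt St p 0 ∧ ¬ StAt St p Q ∧ ∃ y : X' × X', Eqv P p (enc y.1 ++ enc y.2) then
    some h.2.2.choose else none

omit [Fintype X] in
theorem d1_spec {p : List X} {y : X'} (h : d1 P St enc p = some y) :
    StAt St p 0 ∧ Eqv P p (enc y) := by
  unfold d1 at h
  split_ifs at h with hc
  obtain rfl := Option.some.inj h
  exact ⟨hc.1, hc.2.choose_spec⟩

omit [Fintype X] in
theorem d2_spec {p : List X} {y : X' × X'} (h : d2 P St Q enc p = some y) :
    StAt St p 0 ∧ ¬ StAt St p Q ∧ Eqv P p (enc y.1 ++ enc y.2) := by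
  unfold d2 at h
  split_ifs at h with hc
  obtain rfl := Option.some.inj h
  exact ⟨hc.1, hc.2.1, hc.2.2.choose_spec⟩

/-- The weight of single blocks. -/
noncomputable def s1 (y : X') : B :=
  WS Q fun p => if d1 P St enc p = some y then (p.map a).prod else 0

/-- The weight of double blocks. -/
noncomputable def s2 (y : X' × X') : B :=
  WS (Q + Q) fun p => if d2 P St Q enc p = some y then (p.map a).prod else 0

variable {P St Q enc}

theorem G_rec (hQ : 0 < Q)
    (h3 : ∀ w : List X, ¬ IsZero P w → 2 * Q + 1 ≤ w.length → StAt St w 0 →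
      (StAt St w Q ∧ ∃ y, Eqv P (w.take Q) (enc y)) ∨
      (¬ StAt St w Q ∧ StAt St w (2 * Q) ∧ ∃ y y', Eqv P (w.take (2 * Q)) (enc y ++ enc y')))
    {lam : List X → K} (hl : P.Inv lam) {n : ℕ} (hn : 1 ≤ n) :
    G St a lam (n + Q + Q) =
      ∑ y, s1 P St Q enc a y * G St a (fun v => lam (enc y ++ v)) (n + Q) +
      ∑ y : X' × X', s2 P St Q enc a y * G St a (fun v => lam (enc y.1 ++ (enc y.2 ++ v))) n := by
  have e1 : ∑ y, s1 P St Q enc a y * G St a (fun v => lam (enc y ++ v)) (n + Q) =
      WS (n + Q + Q) fun w => if (d1 P St enc (w.take Q)).isSome ∧ StAt St w Q then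
        lam w • (w.map a).prod else 0 := by
    rw [show n + Q + Q = Q + (n + Q) by ring, WS_add_len Q (n + Q)]
    simp only [s1, G, WS_mul_WS]
    rw [← WS_sum]
    refine WS_congr fun p hp => ?_
    rw [← WS_sum]
    refine WS_congr fun v _ => ?_
    rw [List.take_left' hp, stAt_append_right St p v hp.symm]
    cases hd : d1 P St enc p with
    | none => simp
    | some y0 =>
      have h4 : lam (enc y0 ++ v) = lam (p ++ v) :=
        (hl.eqv ((d1_spec P St enc hd).2.append (Eqv.refl v))).symm
      rw [Finset.sum_eq_single y0]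
      · by_cases hv : StAt St v 0
        · simp [hv, h4]
        · simp [hv]
      · intro y _ hy
        rw [if_neg (fun e => hy (Option.some.inj e).symm), zero_mul]
      · simp
  have e2 : ∑ y : X' × X',
      s2 P St Q enc a y * G St a (fun v => lam (enc y.1 ++ (enc y.2 ++ v))) n =
      WS (n + Q + Q) fun w => if (d2 P St Q enc (w.take (Q + Q))).isSome ∧ StAt St w (Q + Q) then
        lam w • (w.map a).prod else 0 := by
    rw [show n + Q + Q = (Q + Q) + n by ring, WS_add_len (Q + Q) n]
    simp only [s2, G, WS_mul_WS]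
    rw [← WS_sum]
    refine WS_congr fun p hp => ?_
    rw [← WS_sum]
    refine WS_congr fun v _ => ?_
    rw [List.take_left' hp, stAt_append_right St p v hp.symm]
    cases hd : d2 P St Q enc p with
    | none => simp
    | some y0 =>
      have h4 : lam (enc y0.1 ++ (enc y0.2 ++ v)) = lam (p ++ v) := by
        rw [← List.append_assoc]
        exact (hl.eqv ((d2_spec P St Q enc hd).2.2.append (Eqv.refl v))).symm
      rw [Finset.sum_eq_single y0]
      · by_cases hv : StAt St v 0
        · simp [hv, h4]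
        · simp [hv]
      · intro y _ hy
        rw [if_neg (fun e => hy (Option.some.inj e).symm), zero_mul]
      · simp
  rw [e1, e2, ← WS_add]
  refine WS_congr fun w hw => ?_
  by_cases hz : IsZero P w
  · simp [hl.isZero hz]
  have t1 : StAt St (w.take Q) 0 ↔ StAt St w 0 := by
    conv_rhs => rw [← List.take_append_drop Q w]
    exact (stAt_append_left St _ (by rw [List.length_take]; omega)).symm
  have t2 : StAt St (w.take (Q + Q)) 0 ↔ StAt St w 0 := by
    conv_rhs => rw [← List.take_append_drop (Q + Q) w]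
    exact (stAt_append_left St _ (by rw [List.length_take]; omega)).symm
  have t3 : StAt St (w.take (Q + Q)) Q ↔ StAt St w Q := by
    conv_rhs => rw [← List.take_append_drop (Q + Q) w]
    exact (stAt_append_left St _ (by rw [List.length_take]; omega)).symm
  have n1 : (d1 P St enc (w.take Q)).isSome ↔ StAt St w 0 ∧ ∃ y, Eqv P (w.take Q) (enc y) := by
    rw [← t1]
    unfold d1
    split_ifs with h
    · simpa using h
    · simpa using h
  have n2 : (d2 P St Q enc (w.take (Q + Q))).isSome ↔ StAt St w 0 ∧ ¬ StAt St w Q ∧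
      ∃ y : X' × X', Eqv P (w.take (Q + Q)) (enc y.1 ++ enc y.2) := by
    rw [← t2, ← t3]
    unfold d2
    split_ifs with h
    · simpa using h
    · simpa using h
  by_cases h0 : StAt St w 0
  · rcases h3 w hz (by omega) h0 with ⟨h4, h5⟩ | ⟨h4, h5, y, y', h6⟩
    · rw [if_pos h0, if_pos ⟨n1.2 ⟨h0, h5⟩, h4⟩, if_neg (fun h => (n2.1 h.1).2.1 h4), add_zero]
    · rw [two_mul] at h5 h6
      rw [if_pos h0, if_neg (fun h => h4 h.2), if_pos ⟨n2.2 ⟨h0, h4, (y, y'), h6⟩, h5⟩, zero_add]
  · rw [if_neg h0, if_neg (fun h => h0 (n1.1 h.1).1), if_neg (fun h => h0 (n2.1 h.1).1), add_zero]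

variable (P St Q enc)

/-- The matrices of the upper pencil. -/
noncomputable def up (y : X') : Matrix (Option X') (Option X') B
  | none, none => s1 P St Q enc a y
  | none, some y' => s2 P St Q enc a (y, y')
  | some y', none => if y = y' then 1 else 0
  | some _, some _ => 0

/-- The state vector. -/
noncomputable def V (lam : List X → K) (n : ℕ) : Option X' → B
  | none => G St a lam (n + Q)
  | some y' => G St a (fun v => lam (enc y' ++ v)) n

variable {P St Q enc}

omit [Fintype X] in
theorem inv_left {lam : List X → K} (hl : P.Inv lam) (u : List X) :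
    P.Inv fun v => lam (u ++ v) := by
  simpa using hl.shift u []

theorem V_rec (hQ : 0 < Q)
    (h3 : ∀ w : List X, ¬ IsZero P w → 2 * Q + 1 ≤ w.length → StAt St w 0 →
      (StAt St w Q ∧ ∃ y, Eqv P (w.take Q) (enc y)) ∨
      (¬ StAt St w Q ∧ StAt St w (2 * Q) ∧ ∃ y y', Eqv P (w.take (2 * Q)) (enc y ++ enc y')))
    {lam : List X → K} (hl : P.Inv lam) {n : ℕ} (hn : 1 ≤ n) (s : Option X') :
    V St Q enc a lam (n + Q) s =
      ∑ y, ∑ t, up P St Q enc a y s t * V St Q enc a (fun v => lam (enc y ++ v)) n t := by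
  cases s with
  | none =>
    simp only [Fintype.sum_option, up, V, Finset.sum_add_distrib]
    rw [G_rec a hQ h3 hl hn, Fintype.sum_prod_type]
  | some y' =>
    simp [Fintype.sum_option, up, V]

theorem V_iter (hQ : 0 < Q)
    (h3 : ∀ w : List X, ¬ IsZero P w → 2 * Q + 1 ≤ w.length → StAt St w 0 →
      (StAt St w Q ∧ ∃ y, Eqv P (w.take Q) (enc y)) ∨
      (¬ StAt St w Q ∧ StAt St w (2 * Q) ∧ ∃ y y', Eqv P (w.take (2 * Q)) (enc y ++ enc y')))
    {n : ℕ} (hn : 1 ≤ n) (m : ℕ) : ∀ {lam : List X → K} (_ : P.Inv lam)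
    (s : Option X'), V St Q enc a lam (n + m * Q) s =
      WS m fun Y : List X' => ∑ t, (Y.map (up P St Q enc a)).prod s t *
        V St Q enc a (fun v => lam (Y.flatMap enc ++ v)) n t := by
  induction m with
  | zero =>
    intro lam _ s
    simp only [WS_zero, List.map_nil, List.prod_nil, Matrix.one_apply, ite_mul, one_mul, zero_mul,
      Finset.sum_ite_eq, Finset.mem_univ, if_true, List.flatMap_nil, List.nil_append, add_zero]
  | succ m ih =>
    intro lam hl s
    rw [show n + (m + 1) * Q = n + m * Q + Q by ring, V_rec a hQ h3 hl (by omega), WS_succ]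
    refine Finset.sum_congr rfl fun y _ => ?_
    simp only [ih (inv_left hl (enc y)), mul_WS]
    rw [← WS_sum]
    refine WS_congr fun Y _ => ?_
    simp only [List.map_cons, List.prod_cons, Matrix.mul_apply, List.flatMap_cons,
      List.append_assoc, Finset.mul_sum, Finset.sum_mul, mul_assoc]
    exact Finset.sum_comm

theorem G_eq_zero (hQ : 0 < Q)
    (h3 : ∀ w : List X, ¬ IsZero P w → 2 * Q + 1 ≤ w.length → StAt St w 0 →
      (StAt St w Q ∧ ∃ y, Eqv P (w.take Q) (enc y)) ∨
      (¬ StAt St w Q ∧ StAt St w (2 * Q) ∧ ∃ y y', Eqv P (w.take (2 * Q)) (enc y ++ enc y')))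
    {m : ℕ} (hm : ∀ lam : List X → K, P.Inv lam → ∀ c : List X,
      (WS m fun Y : List X' => lam (Y.flatMap enc ++ c) • (Y.map (up P St Q enc a)).prod) = 0)
    {lam : List X → K} (hl : P.Inv lam) {N : ℕ} (hN : m * Q + Q + 1 ≤ N) :
    G St a lam N = 0 := by
  obtain ⟨n, hn, rfl⟩ : ∃ n, 1 ≤ n ∧ N = n + m * Q + Q := ⟨N - (m * Q + Q), by omega, by omega⟩
  have h := V_iter a hQ h3 hn m hl none
  rw [show G St a lam (n + m * Q + Q) = V St Q enc a lam (n + m * Q) none from rfl, h, WS_sum]
  refine Finset.sum_eq_zero fun t _ => ?_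
  have key : ∀ (c : List X) (k : ℕ), (WS m fun Y : List X' =>
      (Y.map (up P St Q enc a)).prod none t *
        G St a (fun v => lam (Y.flatMap enc ++ (c ++ v))) k) = 0 := by
    intro c k
    simp only [G, mul_WS]
    rw [WS_comm]
    refine WS_eq_zero fun v _ => ?_
    by_cases hv : StAt St v 0
    · simp only [if_pos hv]
      have h1 := congrFun (congrFun (hm lam hl (c ++ v)) none) t
      have h2 : (WS m fun Y : List X' => lam (Y.flatMap enc ++ (c ++ v)) •
          (Y.map (up P St Q enc a)).prod) none t = WS m fun Y : List X' =>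
          lam (Y.flatMap enc ++ (c ++ v)) • (Y.map (up P St Q enc a)).prod none t := by
        simp [WS, Matrix.sum_apply]
      rw [h2] at h1
      have h4 : (WS m fun Y : List X' => (Y.map (up P St Q enc a)).prod none t *
          (lam (Y.flatMap enc ++ (c ++ v)) • (v.map a).prod)) =
          (WS m fun Y : List X' => lam (Y.flatMap enc ++ (c ++ v)) •
            (Y.map (up P St Q enc a)).prod none t) * (v.map a).prod := by
        rw [WS_mul]
        refine WS_congr fun Y _ => ?_
        rw [mul_smul_comm, smul_mul_assoc]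
      rw [h4, h1]
      simp
    · simp only [if_neg hv, mul_zero]
      exact WS_eq_zero fun _ _ => rfl
  cases t with
  | none => exact key [] (n + Q)
  | some y' => exact key (enc y') n

theorem H_eq_zero {N0 : ℕ}
    (hG : ∀ lam : List X → K, P.Inv lam → ∀ N, N0 ≤ N → G St a lam N = 0) (k : ℕ) :
    ∀ lam : List X → K, P.Inv lam → ∀ N, N0 + k ≤ N →
      (WS N fun w => if ∃ i < k, StAt St w i then lam w • (w.map a).prod else 0) = 0 := by
  induction k with
  | zero => intro lam _ N _; exact WS_eq_zero fun w _ => by simp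
  | succ k ih =>
    intro lam hl N hN
    obtain ⟨N, rfl⟩ : ∃ N', N = N' + 1 := ⟨N - 1, by omega⟩
    have h1 := hG lam hl (N + 1) (by omega)
    unfold G at h1
    rw [WS_succ] at h1 ⊢
    have h2 : ∀ x : X, (WS N fun w => if ∃ i < k + 1, StAt St (x :: w) i then
          lam (x :: w) • ((x :: w).map a).prod else 0) =
        (WS N fun w => if StAt St (x :: w) 0 then lam (x :: w) • ((x :: w).map a).prod else 0) +
        if St x then 0 else a x * WS N fun w => if ∃ i < k, StAt St w i then
          lam (x :: w) • (w.map a).prod else 0 := by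
      intro x
      have h0 : ∀ w, StAt St (x :: w) 0 ↔ St x := fun w => by simp [StAt]
      by_cases hx : St x
      · rw [if_pos hx, add_zero]
        refine WS_congr fun w _ => ?_
        rw [if_pos ((h0 w).2 hx), if_pos ⟨0, Nat.succ_pos k, (h0 w).2 hx⟩]
      · rw [if_neg hx, mul_WS, ← WS_add]
        refine WS_congr fun w _ => ?_
        rw [if_neg (fun h => hx ((h0 w).1 h)), zero_add]
        have h5 : (∃ i < k + 1, StAt St (x :: w) i) ↔ ∃ i < k, StAt St w i := by
          constructor
          · rintro ⟨i, hi, h⟩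
            cases i with
            | zero => exact absurd ((h0 w).1 h) hx
            | succ i => exact ⟨i, by omega, by simpa [StAt] using h⟩
          · rintro ⟨i, hi, h⟩
            exact ⟨i + 1, by omega, by simpa [StAt] using h⟩
        by_cases h6 : ∃ i < k, StAt St w i
        · rw [if_pos (h5.2 h6), if_pos h6, List.map_cons, List.prod_cons, mul_smul_comm]
        · rw [if_neg (fun h => h6 (h5.1 h)), if_neg h6, mul_zero]
    simp only [h2, Finset.sum_add_distrib]
    rw [h1, zero_add]
    refine Finset.sum_eq_zero fun x _ => ?_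
    have h7 := ih (fun w => lam (x :: w)) (inv_left hl [x]) N (by omega)
    rw [h7, mul_zero, ite_self]

end Main

end Ds

open Desc Ds in
/-- nilpotency descends along a block encoding -/
theorem nilR_descent {K : Type} [CommRing K] {X X' : Type} [Fintype X] [Fintype X'] (P : Pres X) (P' : Pres X')
    (St : X → Prop) (Q L : ℕ) (hQ : 0 < Q) (enc : X' → List X)
    (h1 : ∀ lam : List X → K, P.Inv lam → P'.Inv fun Y => lam (Y.flatMap enc))
    (h2 : ∀ w : List X, ¬ IsZero P w → L ≤ w.length → ∃ i < L, StAt St w i)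
    (h3 : ∀ w : List X, ¬ IsZero P w → 2 * Q + 1 ≤ w.length → StAt St w 0 →
      (StAt St w Q ∧ ∃ y, Eqv P (w.take Q) (enc y)) ∨
      (¬ StAt St w Q ∧ StAt St w (2 * Q) ∧ ∃ y y', Eqv P (w.take (2 * Q)) (enc y ++ enc y')))
    (ρ : ℕ) (hup : NilR K P' (ρ * (Fintype.card X' + 1) ^ 2)) : NilR K P ρ := by
  classical
  intro B _ _ e he a
  obtain ⟨e', he'⟩ := span_matrix (ι := Option X') e he
  rw [← Fintype.card_option] at hup
  obtain ⟨m, hm⟩ := hup (Matrix (Option X') (Option X') B) e' he' (Ds.up P St Q enc a)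
  have hm' : ∀ lam : List X → K, P.Inv lam → ∀ c : List X,
      (WS m fun Y : List X' => lam (Y.flatMap enc ++ c) • (Y.map (Ds.up P St Q enc a)).prod) = 0 := by
    intro lam hl c
    have h4 : P.Inv fun w => lam (w ++ c) := by simpa using hl.shift [] c
    have h5 := hm _ (h1 _ h4)
    simpa only [WS, List.map_ofFn] using h5
  refine ⟨m * Q + Q + 1 + L, fun lam hl => ?_⟩
  have h6 := H_eq_zero a (fun lam hl N hN => G_eq_zero a hQ h3 hm' hl hN) L lam hl _ le_rfl
  have h7 : (WS (m * Q + Q + 1 + L) fun w => lam w • (w.map a).prod) = 0 := by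
    rw [← h6]
    refine WS_congr fun w hw => ?_
    by_cases hz : IsZero P w
    · simp [hl.isZero hz]
    · rw [if_pos (h2 w hz (by omega))]
  simpa only [WS, List.map_ofFn] using h7

theorem NilR.mono {K : Type} [CommRing K] {X : Type} [Fintype X] {P : Pres X} {ρ ρ' : ℕ} (h : ρ ≤ ρ') (hN : NilR K P ρ') :
    NilR K P ρ := by
  intro B _ _ e he a
  refine hN B (fun i => if hi : (i : ℕ) < ρ then e ⟨i, hi⟩ else 0) ?_ a
  rw [eq_top_iff, ← he]
  refine Submodule.span_mono ?_
  rintro _ ⟨i, rfl⟩
  refine ⟨⟨i, lt_of_lt_of_le i.2 h⟩, ?_⟩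
  simp

section

open Mach

theorem sys_direct {K : Type} [CommRing K] {p : ℕ} (hp : 0 < p) (hK : (p : K) = 0)
    (q : ℕ) [Fact (6 ≤ q)] (ρ : ℕ) (h : ρ * (p * nMode * (q + 2)) + 3 < up q) :
    NilR K (sys q) ρ := by
  have h6 := six_le (q := q)
  have e : ∀ n : ℕ, ρ * p * (n * (q + 2)) = ρ * (p * n * (q + 2)) := fun n => by ring
  exact nilR_direct hp hK (sys q) Start (4 * q + 1) q (16 * up q + 8) ρ
    (Nat.mul_pos (by omega) (by omega))
    (fun w hz hl => exists_start (fun h0 => hz h0.isZero) hl) skel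
    (interchange (ρ * p) (lt_of_eq_of_lt (congrArg (· + 3) (e nMode)) h))

theorem sys_descent {K : Type} [CommRing K] (q : ℕ) [Fact (6 ≤ q)] (ρ : ℕ)
    (h : NilR K (sys (up q)) (ρ * (Fintype.card (Let (up q)) + 1) ^ 2)) :
    NilR K (sys q) ρ := by
  have h6 := six_le (q := q)
  refine nilR_descent (sys q) (sys (up q)) Start (2 * q) (4 * q + 1) (by omega) enc
    (fun lam hl => inv_flatMap (P' := sys (up q)) enc (fun _ _ h => sim_rel h)
      (fun _ h => sim_zer h) hl)
    (fun w hz hl => exists_start (fun h0 => hz h0.isZero) hl) (fun w hz hl hs => ?_) ρ h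
  obtain ⟨κ, it, w', hv, rfl, hs'⟩ := exists_piece (fun h0 => hz h0.isZero) (by omega) hs
  have hz' : ¬ IsZero (sys q) (word κ it) := fun h0 => hz (h0.left w')
  cases h2 : κ.st.cls.two
  · have hl' : (word κ it).length = 2 * q := by rw [length_word, len, h2]; rfl
    obtain ⟨hit, y, hg⟩ := piece_one hv h2 hz'
    refine Or.inl ⟨(Desc.stAt_append_right Start _ _ hl'.symm).2 hs', y, ?_⟩
    rw [List.take_left' hl']
    simpa using parse_eqv (Parse.one κ it y [] [] [] h2 hg hit (Parse.done []))
  · have hl' : (word κ it).length = 2 * (2 * q) := by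
      rw [length_word, len, h2, if_pos rfl]; ring
    obtain ⟨hit, hit', y, y', hg⟩ := piece_two hv h2 hz'
    refine Or.inr ⟨not_start_two hv h2 it w', (Desc.stAt_append_right Start _ _ hl'.symm).2 hs',
      y, y', ?_⟩
    rw [List.take_left' hl']
    simpa using parse_eqv (Parse.two κ it y y' [] [] [] h2 hg hit hit' (Parse.done []))

end

/-- A finite homogeneous system with long nonzero words all of whose pencils over `K` are
nilpotent. -/
theorem system_main (K : Type) [CommRing K] {p : ℕ} (hp : 0 < p) (hK : (p : K) = 0) :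
    ∃ (X : Type) (_ : Fintype X) (P : Pres X), P.eqs.Finite ∧ P.zeros.Finite ∧ P.Homog ∧
      (∀ N : ℕ, ∃ w : List X, N ≤ w.length ∧ ¬ IsZero P w) ∧ ∀ ρ, NilR K P ρ := by
  obtain ⟨q, hq, h⟩ := growth (Fintype.card (Mach.Ctl × Mach.Sym × Mach.Sym)) (p * Mach.nMode)
    (fun q ρ => NilR K (Mach.sys q) ρ)
    (fun q ρ hq h => by
      have : Fact (6 ≤ q) := ⟨hq⟩
      exact sys_direct hp hK q ρ h)
    (fun q ρ hq h => by
      have : Fact (6 ≤ q) := ⟨hq⟩
      refine sys_descent q ρ ?_
      rw [Mach.card_let]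
      exact h)
    (fun q ρ ρ' h hN => hN.mono h)
  have : Fact (6 ≤ q) := ⟨hq⟩
  refine ⟨Mach.Let q, inferInstance, Mach.sys q, Mach.sys_eqs_finite q, Mach.sys_zeros_finite q,
    Mach.sys_homog q, fun N => ?_, h⟩
  obtain ⟨w, h1, h2⟩ := Mach.sys_long N q
  exact ⟨w, h1.le, h2⟩

end Vale.Agent.N192
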