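import Vale.Agent.N192.St

/-!
# P192: torus elements, the extended Levi group and column elements of Steinberg groups of nets
-/

namespace Vale.Agent.N192

open scoped commutatorElement

variable {κ ι A : Type} [Ring κ] [Ring A]

section PartA

namespace One

variable (N : Net κ ι A)

theorem ok_conj {i j : ι} {a : A} (h : N.ok i j a) (u w : A) : N.ok i j (u * a * w) := by
  refine ⟨h.1, h.2.1, h.2.2.1, h.2.2.2.imp id fun e => ?_⟩
  rw [map_mul, map_mul, e, mul_zero, zero_mul]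

theorem ok_top {i j : ι} (hi : i ∈ N.S) (h0 : N.lev i = 0) (hj : j ∈ N.S) (h : i ≠ j) (a : A) :
    N.ok i j a := ⟨hi, hj, h, Or.inl (by omega)⟩

theorem ok_swap_col {k p p' : ι} {a : A} (h : N.ok k p a) (hp' : p' ∈ N.S) (h0 : N.lev p = 0)
    (hk : k ≠ p') : N.ok k p' a :=
  ⟨h.1, hp', hk, h.2.2.2.imp (fun e => by omega) id⟩

/-- Conjugation by a diagonal matrix. -/
noncomputable def alpha (d : ι → Aˣ) : St N.ok →* St N.ok :=
  St.lift N.closed (fun i j a => St.x N.ok i j (d i * a * (d j)⁻¹))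
    ⟨fun ha hb => by
      rw [← (St.isSt N.ok).add (ok_conj N ha _ _) (ok_conj N hb _ _), mul_add, add_mul],
     fun ha hb h1 h2 => (St.isSt N.ok).comm (ok_conj N ha _ _) (ok_conj N hb _ _) h1 h2,
     fun ha hb h1 => by
      rw [(St.isSt N.ok).mul (ok_conj N ha _ _) (ok_conj N hb _ _) h1]
      simp only [mul_assoc, Units.inv_mul_cancel_left]⟩

theorem alpha_x (d : ι → Aˣ) {i j : ι} {a : A} (h : N.ok i j a) :
    alpha N d (St.x N.ok i j a) = St.x N.ok i j (d i * a * (d j)⁻¹) := St.lift_x _ _ _ h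

theorem alpha_mul (d e : ι → Aˣ) (y : St N.ok) : alpha N d (alpha N e y) = alpha N (d * e) y := by
  have : (alpha N d).comp (alpha N e) = alpha N (d * e) := by
    refine St.hom_ext fun i j a h => ?_
    rw [MonoidHom.comp_apply, alpha_x N e h, alpha_x N d (ok_conj N h _ _), alpha_x N _ h]
    simp only [Pi.mul_apply, Units.val_mul, mul_inv_rev, mul_assoc]
  exact DFunLike.congr_fun this y

theorem alpha_one (y : St N.ok) : alpha N 1 y = y := by
  have : alpha N 1 = MonoidHom.id _ := by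
    refine St.hom_ext fun i j a h => ?_
    rw [alpha_x N _ h]; simp
  exact DFunLike.congr_fun this y

theorem alpha_mem (d : ι → Aˣ) {T : ι → ι → Prop} {g : St N.ok} (hg : g ∈ UT N.ok T) :
    alpha N d g ∈ UT N.ok T :=
  UT_induction N.closed (p := fun g => alpha N d g ∈ UT N.ok T) (by simp)
    (fun i j a g ha hT _ ih => by
      rw [map_mul, alpha_x N d ha]
      exact Subgroup.mul_mem _ (x_mem_UT hT) ih) hg

/-- The subgroup avoiding the index `p`. -/
abbrev Av (p : ι) : Subgroup (St N.ok) := UT N.ok fun k l => k ≠ p ∧ l ≠ p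

/-- The row group. -/
abbrev Row (p : ι) : Subgroup (St N.ok) := UT N.ok fun k l => k = p ∧ l ≠ p

/-- The column group. -/
abbrev Col (p : ι) : Subgroup (St N.ok) := UT N.ok fun k l => k ≠ p ∧ l = p

theorem alpha_congr {d e : ι → Aˣ} {p : ι} (h : ∀ k, k ≠ p → d k = e k) {g : St N.ok}
    (hg : g ∈ Av N p) : alpha N d g = alpha N e g :=
  UT_induction N.closed (p := fun g => alpha N d g = alpha N e g) (by simp)
    (fun i j a g ha hT _ ih => by
      rw [map_mul, map_mul, alpha_x N d ha, alpha_x N e ha, ih, h i hT.1, h j hT.2]) hg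

theorem conj_row {p : ι} {z g : St N.ok} (hz : z ∈ Av N p) (hg : g ∈ Row N p) :
    z * g * z⁻¹ ∈ Row N p :=
  conj_UT_UT N.closed (fun _ _ h h' => h.2 h'.1) (fun _ _ _ h h' => absurd h'.1 h.2)
    (fun _ _ _ h h' => ⟨h'.1, h.2⟩) hz hg

theorem conj_col {p : ι} {z g : St N.ok} (hz : z ∈ Av N p) (hg : g ∈ Col N p) :
    z * g * z⁻¹ ∈ Col N p :=
  conj_UT_UT N.closed (fun _ _ h h' => h.1 h'.2) (fun _ _ _ h h' => ⟨h.1, h'.2⟩)
    (fun _ _ _ h h' => absurd h'.2 h.1) hz hg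

variable [Fintype ι] [DecidableEq ι]

theorem row_ext {p : ι} {g h : St N.ok} (hg : g ∈ Row N p) (hh : h ∈ Row N p)
    (e : phi N.closed g = phi N.closed h) : g = h :=
  unip_ext N.closed (fun k => if k = p then 0 else 1) (fun _ _ h => by simp [h.1, h.2]) hg hh e

theorem col_ext {p : ι} {g h : St N.ok} (hg : g ∈ Col N p) (hh : h ∈ Col N p)
    (e : phi N.closed g = phi N.closed h) : g = h :=
  unip_ext N.closed (fun k => if k = p then 1 else 0) (fun _ _ h => by simp [h.1, h.2]) hg hh e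

/-- The diagonal matrix. -/
def DM (d : ι → Aˣ) : Matrix ι ι A := Matrix.diagonal fun k => (d k : A)

theorem DM_mul (d e : ι → Aˣ) : DM (d * e) = DM d * DM e := by
  unfold DM; rw [Matrix.diagonal_mul_diagonal]; rfl

omit [Fintype ι] in
theorem DM_one : DM (1 : ι → Aˣ) = 1 := by
  unfold DM; simp

theorem DM_conj (d : ι → Aˣ) (i j : ι) (a : A) :
    DM d * (1 + Matrix.single i j a) = (1 + Matrix.single i j (d i * a * (d j)⁻¹)) * DM d := by
  rw [mul_add, add_mul, mul_one, one_mul]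
  congr 1
  ext k l
  unfold DM
  rw [Matrix.diagonal_mul, Matrix.mul_diagonal]
  by_cases h : i = k ∧ j = l
  · obtain ⟨rfl, rfl⟩ := h
    simp
  · simp [h]

/-- `g` acts as the diagonal matrix `d`. -/
structure IsD (g : St N.ok) (d : ι → Aˣ) : Prop where
  conj : ∀ y, g * y * g⁻¹ = alpha N d y
  mat : phi N.closed g = DM d

variable {N}

theorem IsD.mul {g h : St N.ok} {d e : ι → Aˣ} (hg : IsD N g d) (hh : IsD N h e) :
    IsD N (g * h) (d * e) :=
  ⟨fun y => by rw [← alpha_mul, ← hh.conj, ← hg.conj]; group,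
   by rw [map_mul, hg.mat, hh.mat, DM_mul]⟩

theorem IsD.inv {g : St N.ok} {d : ι → Aˣ} (hg : IsD N g d) : IsD N g⁻¹ d⁻¹ := by
  refine ⟨fun y => ?_, ?_⟩
  · have := hg.conj (alpha N d⁻¹ y)
    rw [alpha_mul, mul_inv_cancel, alpha_one] at this
    calc g⁻¹ * y * g⁻¹⁻¹ = g⁻¹ * (g * alpha N d⁻¹ y * g⁻¹) * g⁻¹⁻¹ := by rw [this]
      _ = alpha N d⁻¹ y := by group
  · have h1 : phi N.closed g⁻¹ * DM d = 1 := by rw [← hg.mat, ← map_mul, inv_mul_cancel, map_one]
    calc phi N.closed g⁻¹ = phi N.closed g⁻¹ * DM d * DM d⁻¹ := by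
          rw [mul_assoc, ← DM_mul, mul_inv_cancel, DM_one, mul_one]
      _ = DM d⁻¹ := by rw [h1, one_mul]

theorem IsD.congr {g : St N.ok} {d e : ι → Aˣ} (hg : IsD N g d) (h : d = e) : IsD N g e := h ▸ hg

theorem IsD.comm {g : St N.ok} {d : ι → Aˣ} (hg : IsD N g d) (y : St N.ok) :
    g * y = alpha N d y * g := by rw [← hg.conj]; group

theorem conj_of_diag {g : St N.ok} {d : ι → Aˣ} (hm : phi N.closed g = DM d) {k l : ι} {a : A}
    (ha : N.ok k l a) (h : g ∈ Av N k ∨ g ∈ Av N l) :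
    g * St.x N.ok k l a * g⁻¹ = St.x N.ok k l (d k * a * (d l)⁻¹) := by
  have e : phi N.closed (g * St.x N.ok k l a * g⁻¹) =
      phi N.closed (St.x N.ok k l (d k * a * (d l)⁻¹)) := by
    rw [map_mul, map_mul, hm, phi_x _ ha, DM_conj, phi_x _ (ok_conj N ha _ _), mul_assoc, ← hm,
      ← map_mul, mul_inv_cancel, map_one, mul_one]
  rcases h with h | h
  · exact row_ext N (conj_row N h (x_mem_UT ⟨rfl, ha.2.2.1.symm⟩))
      (x_mem_UT ⟨rfl, ha.2.2.1.symm⟩) e
  · exact col_ext N (conj_col N h (x_mem_UT ⟨ha.2.2.1, rfl⟩)) (x_mem_UT ⟨ha.2.2.1, rfl⟩) e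

variable (N)

/-- The torus element. -/
def HH (i j : ι) (t s : A) (v : Aˣ) : St N.ok :=
  St.x N.ok j i (-(s * ↑v⁻¹)) * St.x N.ok i j t * St.x N.ok j i s * St.x N.ok i j (-(↑v⁻¹ * t))

/-- The unit `1 + s t`. -/
def wU (t s : A) (v : Aˣ) (hv : (v : A) = 1 + t * s) : Aˣ :=
  ⟨1 + s * t, 1 - s * ↑v⁻¹ * t,
    by
      have h : (1 + t * s) * ↑v⁻¹ = 1 := by rw [← hv, Units.mul_inv]
      have : (1 + s * t) * (1 - s * ↑v⁻¹ * t) =
          1 + s * t - s * ((1 + t * s) * ↑v⁻¹) * t := by noncomm_ring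
      rw [this, h, mul_one, add_sub_cancel_right],
    by
      have h : ↑v⁻¹ * (1 + t * s) = 1 := by rw [← hv, Units.inv_mul]
      have : (1 - s * ↑v⁻¹ * t) * (1 + s * t) =
          1 + s * t - s * (↑v⁻¹ * (1 + t * s)) * t := by noncomm_ring
      rw [this, h, mul_one, add_sub_cancel_right]⟩

omit [Fintype ι] [DecidableEq ι] in
theorem HH_mem {i j p : ι} (hi : i ≠ p) (hj : j ≠ p) (t s : A) (v : Aˣ) :
    HH N i j t s v ∈ Av N p :=
  Subgroup.mul_mem _ (Subgroup.mul_mem _ (Subgroup.mul_mem _ (x_mem_UT ⟨hj, hi⟩)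
    (x_mem_UT ⟨hi, hj⟩)) (x_mem_UT ⟨hj, hi⟩)) (x_mem_UT ⟨hi, hj⟩)

omit [Fintype ι] [DecidableEq ι] in
theorem x_mul_x {i j : ι} {t s : A} (ht : N.ok i j t) (hs : N.ok j i s) (v : Aˣ) :
    St.x N.ok i j t * St.x N.ok j i s =
      St.x N.ok j i (s * ↑v⁻¹) * HH N i j t s v * St.x N.ok i j (↑v⁻¹ * t) := by
  have h1 : N.ok j i (s * ↑v⁻¹) := by simpa using ok_conj N hs 1 ↑v⁻¹
  have h2 : N.ok i j (↑v⁻¹ * t) := by simpa using ok_conj N ht ↑v⁻¹ 1
  unfold HH
  simp only [← mul_assoc]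
  rw [(St.isSt N.ok).mul_neg N.closed h1, one_mul, mul_assoc _ (St.x N.ok i j (-(↑v⁻¹ * t))),
    (St.isSt N.ok).neg_mul N.closed h2, mul_one]

theorem phi_HH {i j : ι} {t s : A} (ht : N.ok i j t) (hs : N.ok j i s) (v : Aˣ)
    (hv : (v : A) = 1 + t * s) :
    phi N.closed (HH N i j t s v) = DM (Pi.mulSingle i v * Pi.mulSingle j (wU t s v hv)⁻¹) := by
  have hij := ht.2.2.1
  have h1 : N.ok j i (-(s * ↑v⁻¹)) := N.closed.neg (by simpa using ok_conj N hs 1 ↑v⁻¹)
  have h2 : N.ok i j (-(↑v⁻¹ * t)) := N.closed.neg (by simpa using ok_conj N ht ↑v⁻¹ 1)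
  have h3 : ↑v⁻¹ * (1 + t * s) = 1 := by rw [← hv, Units.inv_mul]
  have h4 : (1 + t * s) * ↑v⁻¹ = 1 := by rw [← hv, Units.mul_inv]
  have e1 : s + -(s * ↑v⁻¹) + -(s * ↑v⁻¹) * t * s = 0 := by
    have : s + -(s * ↑v⁻¹) + -(s * ↑v⁻¹) * t * s = s - s * (↑v⁻¹ * (1 + t * s)) := by
      noncomm_ring
    rw [this, h3, mul_one, sub_self]
  have e2 : t + -(↑v⁻¹ * t) + t * s * -(↑v⁻¹ * t) = 0 := by
    have : t + -(↑v⁻¹ * t) + t * s * -(↑v⁻¹ * t) = t - ((1 + t * s) * ↑v⁻¹) * t := by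
      noncomm_ring
    rw [this, h4, one_mul, sub_self]
  have a1 : (1 + Matrix.single j i (-(s * ↑v⁻¹))) * (1 + Matrix.single i j t) *
      (1 + Matrix.single j i s) =
      1 + Matrix.single i j t + Matrix.single i i (t * s) + Matrix.single j j (-(s * ↑v⁻¹) * t) +
        Matrix.single j i (s + -(s * ↑v⁻¹) + -(s * ↑v⁻¹) * t * s) := by
    simp only [add_mul, mul_add, one_mul, mul_one, Matrix.single_mul_single_same,
      Matrix.single_mul_single_of_ne _ _ _ _ hij, Matrix.single_add]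
    abel
  have a2 : (1 + Matrix.single i j t + Matrix.single i i (t * s) +
      Matrix.single j j (-(s * ↑v⁻¹) * t)) * (1 + Matrix.single i j (-(↑v⁻¹ * t))) =
      1 + Matrix.single i i (t * s) + Matrix.single j j (-(s * ↑v⁻¹) * t) +
        Matrix.single i j (t + -(↑v⁻¹ * t) + t * s * -(↑v⁻¹ * t)) := by
    simp only [add_mul, mul_add, one_mul, mul_one, Matrix.single_mul_single_same,
      Matrix.single_mul_single_of_ne _ _ _ _ hij.symm, Matrix.single_add]
    abel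
  unfold HH
  rw [map_mul, map_mul, map_mul, phi_x _ h1, phi_x _ ht, phi_x _ hs, phi_x _ h2, a1, e1,
    Matrix.single_zero, add_zero, a2, e2, Matrix.single_zero, add_zero]
  ext k l
  unfold DM
  by_cases hkl : k = l
  · subst hkl
    by_cases hi : k = i
    · subst hi
      simp [hij, hij.symm, hv]
    · by_cases hj : k = j
      · subst hj
        simp [hij, hij.symm, wU, sub_eq_add_neg]
      · simp [hi, hj, Ne.symm hi, Ne.symm hj]
  · have h5 : ¬ (i = k ∧ i = l) := fun h => hkl (h.1.symm.trans h.2)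
    have h6 : ¬ (j = k ∧ j = l) := fun h => hkl (h.1.symm.trans h.2)
    simp [hkl, h5, h6]

theorem isD_of_gen {g : St N.ok} {d : ι → Aˣ} (hm : phi N.closed g = DM d)
    (h : ∀ k l a, N.ok k l a → g * St.x N.ok k l a * g⁻¹ = St.x N.ok k l (d k * a * (d l)⁻¹)) :
    IsD N g d := by
  refine ⟨fun y => ?_, hm⟩
  have : (MulAut.conj g).toMonoidHom = alpha N d :=
    St.hom_ext fun i j a ha => by rw [alpha_x N d ha, ← h i j a ha]; rfl
  exact DFunLike.congr_fun this y

/-- An element of the group of two indices with diagonal matrix acts by that matrix. -/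
theorem isD_two {g : St N.ok} {d : ι → Aˣ} (hm : phi N.closed g = DM d) {i j p : ι}
    (hg : ∀ k, k ≠ i → k ≠ j → g ∈ Av N k) (hi : i ∈ N.S) (hi0 : N.lev i = 0)
    (hp : p ∈ N.S) (hp0 : N.lev p = 0) (hpi : p ≠ i) (hpj : p ≠ j) : IsD N g d := by
  have hgp := hg p hpi hpj
  have split : ∀ k l a b, N.ok k p a → N.ok p l b → k ≠ l →
      g * St.x N.ok k l (a * b) * g⁻¹ = St.x N.ok k l (d k * (a * b) * (d l)⁻¹) := by
    intro k l a b ha hb hkl
    rw [← (St.isSt N.ok).mul ha hb hkl, conjugate_commutatorElement,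
      conj_of_diag hm ha (Or.inr hgp), conj_of_diag hm hb (Or.inl hgp),
      (St.isSt N.ok).mul (ok_conj N ha _ _) (ok_conj N hb _ _) hkl]
    simp only [mul_assoc, Units.inv_mul_cancel_left]
  refine isD_of_gen N hm fun k l a ha => ?_
  by_cases hk : k ≠ i ∧ k ≠ j
  · exact conj_of_diag hm ha (Or.inl (hg k hk.1 hk.2))
  by_cases hl : l ≠ i ∧ l ≠ j
  · exact conj_of_diag hm ha (Or.inr (hg l hl.1 hl.2))
  have hkl := ha.2.2.1
  by_cases hki : k = i
  · subst hki
    have hlp : p ≠ l := by rintro rfl; exact hl ⟨hpi, hpj⟩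
    simpa using split k l 1 a (ok_top N hi hi0 hp hpi.symm 1) (ok_top N hp hp0 ha.2.1 hlp a) hkl
  · have hkj : k = j := by by_contra h; exact hk ⟨hki, h⟩
    subst hkj
    have hli : l = i := by by_contra h; exact hl ⟨h, hkl.symm⟩
    subst hli
    simpa using split k l a 1 (ok_swap_col N ha hp hi0 hpj.symm) (ok_top N hp hp0 hi hpi 1) hkl

theorem isD_HH {i j p : ι} {t s : A} (ht : N.ok i j t) (hs : N.ok j i s) (v : Aˣ)
    (hv : (v : A) = 1 + t * s) (hi0 : N.lev i = 0)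
    (hp : p ∈ N.S) (hp0 : N.lev p = 0) (hpi : p ≠ i) (hpj : p ≠ j) :
    IsD N (HH N i j t s v) (Pi.mulSingle i v * Pi.mulSingle j (wU t s v hv)⁻¹) :=
  isD_two N (phi_HH N ht hs v hv) (fun _ h1 h2 => HH_mem N h1.symm h2.symm t s v) ht.1 hi0
    hp hp0 hpi hpj

/-- The Weyl element exchanging two unital indices. -/
def WW (p q : ι) : St N.ok := St.x N.ok p q (-1) * St.x N.ok q p 1 * St.x N.ok p q (-1)

omit [Fintype ι] [DecidableEq ι] in
theorem WW_row {p q l : ι} (hp : p ∈ N.S) (hp0 : N.lev p = 0) (hq : q ∈ N.S) (hq0 : N.lev q = 0)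
    (hpq : p ≠ q) (hl : l ∈ N.S) (hlp : l ≠ p) (hlq : l ≠ q) (a : A) :
    MulAut.conj (WW N p q) (St.x N.ok p l a) = St.x N.ok q l a := by
  have h := St.isSt N.ok
  have h1 := ok_top N hp hp0 hq hpq (-1 : A)
  have h2 := ok_top N hq hq0 hp hpq.symm (1 : A)
  have h3 := ok_top N hp hp0 hl hlp.symm a
  have h4 := ok_top N hq hq0 hl hlq.symm a
  have c1 : MulAut.conj (St.x N.ok p q (-1)) (St.x N.ok p l a) = St.x N.ok p l a :=
    h.conj_comm h1 h3 hpq.symm hlp.symm
  have c2 : MulAut.conj (St.x N.ok q p 1) (St.x N.ok p l a) =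
      St.x N.ok q l a * St.x N.ok p l a := by simpa using h.conj_left h2 h3 hlq.symm
  have c3 : MulAut.conj (St.x N.ok p q (-1)) (St.x N.ok q l a) =
      St.x N.ok p l (-a) * St.x N.ok q l a := by simpa using h.conj_left h1 h4 hlp.symm
  unfold WW
  rw [map_mul, map_mul, MulAut.mul_apply, MulAut.mul_apply, c1, c2, map_mul, c3, c1,
    (h.comm (N.closed.neg h3) h4 hlq hlp.symm).eq, mul_assoc, h.neg_mul N.closed h3, mul_one]

omit [Fintype ι] [DecidableEq ι] in
theorem WW_col {p q l : ι} (hp : p ∈ N.S) (hp0 : N.lev p = 0) (hq : q ∈ N.S) (hq0 : N.lev q = 0)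
    (hpq : p ≠ q) (hlq : l ≠ q) {a : A} (h3 : N.ok l p a) :
    MulAut.conj (WW N p q) (St.x N.ok l p a) = St.x N.ok l q a := by
  have h := St.isSt N.ok
  have hlp := h3.2.2.1
  have h1 := ok_top N hp hp0 hq hpq (-1 : A)
  have h2 := ok_top N hq hq0 hp hpq.symm (1 : A)
  have h4 := ok_swap_col N h3 hq hp0 hlq
  have c1 : MulAut.conj (St.x N.ok p q (-1)) (St.x N.ok l p a) =
      St.x N.ok l q a * St.x N.ok l p a := by simpa using h.conj_right N.closed h3 h1 hlq
  have c2 : MulAut.conj (St.x N.ok q p 1) (St.x N.ok l q a) =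
      St.x N.ok l p (-a) * St.x N.ok l q a := by simpa using h.conj_right N.closed h4 h2 hlp
  have c3 : MulAut.conj (St.x N.ok q p 1) (St.x N.ok l p a) = St.x N.ok l p a :=
    h.conj_comm h2 h3 hlp.symm hpq.symm
  have c4 : MulAut.conj (St.x N.ok p q (-1)) (St.x N.ok l q a) = St.x N.ok l q a :=
    h.conj_comm h1 h4 hlq.symm hpq
  unfold WW
  rw [map_mul, map_mul, MulAut.mul_apply, MulAut.mul_apply, c1, map_mul, c2, c3,
    (h.comm (N.closed.neg h3) h4 hlp.symm hlq).eq, mul_assoc, h.neg_mul N.closed h3, mul_one, c4]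

omit [Fintype ι] [DecidableEq ι] in
theorem WW_HH {p q j : ι} (hp0 : N.lev p = 0) (hq : q ∈ N.S) (hq0 : N.lev q = 0)
    (hpq : p ≠ q) (hjq : j ≠ q) {t s : A} (hs : N.ok j p s) (v : Aˣ) :
    MulAut.conj (WW N p q) (HH N p j t s v) = HH N q j t s v := by
  have h1 : N.ok j p (-(s * ↑v⁻¹)) := N.closed.neg (by simpa using ok_conj N hs 1 ↑v⁻¹)
  have hp := hs.2.1
  unfold HH
  rw [map_mul, map_mul, map_mul, WW_col N hp hp0 hq hq0 hpq hjq h1,
    WW_col N hp hp0 hq hq0 hpq hjq hs, WW_row N hp hp0 hq hq0 hpq hs.1 hs.2.2.1 hjq,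
    WW_row N hp hp0 hq hq0 hpq hs.1 hs.2.2.1 hjq]

theorem WW_fix {g : St N.ok} {d : ι → Aˣ} (hg : IsD N g d) {p q : ι} (hp : p ∈ N.S)
    (hp0 : N.lev p = 0) (hq : q ∈ N.S) (hq0 : N.lev q = 0) (hpq : p ≠ q) (h1 : d p = 1)
    (h2 : d q = 1) : MulAut.conj (WW N p q) g = g := by
  have e : alpha N d (WW N p q) = WW N p q := by
    unfold WW
    rw [map_mul, map_mul, alpha_x N d (ok_top N hp hp0 hq hpq (-1)),
      alpha_x N d (ok_top N hq hq0 hp hpq.symm 1), h1, h2]
    simp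
  rw [MulAut.conj_apply, ← e, ← hg.comm, e]
  group

end One

end PartA

section PartB

namespace One

/-- A base index and enough unital indices. -/
structure Ctx (N : Net κ ι A) where
  m : ι
  hm : m ∈ N.S
  hm0 : N.lev m = 0
  spare : ∀ a b c : ι, ∃ p ∈ N.S, N.lev p = 0 ∧ p ≠ a ∧ p ≠ b ∧ p ≠ c

variable {N : Net κ ι A} (C : Ctx N)

/-- The torus element of a unit. -/
def hh (p : ι) (v : Aˣ) : St N.ok := HH N p C.m (v - 1) 1 v

theorem val_eq (v : Aˣ) : (v : A) = 1 + (v - 1) * 1 := by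
  rw [mul_one, add_sub_cancel]

theorem wU_val (v : Aˣ) : wU ((v : A) - 1) 1 v (val_eq v) = v := by
  ext
  show 1 + 1 * ((v : A) - 1) = v
  rw [one_mul, add_sub_cancel]

theorem hh_mem {p q : ι} (hp : p ≠ q) (hq : C.m ≠ q) (v : Aˣ) : hh C p v ∈ Av N q :=
  HH_mem N hp hq _ _ _

theorem hh_one {p : ι} (hp : p ∈ N.S) (hp0 : N.lev p = 0) (hpm : p ≠ C.m) : hh C p 1 = 1 := by
  have h := St.isSt N.ok
  have h1 := ok_top N C.hm C.hm0 hp hpm.symm (1 : A)
  have h2 := ok_top N hp hp0 C.hm hpm (0 : A)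
  unfold hh HH
  simp only [inv_one, Units.val_one, mul_one, mul_zero, sub_self, neg_zero, h.zero h2,
    h.neg_mul N.closed h1]

/-- The cocycle, computed with the spare index `p`. -/
def cc (p : ι) (v d : Aˣ) : St N.ok := hh C p v * hh C p d * (hh C p (v * d))⁻¹

/-- The diagonal correction, computed with the spare index `p`. -/
def DD (p j : ι) (t s : A) (v : Aˣ) : St N.ok := HH N p j t s v * (hh C p v)⁻¹

theorem cc_mem {p q : ι} (hp : p ≠ q) (hq : C.m ≠ q) (v d : Aˣ) : cc C p v d ∈ Av N q :=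
  Subgroup.mul_mem _ (Subgroup.mul_mem _ (hh_mem C hp hq _) (hh_mem C hp hq _))
    (Subgroup.inv_mem _ (hh_mem C hp hq _))

theorem DD_mem {p j q : ι} (hp : p ≠ q) (hj : j ≠ q) (hq : C.m ≠ q) (t s : A) (v : Aˣ) :
    DD C p j t s v ∈ Av N q :=
  Subgroup.mul_mem _ (HH_mem N hp hj _ _ _) (Subgroup.inv_mem _ (hh_mem C hp hq _))

/-- A chosen spare index. -/
noncomputable def pk (j : ι) : ι := (C.spare j C.m C.m).choose

theorem pk_spec (j : ι) : pk C j ∈ N.S ∧ N.lev (pk C j) = 0 ∧ pk C j ≠ j ∧ pk C j ≠ C.m :=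
  have h := (C.spare j C.m C.m).choose_spec
  ⟨h.1, h.2.1, h.2.2.1, h.2.2.2.1⟩

/-- The cocycle. -/
noncomputable def c0 (v d : Aˣ) : St N.ok := cc C (pk C C.m) v d

/-- The diagonal correction. -/
noncomputable def D0 (j : ι) (t s : A) (v : Aˣ) : St N.ok := DD C (pk C j) j t s v

variable [Fintype ι] [DecidableEq ι]

theorem isD_hh {p : ι} (hp : p ∈ N.S) (hp0 : N.lev p = 0) (hpm : p ≠ C.m) (v : Aˣ) :
    IsD N (hh C p v) (Pi.mulSingle p v * Pi.mulSingle C.m v⁻¹) := by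
  obtain ⟨q, hq, hq0, h1, h2, -⟩ := C.spare p C.m C.m
  have := isD_HH N (ok_top N hp hp0 C.hm hpm (v - 1)) (ok_top N C.hm C.hm0 hp hpm.symm 1) v
    (val_eq v) hp0 hq hq0 h1 h2
  rwa [wU_val] at this

theorem isD_cc {p : ι} (hp : p ∈ N.S) (hp0 : N.lev p = 0) (hpm : p ≠ C.m) (v d : Aˣ) :
    IsD N (cc C p v d) (Pi.mulSingle C.m (v⁻¹ * d⁻¹ * (v * d))) := by
  refine (((isD_hh C hp hp0 hpm v).mul (isD_hh C hp hp0 hpm d)).mul
    (isD_hh C hp hp0 hpm (v * d)).inv).congr ?_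
  ext1 k
  by_cases h1 : k = p
  · subst h1; simp [hpm]
  · by_cases h2 : k = C.m
    · subst h2; simp [h1]
    · simp [h1, h2]

theorem isD_DD {p j : ι} (hp0 : N.lev p = 0) (hpm : p ≠ C.m) {t s : A} (hs : N.ok j p s)
    (v : Aˣ) (hv : (v : A) = 1 + t * s) :
    IsD N (DD C p j t s v) (Pi.mulSingle j (wU t s v hv)⁻¹ * Pi.mulSingle C.m v) := by
  have hp := hs.2.1
  have hjp := hs.2.2.1
  obtain ⟨q, hq, hq0, h1, h2, -⟩ := C.spare p j j
  refine ((isD_HH N (ok_top N hp hp0 hs.1 hjp.symm t) hs v hv hp0 hq hq0 h1 h2).mul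
    (isD_hh C hp hp0 hpm v).inv).congr ?_
  ext1 k
  by_cases h1 : k = p
  · subst h1; simp [hpm, hjp.symm]
  · by_cases h2 : k = C.m
    · subst h2; simp [h1]
    · simp [h1, h2]

theorem cc_indep {p q : ι} (hp : p ∈ N.S) (hp0 : N.lev p = 0) (hpm : p ≠ C.m) (hq : q ∈ N.S)
    (hq0 : N.lev q = 0) (hqm : q ≠ C.m) (v d : Aˣ) : cc C p v d = cc C q v d := by
  by_cases hpq : p = q
  · rw [hpq]
  have h1 : ∀ u, MulAut.conj (WW N p q) (hh C p u) = hh C q u := fun u =>
    WW_HH N hp0 hq hq0 hpq hqm.symm (ok_top N C.hm C.hm0 hp hpm.symm 1) u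
  have h2 := WW_fix N (isD_cc C hp hp0 hpm v d) hp hp0 hq hq0 hpq (by simp [hpm]) (by simp [hqm])
  rw [← h2]
  unfold cc
  rw [map_mul, map_mul, map_inv, h1, h1, h1]

theorem DD_indep {p q j : ι} (hp0 : N.lev p = 0) (hpm : p ≠ C.m) (hq : q ∈ N.S)
    (hq0 : N.lev q = 0) (hqm : q ≠ C.m) (hjq : j ≠ q) {t s : A} (hs : N.ok j p s) (v : Aˣ)
    (hv : (v : A) = 1 + t * s) : DD C p j t s v = DD C q j t s v := by
  by_cases hpq : p = q
  · rw [hpq]
  have hp := hs.2.1
  have h1 : MulAut.conj (WW N p q) (hh C p v) = hh C q v :=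
    WW_HH N hp0 hq hq0 hpq hqm.symm (ok_top N C.hm C.hm0 hp hpm.symm 1) v
  have h2 := WW_fix N (isD_DD C hp0 hpm hs v hv) hp hp0 hq hq0 hpq
    (by simp [hpm, hs.2.2.1.symm]) (by simp [hqm, hjq.symm])
  rw [← h2]
  unfold DD
  rw [map_mul, map_inv, h1, WW_HH N hp0 hq hq0 hpq hjq hs v]

theorem c0_eq {p : ι} (hp : p ∈ N.S) (hp0 : N.lev p = 0) (hpm : p ≠ C.m) (v d : Aˣ) :
    c0 C v d = cc C p v d :=
  have h := pk_spec C C.m
  cc_indep C h.1 h.2.1 h.2.2.2 hp hp0 hpm v d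

theorem D0_eq {p j : ι} (hp0 : N.lev p = 0) (hpm : p ≠ C.m) {t s : A} (hs : N.ok j p s)
    (v : Aˣ) (hv : (v : A) = 1 + t * s) : D0 C j t s v = DD C p j t s v :=
  have h := pk_spec C j
  (DD_indep C hp0 hpm h.1 h.2.1 h.2.2.2 h.2.2.1.symm hs v hv).symm

theorem c0_mem {q : ι} (hq : q ≠ C.m) (v d : Aˣ) : c0 C v d ∈ Av N q := by
  obtain ⟨p, hp, hp0, h1, h2, -⟩ := C.spare q C.m C.m
  rw [c0_eq C hp hp0 h2]
  exact cc_mem C h1 hq.symm v d

theorem D0_mem {p j : ι} (hp0 : N.lev p = 0) (hpm : p ≠ C.m) {t s : A} (hs : N.ok j p s)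
    (v : Aˣ) (hv : (v : A) = 1 + t * s) : D0 C j t s v ∈ Av N p := by
  obtain ⟨q, hq, hq0, h1, h2, h3⟩ := C.spare p C.m j
  rw [D0_eq C hq0 h2 (ok_swap_col N hs hq hp0 h3.symm) v hv]
  exact DD_mem C h1 hs.2.2.1 hpm.symm t s v

theorem isD_c0 (v d : Aˣ) : IsD N (c0 C v d) (Pi.mulSingle C.m (v⁻¹ * d⁻¹ * (v * d))) :=
  have h := pk_spec C C.m
  isD_cc C h.1 h.2.1 h.2.2.2 v d

theorem c0_one_left (d : Aˣ) : c0 C 1 d = 1 := by
  have h := pk_spec C C.m
  unfold c0 cc
  rw [hh_one C h.1 h.2.1 h.2.2.2, one_mul, one_mul, mul_inv_cancel]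

theorem c0_one_right (v : Aˣ) : c0 C v 1 = 1 := by
  have h := pk_spec C C.m
  unfold c0 cc
  rw [hh_one C h.1 h.2.1 h.2.2.2, mul_one, mul_one, mul_inv_cancel]

/-- The action of a unit placed at the base index. -/
noncomputable def am (u : Aˣ) : St N.ok →* St N.ok := alpha N (Pi.mulSingle C.m u)

omit [Fintype ι] in
theorem am_mul (u w : Aˣ) (y : St N.ok) : am C u (am C w y) = am C (u * w) y := by
  unfold am; rw [alpha_mul, ← Pi.mulSingle_mul]

omit [Fintype ι] in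
theorem am_one (y : St N.ok) : am C 1 y = y := by
  unfold am; rw [Pi.mulSingle_one, alpha_one]

theorem hh_conj {p : ι} (hp : p ∈ N.S) (hp0 : N.lev p = 0) (hpm : p ≠ C.m) (v : Aˣ)
    {z : St N.ok} (hz : z ∈ Av N p) : hh C p v * z = am C v⁻¹ z * hh C p v := by
  rw [(isD_hh C hp hp0 hpm v).comm]
  congr 1
  exact alpha_congr N (fun k hk => by simp [hk]) hz

theorem hh_mul {p : ι} (hp : p ∈ N.S) (hp0 : N.lev p = 0) (hpm : p ≠ C.m) (v d : Aˣ) :
    hh C p v * hh C p d = c0 C v d * hh C p (v * d) := by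
  rw [c0_eq C hp hp0 hpm]; unfold cc; group

theorem cocycle (u v w : Aˣ) :
    c0 C u v * c0 C (u * v) w = am C u⁻¹ (c0 C v w) * c0 C u (v * w) := by
  obtain ⟨hp, hp0, -, hpm⟩ := pk_spec C C.m
  have h1 := mul_assoc (hh C (pk C C.m) u) (hh C (pk C C.m) v) (hh C (pk C C.m) w)
  rw [hh_mul C hp hp0 hpm u v, mul_assoc, hh_mul C hp hp0 hpm (u * v) w,
    hh_mul C hp hp0 hpm v w, ← mul_assoc (hh C (pk C C.m) u), hh_conj C hp hp0 hpm u (c0_mem C hpm v w),
    mul_assoc (am C u⁻¹ (c0 C v w)), hh_mul C hp hp0 hpm u (v * w), ← mul_assoc, ← mul_assoc,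
    mul_assoc u v w] at h1
  exact mul_right_cancel h1

/-- The extended Levi group. -/
@[ext]
structure Lam (C : Ctx N) where
  z : St N.ok
  v : Aˣ

noncomputable instance : Mul (Lam C) :=
  ⟨fun a b => ⟨a.z * am C a.v⁻¹ b.z * c0 C a.v b.v, a.v * b.v⟩⟩

instance : One (Lam C) := ⟨⟨1, 1⟩⟩

noncomputable instance : Inv (Lam C) :=
  ⟨fun a => ⟨(am C a.v a.z * c0 C a.v⁻¹ a.v)⁻¹, a.v⁻¹⟩⟩

omit [Fintype ι] in
theorem Lam.mul_z (a b : Lam C) : (a * b).z = a.z * am C a.v⁻¹ b.z * c0 C a.v b.v := rfl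

omit [Fintype ι] in
theorem Lam.mul_v (a b : Lam C) : (a * b).v = a.v * b.v := rfl

omit [Fintype ι] [DecidableEq ι] in
theorem Lam.one_z : (1 : Lam C).z = 1 := rfl

omit [Fintype ι] [DecidableEq ι] in
theorem Lam.one_v : (1 : Lam C).v = 1 := rfl

noncomputable instance : Group (Lam C) :=
  Group.ofLeftAxioms
    (fun a b d => by
      ext1
      · simp only [Lam.mul_z, Lam.mul_v, map_mul, am_mul]
        have h := (isD_c0 C a.v b.v).comm (am C (a.v * b.v)⁻¹ d.z)
        have h' : alpha N (Pi.mulSingle C.m (a.v⁻¹ * b.v⁻¹ * (a.v * b.v)))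
            (am C (a.v * b.v)⁻¹ d.z) = am C (a.v⁻¹ * b.v⁻¹) d.z := by
          have := am_mul C (a.v⁻¹ * b.v⁻¹ * (a.v * b.v)) (a.v * b.v)⁻¹ d.z
          rw [mul_inv_cancel_right] at this
          exact this
        rw [h'] at h
        rw [mul_assoc _ (c0 C a.v b.v), h, mul_assoc, mul_assoc, mul_assoc, cocycle]
        simp only [mul_assoc]
      · simp only [Lam.mul_v, mul_assoc])
    (fun a => by
      ext1
      · rw [Lam.mul_z, Lam.one_z, Lam.one_v, inv_one, am_one, c0_one_left, one_mul, mul_one]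
      · rw [Lam.mul_v, Lam.one_v, one_mul])
    (fun a => by
      ext1
      · show (am C a.v a.z * c0 C a.v⁻¹ a.v)⁻¹ * am C a.v⁻¹⁻¹ a.z * c0 C a.v⁻¹ a.v = 1
        rw [inv_inv]; group
      · exact inv_mul_cancel a.v)

/-- The inclusion of the Steinberg group. -/
noncomputable def inl : St N.ok →* Lam C where
  toFun z := ⟨z, 1⟩
  map_one' := rfl
  map_mul' a b := by
    ext1
    · rw [Lam.mul_z]; simp only [inv_one, am_one, c0_one_left, mul_one]
    · rw [Lam.mul_v, mul_one]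

theorem inl_z (z : St N.ok) : (inl C z).z = z := rfl

theorem inl_v (z : St N.ok) : (inl C z).v = 1 := rfl

theorem inl_mul_z (y : St N.ok) (a : Lam C) : (inl C y * a).z = y * a.z := by
  rw [Lam.mul_z, inl_z, inl_v, inv_one, am_one, c0_one_left, mul_one]

theorem inl_mul_v (y : St N.ok) (a : Lam C) : (inl C y * a).v = a.v := by
  rw [Lam.mul_v, inl_v, one_mul]

/-- The torus element between the index `j` and the new index. -/
noncomputable def HL (j : ι) (t s : A) (v : Aˣ) : Lam C := ⟨D0 C j t s v, v⟩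

theorem HL_comm {p j : ι} (hp0 : N.lev p = 0) (hpm : p ≠ C.m) {t s : A} (hs : N.ok j p s)
    (v : Aˣ) (hv : (v : A) = 1 + t * s) (y : St N.ok) :
    HL C j t s v * inl C y = inl C (alpha N (Pi.mulSingle j (wU t s v hv)⁻¹) y) * HL C j t s v := by
  ext1
  · rw [inl_mul_z, Lam.mul_z, inl_z, inl_v, c0_one_right, mul_one]
    show D0 C j t s v * am C v⁻¹ y = _ * D0 C j t s v
    rw [D0_eq C hp0 hpm hs v hv, (isD_DD C hp0 hpm hs v hv).comm]
    unfold am
    rw [alpha_mul, mul_assoc, ← Pi.mulSingle_mul, mul_inv_cancel, Pi.mulSingle_one, mul_one]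
  · rw [inl_mul_v, Lam.mul_v, inl_v, mul_one]

/-- The realisation with a spare index in place of the new index. -/
def Xi (p : ι) (a : Lam C) : St N.ok := a.z * hh C p a.v

theorem mul_mem_av {p : ι} (hpm : p ≠ C.m) {a b : Lam C} (ha : a.z ∈ Av N p)
    (hb : b.z ∈ Av N p) : (a * b).z ∈ Av N p :=
  Subgroup.mul_mem _ (Subgroup.mul_mem _ ha (alpha_mem N _ hb)) (c0_mem C hpm _ _)

theorem Xi_mul {p : ι} (hp : p ∈ N.S) (hp0 : N.lev p = 0) (hpm : p ≠ C.m) (a : Lam C)
    {b : Lam C} (hb : b.z ∈ Av N p) : Xi C p (a * b) = Xi C p a * Xi C p b := by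
  unfold Xi
  rw [Lam.mul_z, Lam.mul_v, mul_assoc a.z (hh C p a.v), ← mul_assoc (hh C p a.v),
    hh_conj C hp hp0 hpm a.v hb, mul_assoc (am C a.v⁻¹ b.z), hh_mul C hp hp0 hpm]
  simp only [mul_assoc]

theorem Xi_inl {p : ι} (hp : p ∈ N.S) (hp0 : N.lev p = 0) (hpm : p ≠ C.m) (y : St N.ok) :
    Xi C p (inl C y) = y := by
  unfold Xi
  rw [inl_z, inl_v, hh_one C hp hp0 hpm, mul_one]

theorem Xi_HL {p j : ι} (hp0 : N.lev p = 0) (hpm : p ≠ C.m) {t s : A} (hs : N.ok j p s)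
    (v : Aˣ) (hv : (v : A) = 1 + t * s) : Xi C p (HL C j t s v) = HH N p j t s v := by
  show D0 C j t s v * hh C p v = _
  rw [D0_eq C hp0 hpm hs v hv]
  unfold DD
  group

theorem Xi_row {p : ι} (hp : p ∈ N.S) (hp0 : N.lev p = 0) (hpm : p ≠ C.m) {a : Lam C}
    (ha : a.z ∈ Av N p) {r : St N.ok} (hr : r ∈ Row N p) :
    (Xi C p a)⁻¹ * r * Xi C p a ∈ Row N p := by
  have h1 := conj_row N (Subgroup.inv_mem _ ha) hr
  have h2 := (isD_hh C hp hp0 hpm a.v).inv.conj (a.z⁻¹ * r * a.z⁻¹⁻¹)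
  have h3 : (Xi C p a)⁻¹ * r * Xi C p a =
      (hh C p a.v)⁻¹ * (a.z⁻¹ * r * a.z⁻¹⁻¹) * (hh C p a.v)⁻¹⁻¹ := by unfold Xi; group
  rw [h3, h2]
  exact alpha_mem N _ h1

end One

end PartB

section PartC

namespace One

variable [Fintype ι] [DecidableEq ι]

/-- The matrix with one column. -/
def cm (γ : ι → A) (j : ι) : Matrix ι ι A := Matrix.of fun k l => if l = j then γ k else 0

omit [Fintype ι] in
theorem cm_apply (γ : ι → A) (j k l : ι) : cm γ j k l = if l = j then γ k else 0 := rfl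

theorem cm_mul (γ δ : ι → A) (j l : ι) : cm γ j * cm δ l = cm (fun k => γ k * δ j) l := by
  ext a b
  rw [Matrix.mul_apply, Finset.sum_eq_single j]
  · simp only [cm_apply, if_true]
    split_ifs <;> simp
  · intro c _ hc
    simp [cm_apply, hc]
  · simp

omit [Fintype ι] in
theorem single_eq_cm (i j : ι) (a : A) : Matrix.single i j a = cm (Pi.single i a) j := by
  ext k l
  rw [cm_apply, Matrix.single_apply, Pi.single_apply]
  by_cases h1 : i = k <;> by_cases h2 : j = l <;> simp [h1, h2, eq_comm]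

variable (N : Net κ ι A)

/-- Admissible columns. -/
def ColOK (j : ι) (γ : ι → A) : Prop := ∀ k, γ k ≠ 0 → N.ok k j (γ k)

theorem exists_col {j : ι} {γ : ι → A} (h : ColOK N j γ) :
    ∃ g ∈ UT N.ok (fun k l => γ k ≠ 0 ∧ l = j), phi N.closed g = 1 + cm γ j := by
  obtain ⟨g, hg, e⟩ := exists_block N.closed (cm γ j)
    (fun k l hkl => by
      rw [cm_apply] at hkl ⊢
      split_ifs at hkl ⊢ with e
      · rw [e]; exact h k hkl
      · exact absurd rfl hkl)
    (fun a b c d h1 h2 e => by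
      rw [cm_apply] at h1 h2
      split_ifs at h1 h2 with e1 e2
      · exact (h c h2).2.2.1 (e.symm.trans e1)
      · exact h2 rfl
      · exact h1 rfl
      · exact h1 rfl)
  refine ⟨g, UT_mono (fun k l hkl => ?_) hg, e⟩
  rw [cm_apply] at hkl
  split_ifs at hkl with e
  · exact ⟨hkl, e⟩
  · exact absurd rfl hkl

open Classical in
/-- The column element. -/
noncomputable def col (j : ι) (γ : ι → A) : St N.ok :=
  if h : ColOK N j γ then (exists_col N h).choose else 1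

variable {N}

theorem col_mem' {j : ι} {γ : ι → A} (h : ColOK N j γ) {T : ι → ι → Prop}
    (hT : ∀ k, γ k ≠ 0 → k ≠ j → T k j) : col N j γ ∈ UT N.ok T := by
  unfold col
  rw [dif_pos h]
  refine UT_mono (fun k l hkl => ?_) (exists_col N h).choose_spec.1
  rw [hkl.2]
  exact hT k hkl.1 (h k hkl.1).2.2.1

theorem col_mem {j : ι} {γ : ι → A} (h : ColOK N j γ) : col N j γ ∈ Col N j :=
  col_mem' h fun _ _ hk => ⟨hk, rfl⟩

theorem phi_col {j : ι} {γ : ι → A} (h : ColOK N j γ) :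
    phi N.closed (col N j γ) = 1 + cm γ j := by
  unfold col
  rw [dif_pos h]
  exact (exists_col N h).choose_spec.2

omit [Fintype ι] [DecidableEq ι] in
theorem ColOK.self {j : ι} {γ : ι → A} (h : ColOK N j γ) : γ j = 0 := by
  by_contra e
  exact (h j e).2.2.1 rfl

theorem phi_x' {i j : ι} {a : A} (ha : N.ok i j a) :
    phi N.closed (St.x N.ok i j a) = 1 + cm (Pi.single i a) j := by
  rw [phi_x _ ha, single_eq_cm]

theorem col_zero (j : ι) : col N j 0 = 1 := by
  have h : ColOK N j 0 := fun k hk => absurd rfl hk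
  refine col_ext N (col_mem h) (Subgroup.one_mem _) ?_
  rw [phi_col h, map_one]
  ext k l
  simp [cm_apply]

omit [Fintype ι] in
theorem ColOK.add_single {j k : ι} {γ : ι → A} {a : A} (h : ColOK N j γ) (ha : N.ok k j a) :
    ColOK N j (γ + Pi.single k a) := by
  intro i hi
  by_cases e : i = k
  · subst e
    rw [Pi.add_apply, Pi.single_eq_same]
    by_cases e' : γ i = 0
    · rw [e', zero_add]; exact ha
    · exact N.closed.add (h i e') ha
  · rw [Pi.add_apply, Pi.single_eq_of_ne e, add_zero] at hi ⊢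
    exact h i hi

theorem x_mul_col {j k : ι} {γ : ι → A} {a : A} (h : ColOK N j γ) (ha : N.ok k j a) :
    St.x N.ok k j a * col N j γ = col N j (γ + Pi.single k a) := by
  refine col_ext N (Subgroup.mul_mem _ (x_mem_UT ⟨ha.2.2.1, rfl⟩) (col_mem h))
    (col_mem (h.add_single ha)) ?_
  rw [map_mul, phi_x' ha, phi_col h, phi_col (h.add_single ha)]
  simp only [add_mul, mul_add, one_mul, mul_one, cm_mul, h.self, mul_zero]
  ext a b
  simp only [Matrix.add_apply, cm_apply, Pi.add_apply]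
  split_ifs <;> abel

theorem col_mul_x {j k : ι} {γ : ι → A} {a : A} (h : ColOK N j γ) (ha : N.ok k j a) :
    col N j γ * St.x N.ok k j a = col N j (γ + Pi.single k a) := by
  refine col_ext N (Subgroup.mul_mem _ (col_mem h) (x_mem_UT ⟨ha.2.2.1, rfl⟩))
    (col_mem (h.add_single ha)) ?_
  rw [map_mul, phi_x' ha, phi_col h, phi_col (h.add_single ha)]
  simp only [add_mul, mul_add, one_mul, mul_one, cm_mul, Pi.single_eq_of_ne ha.2.2.1.symm,
    mul_zero]
  ext a b
  simp only [Matrix.add_apply, cm_apply, Pi.add_apply]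
  split_ifs <;> abel

omit [Fintype ι] in
theorem ColOK.act {j k l : ι} {γ : ι → A} {a : A} (h : ColOK N j γ) (ha : N.ok k l a)
    (hk : k ≠ j) : ColOK N j (γ + Pi.single k (a * γ l)) := by
  by_cases e : γ l = 0
  · simpa [e] using h
  · exact h.add_single (N.closed.mul ha (h l e) hk)

theorem x_conj_col {j k l : ι} {γ : ι → A} {a : A} (h : ColOK N j γ) (ha : N.ok k l a)
    (hk : k ≠ j) (hl : l ≠ j) :
    St.x N.ok k l a * col N j γ = col N j (γ + Pi.single k (a * γ l)) * St.x N.ok k l a := by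
  rw [← mul_inv_eq_iff_eq_mul]
  refine col_ext N (conj_col N (x_mem_UT ⟨hk, hl⟩) (col_mem h)) (col_mem (h.act ha hk)) ?_
  rw [(St.isSt N.ok).inv N.closed ha, map_mul, map_mul, phi_x' ha, phi_x' (N.closed.neg ha),
    phi_col h, phi_col (h.act ha hk)]
  simp only [add_mul, mul_add, one_mul, mul_one, cm_mul, Pi.single_eq_of_ne hk.symm,
    Pi.single_eq_of_ne ha.2.2.1.symm, mul_zero]
  ext c d
  by_cases e : c = k
  · subst e
    simp only [Matrix.add_apply, cm_apply, Pi.add_apply, Pi.single_eq_same]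
    split_ifs with h1 h2
    · exact absurd (h1.symm.trans h2) hl
    · abel
    · abel
    · abel
  · simp only [Matrix.add_apply, cm_apply, Pi.add_apply, Pi.single_eq_of_ne e]
    split_ifs <;> simp

/-- The key commutation of a row generator with a column element. -/
theorem x_row_col {p j : ι} (hp : p ∈ N.S) (hp0 : N.lev p = 0) (hj : j ∈ N.S) (hpj : p ≠ j)
    {β : ι → A} (h : ColOK N p β) (hjp : N.ok j p (β j)) (t : A) (v : Aˣ)
    (hv : (v : A) = 1 + t * β j) (h1 : ColOK N p fun k => β k * ↑v⁻¹)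
    (h2 : ColOK N j (Function.update (fun k => -(β k * t)) j 0)) :
    St.x N.ok p j t * col N p β =
      col N p (fun k => β k * ↑v⁻¹) * col N j (Function.update (fun k => -(β k * t)) j 0) *
        HH N p j t (β j) v * St.x N.ok p j (↑v⁻¹ * t) := by
  have ht := ok_top N hp hp0 hj hpj t
  have h3 : ColOK N p (Function.update β j 0) := by
    intro k hk
    by_cases e : k = j
    · subst e; simp at hk
    · rw [Function.update_of_ne e] at hk ⊢
      exact h k hk
  have e1 : col N p β = col N p (Function.update β j 0) * St.x N.ok j p (β j) := by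
    rw [col_mul_x h3 hjp]
    congr 1
    ext k
    by_cases e : k = j
    · subst e; simp
    · simp [e]
  have hβp : β p = 0 := h.self
  have e2 : St.x N.ok p j t * col N p (Function.update β j 0) =
      col N p (Function.update β j 0) * col N j (Function.update (fun k => -(β k * t)) j 0) *
        St.x N.ok p j t := by
    refine unip_ext N.closed (T := fun k l => (k = p ∧ l = j) ∨ (k ≠ p ∧ k ≠ j ∧ (l = p ∨ l = j)))
      (fun k => if k = j then 2 else if k = p then 1 else 0) ?_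
      (Subgroup.mul_mem _ (x_mem_UT (Or.inl ⟨rfl, rfl⟩)) (col_mem' h3 fun k h4 h5 => ?_))
      (Subgroup.mul_mem _ (Subgroup.mul_mem _ (col_mem' h3 fun k h4 h5 => ?_)
        (col_mem' h2 fun k h4 h5 => ?_)) (x_mem_UT (Or.inl ⟨rfl, rfl⟩))) ?_
    · rintro k l (⟨rfl, rfl⟩ | ⟨h4, h5, rfl | rfl⟩) <;> simp [*]
    · exact Or.inr ⟨h5, by rintro rfl; simp at h4, Or.inl rfl⟩
    · exact Or.inr ⟨h5, by rintro rfl; simp at h4, Or.inl rfl⟩
    · exact Or.inr ⟨by rintro rfl; simp [hpj, hβp] at h4, h5, Or.inr rfl⟩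
    · rw [map_mul, map_mul, map_mul, phi_x' ht, phi_col h3, phi_col h2]
      simp only [add_mul, mul_add, one_mul, mul_one, cm_mul, Function.update_self,
        Function.update_of_ne hpj, hβp, zero_mul, neg_zero, mul_zero, Pi.single_eq_same,
        Pi.single_eq_of_ne hpj.symm]
      ext c d
      simp only [Matrix.add_apply, cm_apply]
      by_cases e : c = j
      · subst e; simp
      · simp only [Function.update_of_ne e]
        split_ifs with h4 h5
        · exact absurd (h5.symm.trans h4) hpj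
        · abel
        · abel
        · abel
  have h4 : N.ok j p (β j * ↑v⁻¹) := by simpa using ok_conj N hjp 1 ↑v⁻¹
  have e3 : col N p (Function.update β j 0) * col N j (Function.update (fun k => -(β k * t)) j 0) *
      St.x N.ok j p (β j * ↑v⁻¹) =
      col N p (fun k => β k * ↑v⁻¹) * col N j (Function.update (fun k => -(β k * t)) j 0) := by
    refine unip_ext N.closed (T := fun k l => (k ≠ p ∧ l = p) ∨ (k ≠ p ∧ k ≠ j ∧ l = j))
      (fun k => if k = p then 2 else if k = j then 1 else 0) ?_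
      (Subgroup.mul_mem _ (Subgroup.mul_mem _ (col_mem' h3 fun k _ h5 => Or.inl ⟨h5, rfl⟩)
        (col_mem' h2 fun k h6 h5 => ?_)) (x_mem_UT (Or.inl ⟨hpj.symm, rfl⟩)))
      (Subgroup.mul_mem _ (col_mem' h1 fun k _ h5 => Or.inl ⟨h5, rfl⟩)
        (col_mem' h2 fun k h6 h5 => ?_)) ?_
    · rintro k l (⟨h5, rfl⟩ | ⟨h6, h5, rfl⟩)
      · simp only [h5, if_false, if_true]; split_ifs <;> omega
      · simp [h6, h5, hpj.symm]
    · exact Or.inr ⟨by rintro rfl; simp [hpj, hβp] at h6, h5, rfl⟩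
    · exact Or.inr ⟨by rintro rfl; simp [hpj, hβp] at h6, h5, rfl⟩
    · rw [map_mul, map_mul, map_mul, phi_x' h4, phi_col h3, phi_col h2, phi_col h1]
      simp only [add_mul, mul_add, one_mul, mul_one, cm_mul,
        Function.update_of_ne hpj, hβp, zero_mul, neg_zero, mul_zero, Pi.single_eq_same,
        Pi.single_eq_of_ne hpj]
      ext c d
      simp only [Matrix.add_apply, cm_apply]
      by_cases e : c = j
      · subst e; simp
      · have e4 : β c + -(β c * t) * (β j * ↑v⁻¹) = β c * ↑v⁻¹ := by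
          have e5 : β c * ((1 + t * β j) * ↑v⁻¹) = β c := by rw [← hv, Units.mul_inv, mul_one]
          calc β c + -(β c * t) * (β j * ↑v⁻¹)
              = β c * ((1 + t * β j) * ↑v⁻¹) + -(β c * t) * (β j * ↑v⁻¹) := by rw [e5]
            _ = _ := by noncomm_ring
        simp only [Function.update_of_ne e, Pi.single_eq_of_ne e]
        split_ifs with h4 h5
        · exact absurd (h4.symm.trans h5) hpj
        · rw [← e4]; abel
        · abel
        · abel
  rw [e1, ← mul_assoc, e2, mul_assoc _ (St.x N.ok p j t), x_mul_x N ht hjp v, ← e3]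
  simp only [mul_assoc]

end One

end PartC

end Vale.Agent.N192
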