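import Vale.Agent.N192.One1

/-!
# P192: the action on the big cell and injective stability for Steinberg groups of nets
-/

namespace Vale.Agent.N192

open scoped commutatorElement

variable {κ ι A : Type} [Ring κ] [Ring A]

section PartD

namespace One

variable {N : Net κ ι A}

/-- Admissible entries of the new column. -/
def CoOK (N : Net κ ι A) (i : ι) (b : A) : Prop := i ∈ N.S ∧ (N.lev i = 0 ∨ N.eps b = 0)

/-- Admissible entries of the new row. -/
def RoOK (N : Net κ ι A) (j : ι) (t : A) : Prop := j ∈ N.S ∧ (N.lev j ≠ 0 ∨ N.eps t = 0)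

/-- Admissible new columns. -/
def InB (N : Net κ ι A) (β : ι → A) : Prop :=
  ∀ k, (k ∈ N.S ∨ β k = 0) ∧ (N.lev k = 0 ∨ N.eps (β k) = 0)

theorem InB.co {β : ι → A} (h : InB N β) {k : ι} (hk : k ∈ N.S) : CoOK N k (β k) := ⟨hk, (h k).2⟩

theorem CoOK.ok {k p : ι} {b : A} (h : CoOK N k b) (hp : p ∈ N.S) (hk : k ≠ p) : N.ok k p b :=
  ⟨h.1, hp, hk, h.2.imp (fun e => by omega) id⟩

theorem CoOK.mul_left {k l : ι} {a b : A} (h : CoOK N l b) (ha : N.ok k l a) :
    CoOK N k (a * b) := by
  refine ⟨ha.1, ?_⟩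
  by_cases e : N.lev k = 0
  · exact Or.inl e
  · right
    rw [map_mul]
    rcases ha.2.2.2 with h1 | h1
    · rw [h.2.resolve_left (by omega), mul_zero]
    · rw [h1, zero_mul]

theorem CoOK.add {k : ι} {a b : A} (ha : CoOK N k a) (hb : CoOK N k b) : CoOK N k (a + b) :=
  ⟨ha.1, ha.2.elim Or.inl fun h => hb.2.imp id fun h' => by rw [map_add, h, h', add_zero]⟩

theorem RoOK.add {k : ι} {a b : A} (ha : RoOK N k a) (hb : RoOK N k b) : RoOK N k (a + b) :=
  ⟨ha.1, ha.2.elim Or.inl fun h => hb.2.imp id fun h' => by rw [map_add, h, h', add_zero]⟩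

theorem RoOK.mul_right {j k : ι} {t a : A} (h : RoOK N j t) (ha : N.ok j k a) :
    RoOK N k (t * a) := by
  refine ⟨ha.2.1, ?_⟩
  by_cases e : N.lev k = 0
  · right
    rw [map_mul]
    rcases h.2 with h1 | h1
    · rw [ha.2.2.2.resolve_left (by omega), mul_zero]
    · rw [h1, zero_mul]
  · exact Or.inl e

theorem CoOK.ok_mul {i j : ι} {b : A} (hb : CoOK N i b) (hj : j ∈ N.S) (hij : i ≠ j) (t : A) :
    N.ok i j (b * t) := by
  simpa using ok_conj N (hb.ok hj hij) 1 t

theorem eps_mul {j : ι} {t b : A} (ht : RoOK N j t) (hb : CoOK N j b) : N.eps (t * b) = 0 := by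
  rw [map_mul]
  rcases ht.2 with h | h
  · rw [hb.2.resolve_left h, mul_zero]
  · rw [h, zero_mul]

theorem InB.mul_right {β : ι → A} (h : InB N β) (c : A) : InB N fun k => β k * c :=
  fun k => ⟨(h k).1.imp id fun e => by simp only [e, zero_mul],
    (h k).2.imp id fun e => by rw [map_mul, e, zero_mul]⟩

theorem InB.colOK {β : ι → A} (h : InB N β) {p : ι} (hp : p ∈ N.S) (h0 : β p = 0) :
    ColOK N p β := fun k hk =>
  (h.co ((h k).1.resolve_right hk)).ok hp (by rintro rfl; exact hk h0)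

theorem inB_zero : InB N 0 := fun _ => ⟨Or.inr rfl, Or.inr (map_zero _)⟩

variable [DecidableEq ι]

theorem InB.add_single {β : ι → A} (h : InB N β) {k : ι} {b : A} (hb : CoOK N k b) :
    InB N (β + Pi.single k b) := by
  intro i
  by_cases e : i = k
  · subst e
    rw [Pi.add_apply, Pi.single_eq_same]
    exact ⟨Or.inl hb.1, ((h.co hb.1).add hb).2⟩
  · rw [Pi.add_apply, Pi.single_eq_of_ne e, add_zero]
    exact h i

theorem InB.update {β : ι → A} (h : InB N β) (j : ι) : InB N (Function.update β j 0) := by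
  intro i
  by_cases e : i = j
  · subst e
    rw [Function.update_self]
    exact ⟨Or.inr rfl, Or.inr (map_zero _)⟩
  · rw [Function.update_of_ne e]
    exact h i

/-- The column produced by a row generator. -/
def rc (β : ι → A) (j : ι) (t : A) : ι → A := Function.update (fun k => -(β k * t)) j 0

theorem InB.rc_ok {β : ι → A} (h : InB N β) {j : ι} (hj : j ∈ N.S) (t : A) :
    ColOK N j (rc β j t) := by
  have := ((h.mul_right (-t)).update j).colOK hj (Function.update_self ..)
  simp only [mul_neg] at this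
  exact this

open Classical in
/-- The unit `1 + a`. -/
noncomputable def uu (a : A) : Aˣ := if h : IsUnit (1 + a) then h.unit else 1

omit [DecidableEq ι] in
theorem uu_val {a : A} (h : IsUnit (1 + a)) : (uu a : A) = 1 + a := by
  unfold uu; rw [dif_pos h]; rfl

omit [DecidableEq ι] in
theorem uu_zero : uu (0 : A) = 1 := by
  ext; rw [uu_val (by simp), add_zero, Units.val_one]

/-- Points of the big cell. -/
@[ext]
structure Pt (C : Ctx N) where
  b : ι → A
  hb : InB N b
  l : Lam C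

variable [Fintype ι] (C : Ctx N)

open Classical in
/-- The action of an old generator. -/
noncomputable def opG (k l : ι) (a : A) : Function.End (Pt C) := fun ξ =>
  if h : N.ok k l a then ⟨ξ.b + Pi.single k (a * ξ.b l),
    ξ.hb.add_single ((ξ.hb.co h.2.1).mul_left h), inl C (St.x N.ok k l a) * ξ.l⟩ else ξ

open Classical in
/-- The action of a generator in the new column. -/
noncomputable def opU (i : ι) (b : A) : Function.End (Pt C) := fun ξ =>
  if h : CoOK N i b then ⟨ξ.b + Pi.single i b, ξ.hb.add_single h, ξ.l⟩ else ξ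

/-- The action of a generator in the new row. -/
noncomputable def opX (j : ι) (t : A) : Function.End (Pt C) := fun ξ =>
  ⟨fun k => ξ.b k * ↑(uu (t * ξ.b j))⁻¹, ξ.hb.mul_right _,
    inl C (col N j (rc ξ.b j t)) * HL C j t (ξ.b j) (uu (t * ξ.b j)) * ξ.l⟩

theorem opG_b {k l : ι} {a : A} (h : N.ok k l a) (ξ : Pt C) :
    (opG C k l a ξ).b = ξ.b + Pi.single k (a * ξ.b l) := by unfold opG; rw [dif_pos h]

theorem opG_l {k l : ι} {a : A} (h : N.ok k l a) (ξ : Pt C) :
    (opG C k l a ξ).l = inl C (St.x N.ok k l a) * ξ.l := by unfold opG; rw [dif_pos h]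

omit [Fintype ι] in
theorem opU_b {i : ι} {b : A} (h : CoOK N i b) (ξ : Pt C) :
    (opU C i b ξ).b = ξ.b + Pi.single i b := by unfold opU; rw [dif_pos h]

omit [Fintype ι] in
theorem opU_l {i : ι} {b : A} (h : CoOK N i b) (ξ : Pt C) : (opU C i b ξ).l = ξ.l := by
  unfold opU; rw [dif_pos h]

theorem opX_b (j : ι) (t : A) (ξ : Pt C) :
    (opX C j t ξ).b = fun k => ξ.b k * ↑(uu (t * ξ.b j))⁻¹ := rfl

theorem opX_l (j : ι) (t : A) (ξ : Pt C) : (opX C j t ξ).l =
    inl C (col N j (rc ξ.b j t)) * HL C j t (ξ.b j) (uu (t * ξ.b j)) * ξ.l := rfl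

omit [Fintype ι] [DecidableEq ι] in
theorem mul_app (F G : Function.End (Pt C)) (ξ : Pt C) : (F * G) ξ = F (G ξ) := rfl

theorem G_add {k l : ι} {a b : A} (ha : N.ok k l a) (hb : N.ok k l b) :
    opG C k l (a + b) = opG C k l a * opG C k l b := by
  funext ξ
  have hab := N.closed.add ha hb
  ext1
  · rw [mul_app, opG_b C hab, opG_b C ha, opG_b C hb, Pi.add_apply,
      Pi.single_eq_of_ne ha.2.2.1.symm, add_zero, add_mul, Pi.single_add]
    abel
  · rw [mul_app, opG_l C hab, opG_l C ha, opG_l C hb, (St.isSt N.ok).add ha hb, map_mul, mul_assoc]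

theorem G_zero {k l : ι} (h : N.ok k l 0) : opG C k l 0 = 1 := by
  funext ξ
  ext1
  · rw [opG_b C h, zero_mul, Pi.single_zero, add_zero]; rfl
  · rw [opG_l C h, (St.isSt N.ok).zero h, map_one, one_mul]; rfl

theorem G_comm {i j k l : ι} {a b : A} (ha : N.ok i j a) (hb : N.ok k l b) (h1 : j ≠ k)
    (h2 : i ≠ l) : opG C i j a * opG C k l b = opG C k l b * opG C i j a := by
  funext ξ
  ext1
  · rw [mul_app, mul_app, opG_b C ha, opG_b C hb, opG_b C hb, opG_b C ha, Pi.add_apply,
      Pi.add_apply, Pi.single_eq_of_ne h1, Pi.single_eq_of_ne h2.symm, add_zero, add_zero]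
    abel
  · rw [mul_app, mul_app, opG_l C ha, opG_l C hb, opG_l C hb, opG_l C ha, ← mul_assoc,
      ← mul_assoc, ← map_mul, ← map_mul, ((St.isSt N.ok).comm ha hb h1 h2).eq]

theorem G_mul {i j k : ι} {a b : A} (ha : N.ok i j a) (hb : N.ok j k b) (h : i ≠ k) :
    opG C i j a * opG C j k b = opG C i k (a * b) * opG C j k b * opG C i j a := by
  funext ξ
  have hab := N.closed.mul ha hb h
  ext1
  · simp only [mul_app, opG_b C ha, opG_b C hb, opG_b C hab, Pi.add_apply, Pi.single_eq_same,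
      Pi.single_eq_of_ne h.symm, Pi.single_eq_of_ne hb.2.2.1.symm, add_zero, mul_add,
      Pi.single_add, mul_assoc]
    abel
  · simp only [mul_app, opG_l C ha, opG_l C hb, opG_l C hab, ← mul_assoc, ← map_mul]
    rw [← (St.isSt N.ok).conj_left ha hb h, inv_mul_cancel_right]

omit [Fintype ι] in
theorem U_add {i : ι} {a b : A} (ha : CoOK N i a) (hb : CoOK N i b) :
    opU C i (a + b) = opU C i a * opU C i b := by
  funext ξ
  ext1
  · rw [mul_app, opU_b C (ha.add hb), opU_b C ha, opU_b C hb, Pi.single_add]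
    abel
  · rw [mul_app, opU_l C (ha.add hb), opU_l C ha, opU_l C hb]

omit [Fintype ι] in
theorem U_zero {i : ι} (h : CoOK N i 0) : opU C i 0 = 1 := by
  funext ξ
  ext1
  · rw [opU_b C h, Pi.single_zero, add_zero]; rfl
  · rw [opU_l C h]; rfl

omit [Fintype ι] in
theorem U_comm {i k : ι} {a b : A} (ha : CoOK N i a) (hb : CoOK N k b) :
    opU C i a * opU C k b = opU C k b * opU C i a := by
  funext ξ
  ext1
  · rw [mul_app, mul_app, opU_b C ha, opU_b C hb, opU_b C hb, opU_b C ha]
    abel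
  · rw [mul_app, mul_app, opU_l C ha, opU_l C hb, opU_l C hb, opU_l C ha]

theorem GU_comm {k l i : ι} {a b : A} (ha : N.ok k l a) (hb : CoOK N i b) (h : l ≠ i) :
    opG C k l a * opU C i b = opU C i b * opG C k l a := by
  funext ξ
  ext1
  · rw [mul_app, mul_app, opG_b C ha, opU_b C hb, opU_b C hb, opG_b C ha, Pi.add_apply,
      Pi.single_eq_of_ne h, add_zero]
    abel
  · rw [mul_app, mul_app, opG_l C ha, opU_l C hb, opU_l C hb, opG_l C ha]

theorem GU_mul {k l : ι} {a b : A} (ha : N.ok k l a) (hb : CoOK N l b) :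
    opG C k l a * opU C l b = opU C k (a * b) * opU C l b * opG C k l a := by
  funext ξ
  have hab := hb.mul_left ha
  ext1
  · simp only [mul_app, opG_b C ha, opU_b C hb, opU_b C hab, Pi.add_apply, Pi.single_eq_same,
      mul_add, Pi.single_add]
    abel
  · simp only [mul_app, opG_l C ha, opU_l C hb, opU_l C hab]

theorem inv_eq_aux {t s : A} {v : Aˣ} (hv : (v : A) = 1 + t * s) :
    1 - t * (s * ↑v⁻¹) = ↑v⁻¹ := by
  have e5 : (1 + t * s) * ↑v⁻¹ = 1 := by rw [← hv, Units.mul_inv]
  calc 1 - t * (s * ↑v⁻¹) = (1 + t * s) * ↑v⁻¹ - t * (s * ↑v⁻¹) := by rw [e5]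
    _ = _ := by noncomm_ring

variable (hu : ∀ a : A, N.eps a = 0 → IsUnit (1 + a))

include hu in
omit [Fintype ι] [DecidableEq ι] in
theorem uu_pt {j : ι} {t : A} (ht : RoOK N j t) (ξ : Pt C) :
    (uu (t * ξ.b j) : A) = 1 + t * ξ.b j :=
  uu_val (hu _ (eps_mul ht (ξ.hb.co ht.1)))

include hu in
theorem XU_mul {i j : ι} {b t : A} (hb : CoOK N i b) (ht : RoOK N j t) (hij : i ≠ j) :
    opX C j t * opU C i b = opG C i j (-(b * t)) * opU C i b * opX C j t := by
  funext ξ
  have hbt := N.closed.neg (hb.ok_mul ht.1 hij t)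
  have hv := uu_pt C hu ht ξ
  ext1
  · simp only [mul_app, opG_b C hbt, opU_b C hb, opX_b, Pi.add_apply,
      Pi.single_eq_of_ne hij.symm, add_zero]
    funext k
    by_cases e : k = i
    · subst e
      simp only [Pi.add_apply, Pi.single_eq_same]
      rw [add_mul, add_assoc, neg_mul, mul_assoc b t]
      congr 1
      rw [← sub_eq_add_neg, ← mul_one_sub, inv_eq_aux hv]
    · simp only [Pi.add_apply, Pi.single_eq_of_ne e, add_zero]
  · simp only [mul_app, opG_l C hbt, opU_l C hb, opU_b C hb, opX_l, Pi.add_apply,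
      Pi.single_eq_of_ne hij.symm, add_zero]
    rw [← mul_assoc, ← mul_assoc, ← map_mul, x_mul_col (ξ.hb.rc_ok ht.1 t) hbt]
    congr 4
    funext k
    unfold rc
    by_cases e : k = j
    · subst e; simp [hij.symm]
    · by_cases e' : k = i
      · subst e'; simp [e, add_mul, add_comm]
      · simp [e, e']

include hu in
theorem GX_comm {k l j : ι} {a t : A} (ha : N.ok k l a) (ht : RoOK N j t) (hkj : k ≠ j) :
    opG C k l a * opX C j t = opX C j t * opG C k l a := by
  funext ξ
  have hv := uu_pt C hu ht ξ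
  obtain ⟨p, hp, hp0, h1, h2, -⟩ := C.spare j C.m C.m
  have hs : N.ok j p (ξ.b j) := (ξ.hb.co ht.1).ok hp h1.symm
  ext1
  · simp only [mul_app, opG_b C ha, opX_b, Pi.add_apply, Pi.single_eq_of_ne hkj.symm, add_zero]
    funext i
    by_cases e : i = k
    · subst e
      simp only [Pi.add_apply, Pi.single_eq_same, add_mul, mul_assoc]
    · simp only [Pi.add_apply, Pi.single_eq_of_ne e, add_zero]
  · simp only [mul_app, opG_l C ha, opG_b C ha, opX_l, Pi.add_apply,
      Pi.single_eq_of_ne hkj.symm, add_zero]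
    rw [← mul_assoc, ← mul_assoc, ← mul_assoc, mul_assoc _ (HL C j t _ _) (inl C _),
      HL_comm C hp0 h2 hs _ hv, ← mul_assoc, ← map_mul, ← map_mul, alpha_x N _ ha]
    congr 3
    have hc := ξ.hb.rc_ok ht.1 t
    have hc' := (ξ.hb.add_single ((ξ.hb.co ha.2.1).mul_left ha)).rc_ok ht.1 t
    by_cases e : l = j
    · subst e
      rw [x_mul_col hc ha, col_mul_x hc' (ok_conj N ha _ _)]
      congr 1
      funext i
      unfold rc
      by_cases e1 : i = l
      · subst e1; simp [hkj.symm]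
      · by_cases e2 : i = k
        · subst e2
          simp only [Pi.add_apply, Function.update_of_ne e1, Pi.single_eq_same,
            Pi.mulSingle_eq_of_ne e1, Pi.mulSingle_eq_same, inv_inv, Units.val_one, one_mul]
          show _ = _ + a * (1 + ξ.b l * t)
          noncomm_ring
        · simp [e1, e2]
    · rw [x_conj_col hc ha hkj e]
      simp only [Pi.mulSingle_eq_of_ne hkj, Pi.mulSingle_eq_of_ne e, inv_one, Units.val_one,
        one_mul, mul_one]
      congr 2
      funext i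
      unfold rc
      by_cases e1 : i = j
      · subst e1; simp [hkj.symm]
      · by_cases e2 : i = k
        · subst e2; simp [e1, e, add_mul, mul_assoc, add_comm]
        · simp [e1, e2]

end One

end PartD

section PartE

namespace One

variable {N : Net κ ι A} [DecidableEq ι] [Fintype ι] (C : Ctx N)

/-- Right translation. -/
noncomputable def rt (μ : Lam C) (ξ : Pt C) : Pt C := ⟨ξ.b, ξ.hb, ξ.l * μ⟩

/-- Maps that commute with right translations. -/
def Eqvt (F : Function.End (Pt C)) : Prop := ∀ μ ξ, F (rt C μ ξ) = rt C μ (F ξ)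

omit [Fintype ι] in
theorem Eqvt.mul {F G : Function.End (Pt C)} (hF : Eqvt C F) (hG : Eqvt C G) : Eqvt C (F * G) :=
  fun μ ξ => by rw [mul_app, mul_app, hG, hF]

theorem eqvt_G {k l : ι} {a : A} (h : N.ok k l a) : Eqvt C (opG C k l a) := by
  intro μ ξ
  ext1
  · show _ = (opG C k l a ξ).b
    rw [opG_b C h, opG_b C h]; rfl
  · show _ = (opG C k l a ξ).l * μ
    rw [opG_l C h, opG_l C h, mul_assoc]; rfl

theorem eqvt_X (j : ι) (t : A) : Eqvt C (opX C j t) := by
  intro μ ξ
  ext1
  · rfl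
  · show _ = (opX C j t ξ).l * μ
    rw [opX_l, opX_l, mul_assoc _ ξ.l μ]; rfl

/-- The point `ξ` is modelled by the element `g`, with `p` in place of the new index. -/
def Rep (p : ι) (ξ : Pt C) (g : St N.ok) : Prop :=
  ξ.b p = 0 ∧ ξ.l.z ∈ Av N p ∧ ∃ r ∈ Row N p, g = col N p ξ.b * Xi C p ξ.l * r

/-- The map `F` is modelled by left multiplication with `y`. -/
def Mod (p : ι) (F : Function.End (Pt C)) (y : St N.ok) : Prop :=
  ∀ ξ g, Rep C p ξ g → Rep C p (F ξ) (y * g)

theorem Mod.mul {p : ι} {F G : Function.End (Pt C)} {y z : St N.ok} (hF : Mod C p F y)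
    (hG : Mod C p G z) : Mod C p (F * G) (y * z) :=
  fun ξ g h => by rw [mul_app, mul_assoc]; exact hF _ _ (hG _ _ h)

variable {p : ι} (hp : p ∈ N.S) (hp0 : N.lev p = 0) (hpm : p ≠ C.m)

include hp hp0 hpm in
theorem mod_G {k l : ι} {a : A} (h : N.ok k l a) (hk : k ≠ p) (hl : l ≠ p) :
    Mod C p (opG C k l a) (St.x N.ok k l a) := by
  rintro ξ g ⟨h1, h2, r, hr, rfl⟩
  refine ⟨?_, ?_, r, hr, ?_⟩
  · rw [opG_b C h, Pi.add_apply, Pi.single_eq_of_ne hk.symm, h1, add_zero]
  · rw [opG_l C h, inl_mul_z]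
    exact Subgroup.mul_mem _ (x_mem_UT ⟨hk, hl⟩) h2
  · rw [opG_b C h, opG_l C h, Xi_mul C hp hp0 hpm _ h2, Xi_inl C hp hp0 hpm, ← mul_assoc,
      ← mul_assoc, x_conj_col (ξ.hb.colOK hp h1) h hk hl]
    simp only [mul_assoc]

variable (hu : ∀ a : A, N.eps a = 0 → IsUnit (1 + a))

include hp hp0 hpm hu in
theorem mod_X {j : ι} {t : A} (ht : RoOK N j t) (hj : j ≠ p) :
    Mod C p (opX C j t) (St.x N.ok p j t) := by
  rintro ξ g ⟨h1, h2, r, hr, rfl⟩
  have hv := uu_pt C hu ht ξ
  have hs : N.ok j p (ξ.b j) := (ξ.hb.co ht.1).ok hp hj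
  have hc := ξ.hb.rc_ok ht.1 t
  have h3 : col N j (rc ξ.b j t) ∈ Av N p :=
    col_mem' hc fun k hk _ => ⟨by rintro rfl; exact hk (by simp [rc, hj.symm, h1]), hj⟩
  have h4 : (HL C j t (ξ.b j) (uu (t * ξ.b j))).z ∈ Av N p := D0_mem C hp0 hpm hs _ hv
  have h5 : (fun k => ξ.b k * ↑(uu (t * ξ.b j))⁻¹) p = 0 := by simp only [h1, zero_mul]
  refine ⟨h5, ?_, (Xi C p ξ.l)⁻¹ * St.x N.ok p j (↑(uu (t * ξ.b j))⁻¹ * t) * Xi C p ξ.l * r,
    Subgroup.mul_mem _ (Xi_row C hp hp0 hpm h2 (x_mem_UT ⟨rfl, hj⟩)) hr, ?_⟩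
  · rw [opX_l]
    exact mul_mem_av C hpm (mul_mem_av C hpm h3 h4) h2
  · rw [opX_b, opX_l, Xi_mul C hp hp0 hpm _ h2, Xi_mul C hp hp0 hpm _ h4, Xi_inl C hp hp0 hpm,
      Xi_HL C hp0 hpm hs _ hv, ← mul_assoc, ← mul_assoc,
      x_row_col hp hp0 ht.1 hj.symm (ξ.hb.colOK hp h1) hs t _ hv
        ((ξ.hb.mul_right _).colOK hp h5) hc]
    unfold rc
    group

theorem phi_row_col {r : St N.ok} (hr : r ∈ Row N p) (k : ι) :
    phi N.closed r k p = (1 : Matrix ι ι A) k p :=
  phi_supp N.closed (fun _ _ _ h h' => absurd h'.1 h.2) hr k p fun h => h.2 rfl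

theorem phi_av_col {z : St N.ok} (hz : z ∈ Av N p) (k : ι) :
    phi N.closed z k p = (1 : Matrix ι ι A) k p :=
  phi_supp N.closed (fun _ _ _ h h' => ⟨h.1, h'.2⟩) hz k p fun h => h.2 rfl

theorem av_row {z : St N.ok} (hz : z ∈ Av N p) (hr : z ∈ Row N p) : z = 1 := by
  refine row_ext N hr (Subgroup.one_mem _) ?_
  rw [map_one]
  ext k l
  by_cases e : k = p
  · exact phi_supp N.closed (fun _ _ _ h h' => ⟨h.1, h'.2⟩) hz k l fun h => h.1 e
  · exact phi_supp N.closed (fun _ _ _ h h' => absurd h'.1 h.2) hr k l fun h => e h.1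

theorem mul_col_one (M M' : Matrix ι ι A) (h : ∀ k, M' k p = (1 : Matrix ι ι A) k p) (k : ι) :
    (M * M') k p = M k p := by
  rw [Matrix.mul_apply]
  simp only [h]
  rw [← Matrix.mul_apply, mul_one]

include hp hp0 hpm in
theorem rep_col {ξ : Pt C} {g : St N.ok} (h : Rep C p ξ g) (k : ι) :
    phi N.closed g k p = ((1 : Matrix ι ι A) k p + ξ.b k) * ξ.l.v := by
  obtain ⟨h1, h2, r, hr, rfl⟩ := h
  unfold Xi
  rw [map_mul, mul_col_one _ _ (phi_row_col hr), ← mul_assoc, map_mul,
    (isD_hh C hp hp0 hpm _).mat]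
  unfold DM
  rw [Matrix.mul_diagonal, map_mul, mul_col_one _ _ (phi_av_col h2),
    phi_col (ξ.hb.colOK hp h1), Matrix.add_apply, cm_apply, if_pos rfl]
  simp [hpm]

include hp hp0 hpm in
theorem rep_inj {ξ ξ' : Pt C} {g : St N.ok} (h : Rep C p ξ g) (h' : Rep C p ξ' g) : ξ = ξ' := by
  have e1 : ξ.l.v = ξ'.l.v := by
    have := (rep_col C hp hp0 hpm h p).symm.trans (rep_col C hp hp0 hpm h' p)
    rw [h.1, h'.1] at this
    ext
    simpa using this
  have e2 : ξ.b = ξ'.b := by
    funext k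
    have := (rep_col C hp hp0 hpm h k).symm.trans (rep_col C hp hp0 hpm h' k)
    rw [e1, Units.mul_left_inj] at this
    exact add_left_cancel this
  obtain ⟨-, h2, r, hr, rfl⟩ := h
  obtain ⟨-, h2', r', hr', e⟩ := h'
  rw [← e2, mul_assoc, mul_assoc, mul_right_inj] at e
  unfold Xi at e
  rw [← e1] at e
  have e3 : ξ'.l.z⁻¹ * ξ.l.z = hh C p ξ.l.v * (r' * r⁻¹) * (hh C p ξ.l.v)⁻¹ := by
    calc ξ'.l.z⁻¹ * ξ.l.z
        = ξ'.l.z⁻¹ * (ξ.l.z * hh C p ξ.l.v * r) * r⁻¹ * (hh C p ξ.l.v)⁻¹ := by group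
      _ = _ := by rw [e]; group
  have e4 : ξ'.l.z⁻¹ * ξ.l.z = 1 := by
    refine av_row (Subgroup.mul_mem _ (Subgroup.inv_mem _ h2') h2) ?_
    rw [e3, (isD_hh C hp hp0 hpm _).conj]
    exact alpha_mem N _ (Subgroup.mul_mem _ hr' (Subgroup.inv_mem _ hr))
  ext1
  · exact e2
  · ext1
    · exact (inv_mul_eq_one.mp e4).symm
    · exact e1

include hp hp0 hpm in
/-- Two maps with the same model and the same commutation rule with the new column agree. -/
theorem ext_mod {F G : Function.End (Pt C)} (hF : Eqvt C F) (hG : Eqvt C G) {y : St N.ok}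
    (h1 : Mod C p F y) (h2 : Mod C p G y)
    (h3 : ∀ b, ∃ H : Function.End (Pt C), F * opU C p b = H * F ∧ G * opU C p b = H * G) :
    F = G := by
  funext ξ
  let ξ0 : Pt C := ⟨Function.update ξ.b p 0, ξ.hb.update p, 1⟩
  have hb : CoOK N p (ξ.b p) := ⟨hp, Or.inl hp0⟩
  have e : ξ = rt C ξ.l (opU C p (ξ.b p) ξ0) := by
    ext1
    · show _ = (opU C p (ξ.b p) ξ0).b
      rw [opU_b C hb]
      funext k
      by_cases e : k = p
      · subst e; simp [ξ0]
      · simp [ξ0, e]
    · show _ = (opU C p (ξ.b p) ξ0).l * ξ.l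
      rw [opU_l C hb]
      exact (one_mul _).symm
  have hr : Rep C p ξ0 (col N p ξ0.b * Xi C p ξ0.l * 1) :=
    ⟨Function.update_self .., Subgroup.one_mem _, 1, Subgroup.one_mem _, rfl⟩
  have e0 : F ξ0 = G ξ0 := rep_inj C hp hp0 hpm (h1 _ _ hr) (h2 _ _ hr)
  obtain ⟨H, h4, h5⟩ := h3 (ξ.b p)
  rw [e, hF, hG, ← mul_app C F, ← mul_app C G, h4, h5, mul_app, mul_app, e0]

include hu in
theorem X_add {j : ι} {t t' : A} (ht : RoOK N j t) (ht' : RoOK N j t') :
    opX C j (t + t') = opX C j t * opX C j t' := by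
  obtain ⟨p, hp, hp0, h1, hpm, -⟩ := C.spare j C.m C.m
  have o := fun a => ok_top N hp hp0 ht.1 h1 a
  refine ext_mod C hp hp0 hpm (eqvt_X C _ _) ((eqvt_X C _ _).mul C (eqvt_X C _ _))
    (mod_X C hp hp0 hpm hu (ht.add ht') h1.symm) ?_ fun b => ?_
  · rw [(St.isSt N.ok).add (o t) (o t')]
    exact (mod_X C hp hp0 hpm hu ht h1.symm).mul C (mod_X C hp hp0 hpm hu ht' h1.symm)
  · have hb : CoOK N p b := ⟨hp, Or.inl hp0⟩
    refine ⟨_, XU_mul C hu hb (ht.add ht') h1, ?_⟩
    rw [mul_assoc, XU_mul C hu hb ht' h1, ← mul_assoc, ← mul_assoc, ← GX_comm C hu (o _) ht h1,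
      mul_assoc _ (opX C j t), XU_mul C hu hb ht h1, mul_add, neg_add, add_comm,
      G_add C (o _) (o _)]
    simp only [mul_assoc]

include hu in
theorem X_comm {j j' : ι} {t t' : A} (ht : RoOK N j t) (ht' : RoOK N j' t') :
    opX C j t * opX C j' t' = opX C j' t' * opX C j t := by
  obtain ⟨p, hp, hp0, h1, hpm, h2⟩ := C.spare j C.m j'
  have o := fun a => ok_top N hp hp0 ht.1 h1 a
  have o' := fun a => ok_top N hp hp0 ht'.1 h2 a
  refine ext_mod C hp hp0 hpm ((eqvt_X C _ _).mul C (eqvt_X C _ _))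
    ((eqvt_X C _ _).mul C (eqvt_X C _ _))
    ((mod_X C hp hp0 hpm hu ht h1.symm).mul C (mod_X C hp hp0 hpm hu ht' h2.symm)) ?_ fun b => ?_
  · rw [((St.isSt N.ok).comm (o t) (o' t') h1.symm h2).eq]
    exact (mod_X C hp hp0 hpm hu ht' h2.symm).mul C (mod_X C hp hp0 hpm hu ht h1.symm)
  · have hb : CoOK N p b := ⟨hp, Or.inl hp0⟩
    refine ⟨opG C p j' (-(b * t')) * opG C p j (-(b * t)) * opU C p b, ?_, ?_⟩
    · rw [mul_assoc, XU_mul C hu hb ht' h2, ← mul_assoc, ← mul_assoc,
        ← GX_comm C hu (o' _) ht h1, mul_assoc _ (opX C j t), XU_mul C hu hb ht h1]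
      simp only [mul_assoc]
    · rw [mul_assoc, XU_mul C hu hb ht h1, ← mul_assoc, ← mul_assoc,
        ← GX_comm C hu (o _) ht' h2, mul_assoc _ (opX C j' t'), XU_mul C hu hb ht' h2,
        G_comm C (o' _) (o _) h2.symm h1]
      simp only [mul_assoc]

include hu in
theorem XG_mul {j k : ι} {t a : A} (ht : RoOK N j t) (ha : N.ok j k a) :
    opX C j t * opG C j k a = opX C k (t * a) * opG C j k a * opX C j t := by
  obtain ⟨p, hp, hp0, h1, hpm, h2⟩ := C.spare j C.m k
  have o := fun a => ok_top N hp hp0 ht.1 h1 a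
  have o' := fun c => ok_top N hp hp0 ha.2.1 h2 c
  have hta := ht.mul_right ha
  refine ext_mod C hp hp0 hpm ((eqvt_X C _ _).mul C (eqvt_G C ha))
    (((eqvt_X C _ _).mul C (eqvt_G C ha)).mul C (eqvt_X C _ _))
    ((mod_X C hp hp0 hpm hu ht h1.symm).mul C (mod_G C hp hp0 hpm ha h1.symm h2.symm)) ?_
    fun b => ?_
  · have e : St.x N.ok p j t * St.x N.ok j k a =
        St.x N.ok p k (t * a) * St.x N.ok j k a * St.x N.ok p j t := by
      rw [← (St.isSt N.ok).conj_left (o t) ha h2, inv_mul_cancel_right]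
    rw [e]
    exact ((mod_X C hp hp0 hpm hu hta h2.symm).mul C (mod_G C hp hp0 hpm ha h1.symm h2.symm)).mul C
      (mod_X C hp hp0 hpm hu ht h1.symm)
  · have hb : CoOK N p b := ⟨hp, Or.inl hp0⟩
    refine ⟨opG C p j (-(b * t)) * opU C p b, ?_, ?_⟩
    · rw [mul_assoc, GU_comm C ha hb h2.symm, ← mul_assoc, XU_mul C hu hb ht h1]
      simp only [mul_assoc]
    · have i1 : opG C p k (b * t * a) * opG C p k (-(b * t * a)) = 1 := by
        rw [← G_add C (o' _) (o' _), add_neg_cancel, G_zero C (o' _)]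
      have e1 : opG C j k a * opG C p j (-(b * t)) =
          opG C p k (b * t * a) * (opG C p j (-(b * t)) * opG C j k a) := by
        rw [G_mul C (o _) ha h2, neg_mul, ← mul_assoc, ← mul_assoc, i1, one_mul]
      have e2 := XU_mul C hu hb ht h1
      have e3 := XU_mul C hu hb hta h2
      have e4 := GX_comm C hu (o' (b * t * a)) hta h2
      have e5 := GX_comm C hu (o (-(b * t))) hta h2
      have e6 := GU_comm C ha hb h2.symm
      have e7 := G_comm C (o (-(b * t))) (o' (b * t * a)) h1.symm h2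
      rw [← mul_assoc b] at e3
      calc opX C k (t * a) * opG C j k a * opX C j t * opU C p b
          = opX C k (t * a) * (opG C j k a * opG C p j (-(b * t))) * opU C p b * opX C j t := by
            rw [mul_assoc, e2]; simp only [mul_assoc]
        _ = (opX C k (t * a) * opG C p k (b * t * a)) * opG C p j (-(b * t)) *
              (opG C j k a * opU C p b) * opX C j t := by rw [e1]; simp only [mul_assoc]
        _ = opG C p k (b * t * a) * (opX C k (t * a) * opG C p j (-(b * t))) *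
              opU C p b * opG C j k a * opX C j t := by rw [← e4, e6]; simp only [mul_assoc]
        _ = opG C p k (b * t * a) * opG C p j (-(b * t)) * (opX C k (t * a) * opU C p b) *
              opG C j k a * opX C j t := by rw [← e5]; simp only [mul_assoc]
        _ = opG C p j (-(b * t)) * (opG C p k (b * t * a) * opG C p k (-(b * t * a))) *
              opU C p b * opX C k (t * a) * opG C j k a * opX C j t := by
            rw [e3, ← e7]; simp only [mul_assoc]
        _ = _ := by rw [i1]; simp only [mul_assoc, mul_one]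

theorem X_zero (j : ι) (hj : j ∈ N.S) : opX C j (0 : A) = 1 := by
  funext ξ
  obtain ⟨p, hp, hp0, h1, hpm, -⟩ := C.spare j C.m C.m
  have hs : N.ok j p (ξ.b j) := (ξ.hb.co hj).ok hp h1.symm
  ext1
  · rw [opX_b, zero_mul, uu_zero]
    funext k
    simp only [inv_one, Units.val_one, mul_one]
    rfl
  · have e1 : rc ξ.b j 0 = 0 := by
      funext k
      unfold rc
      by_cases e : k = j
      · subst e; simp
      · simp [e]
    have e2 : HL C j 0 (ξ.b j) 1 = 1 := by
      ext1
      · show D0 C j 0 (ξ.b j) 1 = 1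
        rw [D0_eq C hp0 hpm hs 1 (by simp)]
        unfold DD HH
        rw [hh_one C hp hp0 hpm]
        simp only [inv_one, Units.val_one, mul_one, mul_zero, neg_zero,
          (St.isSt N.ok).zero (ok_top N hp hp0 hj h1 0), (St.isSt N.ok).neg_mul N.closed hs]
      · rfl
    rw [opX_l, zero_mul, uu_zero, e1, col_zero, map_one, e2, one_mul, one_mul]
    rfl

end One

end PartE

section PartF

/-- Steinberg relations in a monoid give a homomorphism to its units. -/
theorem exists_hom_units {ok : ι → ι → A → Prop} (hc : Closed ok) {M : Type} [Monoid M]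
    (f : ι → ι → A → M) (h0 : ∀ i j, ok i j 0 → f i j 0 = 1)
    (h1 : ∀ i j a b, ok i j a → ok i j b → f i j (a + b) = f i j a * f i j b)
    (h2 : ∀ i j k l a b, ok i j a → ok k l b → j ≠ k → i ≠ l →
      f i j a * f k l b = f k l b * f i j a)
    (h3 : ∀ i j k a b, ok i j a → ok j k b → i ≠ k →
      f i j a * f j k b = f i k (a * b) * f j k b * f i j a) :
    ∃ ψ : St ok →* Mˣ, ∀ i j a, ok i j a → (ψ (St.x ok i j a) : M) = f i j a := by
  classical
  have hs : ∀ i j a, ok i j a → f i j a * f i j (-a) = 1 := fun i j a h => by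
    rw [← h1 i j a (-a) h (hc.neg h), add_neg_cancel, h0 i j (hc.zero h)]
  have hs' : ∀ i j a, ok i j a → f i j (-a) * f i j a = 1 := fun i j a h => by
    rw [← h1 i j (-a) a (hc.neg h) h, neg_add_cancel, h0 i j (hc.zero h)]
  let y : ι → ι → A → Mˣ := fun i j a =>
    if h : ok i j a then ⟨f i j a, f i j (-a), hs i j a h, hs' i j a h⟩ else 1
  have hy : ∀ i j a, ok i j a → (y i j a : M) = f i j a := fun i j a h => by
    simp only [y, dif_pos h]
  have hst : IsSt ok y := by
    refine ⟨fun {i j a b} ha hb => ?_, fun {i j k l a b} ha hb e1 e2 => ?_,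
      fun {i j k a b} ha hb e => ?_⟩
    · ext; rw [Units.val_mul, hy _ _ _ ha, hy _ _ _ hb, hy _ _ _ (hc.add ha hb), h1 _ _ _ _ ha hb]
    · ext; rw [Units.val_mul, Units.val_mul, hy _ _ _ ha, hy _ _ _ hb, h2 _ _ _ _ _ _ ha hb e1 e2]
    · have : y i j a * y j k b = y i k (a * b) * y j k b * y i j a := by
        ext
        rw [Units.val_mul, Units.val_mul, Units.val_mul, hy _ _ _ ha, hy _ _ _ hb,
          hy _ _ _ (hc.mul ha hb e), h3 _ _ _ _ _ ha hb e]
      rw [commutatorElement_def, this]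
      group
  exact ⟨St.lift hc y hst, fun i j a h => by rw [St.lift_x hc y hst h, hy _ _ _ h]⟩

theorem onestep [Fintype ι] [DecidableEq ι] (N : Net κ ι A)
    (hunit : ∀ a : A, N.eps a = 0 → IsUnit (1 + a))
    (h4 : 4 ≤ (N.S.filter fun i => N.lev i = 0).card)
    (s : ι) (hs : s ∉ N.S) (hs0 : 0 < N.lev s)
    (hs1 : ∀ j ∈ N.S, N.lev j ≠ 0 → N.lev s < N.lev j) :
    Function.Injective (N.incl (Finset.subset_insert s N.S)) := by
  have spare : ∀ a b c : ι, ∃ p ∈ N.S, N.lev p = 0 ∧ p ≠ a ∧ p ≠ b ∧ p ≠ c := by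
    intro a b c
    have : ({a, b, c} : Finset ι).card < (N.S.filter fun i => N.lev i = 0).card :=
      lt_of_le_of_lt Finset.card_le_three (by omega)
    obtain ⟨p, hp, hp'⟩ := Finset.exists_mem_notMem_of_card_lt_card this
    rw [Finset.mem_filter] at hp
    simp only [Finset.mem_insert, Finset.mem_singleton, not_or] at hp'
    exact ⟨p, hp.1, hp.2, hp'⟩
  obtain ⟨m, hm, hm0, -⟩ := spare s s s
  let C : One.Ctx N := ⟨m, hm, hm0, spare⟩
  let N' := N.withS (insert s N.S)
  have cX : ∀ {j a}, N'.ok s j a → One.RoOK N j a := fun {j a} h =>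
    ⟨(Finset.mem_insert.mp h.2.1).resolve_left h.2.2.1.symm,
      h.2.2.2.imp (fun e : N.lev s ≤ N.lev j => by omega) id⟩
  have cU : ∀ {i a}, N'.ok i s a → One.CoOK N i a := fun {i a} h => by
    have hi := (Finset.mem_insert.mp h.1).resolve_left h.2.2.1
    refine ⟨hi, h.2.2.2.imp (fun e : N.lev i ≤ N.lev s => ?_) id⟩
    by_contra e'
    have := hs1 i hi e'
    omega
  have cG : ∀ {i j a}, N'.ok i j a → i ≠ s → j ≠ s → N.ok i j a := fun h e1 e2 =>
    ⟨(Finset.mem_insert.mp h.1).resolve_left e1, (Finset.mem_insert.mp h.2.1).resolve_left e2,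
      h.2.2⟩
  let f : ι → ι → A → Function.End (One.Pt C) := fun i j a =>
    if i = s then One.opX C j a else if j = s then One.opU C i a else One.opG C i j a
  have fX : ∀ j a, f s j a = One.opX C j a := fun j a => by simp only [f, if_true]
  have fU : ∀ {i} a, i ≠ s → f i s a = One.opU C i a := fun a h => by
    simp only [f, if_neg h, if_true]
  have fG : ∀ {i j} a, i ≠ s → j ≠ s → f i j a = One.opG C i j a := fun a h h' => by
    simp only [f, if_neg h, if_neg h']
  obtain ⟨ψ, hψ⟩ := exists_hom_units N'.closed f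
    (fun i j h => by
      by_cases e1 : i = s
      · subst e1; rw [fX, One.X_zero C j (cX h).1]
      by_cases e2 : j = s
      · subst e2; rw [fU _ e1, One.U_zero C (cU h)]
      · rw [fG _ e1 e2, One.G_zero C (cG h e1 e2)])
    (fun i j a b ha hb => by
      by_cases e1 : i = s
      · subst e1; rw [fX, fX, fX, One.X_add C hunit (cX ha) (cX hb)]
      by_cases e2 : j = s
      · subst e2; rw [fU _ e1, fU _ e1, fU _ e1, One.U_add C (cU ha) (cU hb)]
      · rw [fG _ e1 e2, fG _ e1 e2, fG _ e1 e2, One.G_add C (cG ha e1 e2) (cG hb e1 e2)])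
    (fun i j k l a b ha hb hjk hil => by
      by_cases e1 : i = s
      · subst e1
        by_cases e3 : k = i
        · subst e3; rw [fX, fX, One.X_comm C hunit (cX ha) (cX hb)]
        · rw [fX, fG _ e3 hil.symm,
            One.GX_comm C hunit (cG hb e3 hil.symm) (cX ha) hjk.symm]
      by_cases e2 : j = s
      · subst e2
        by_cases e4 : l = j
        · subst e4; rw [fU _ e1, fU _ hjk.symm, One.U_comm C (cU ha) (cU hb)]
        · rw [fU _ e1, fG _ hjk.symm e4, One.GU_comm C (cG hb hjk.symm e4) (cU ha) hil.symm]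
      by_cases e3 : k = s
      · subst e3
        rw [fX, fG _ e1 e2, One.GX_comm C hunit (cG ha e1 e2) (cX hb) hil]
      by_cases e4 : l = s
      · subst e4
        rw [fU _ e3, fG _ e1 e2, One.GU_comm C (cG ha e1 e2) (cU hb) hjk]
      · rw [fG _ e1 e2, fG _ e3 e4, One.G_comm C (cG ha e1 e2) (cG hb e3 e4) hjk hil])
    (fun i j k a b ha hb hik => by
      by_cases e1 : i = s
      · subst e1
        rw [fX, fX, fG _ ha.2.2.1.symm hik.symm,
          One.XG_mul C hunit (cX ha) (cG hb ha.2.2.1.symm hik.symm)]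
      by_cases e2 : j = s
      · subst e2
        have o := (cU ha).ok_mul (cX hb).1 hik b
        rw [fX, fU _ e1, fG _ e1 hb.2.2.1.symm, mul_assoc,
          One.XU_mul C hunit (cU ha) (cX hb) hik, ← mul_assoc, ← mul_assoc,
          ← One.G_add C o (N.closed.neg o), add_neg_cancel, One.G_zero C (N.closed.zero o), one_mul]
      by_cases e3 : k = s
      · subst e3
        rw [fU _ e1, fU _ e2, fG _ e1 e2, One.GU_mul C (cG ha e1 e2) (cU hb)]
      · rw [fG _ e1 e2, fG _ e2 e3, fG _ e1 e3, One.G_mul C (cG ha e1 e2) (cG hb e2 e3) hik])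
  have key : ∀ g : St N.ok, (ψ (N.incl (Finset.subset_insert s N.S) g) : Function.End (One.Pt C))
      ⟨0, One.inB_zero, 1⟩ = ⟨0, One.inB_zero, One.inl C g⟩ := by
    intro g
    induction g using St.induction_left N.closed with
    | h1 => rw [map_one, map_one, map_one]; rfl
    | hx i j a g ha ih =>
      have e1 : i ≠ s := by rintro rfl; exact hs ha.1
      have e2 : j ≠ s := by rintro rfl; exact hs ha.2.1
      have ha' : N'.ok i j a :=
        ⟨Finset.mem_insert_of_mem ha.1, Finset.mem_insert_of_mem ha.2.1, ha.2.2⟩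
      have e3 : N.incl (Finset.subset_insert s N.S) (St.x N.ok i j a) = St.x N'.ok i j a :=
        St.reindex_x _ _ _ _ ha
      rw [map_mul, map_mul, Units.val_mul, One.mul_app, ih, e3, hψ _ _ _ ha', fG _ e1 e2]
      ext1
      · rw [One.opG_b C ha]; simp
      · rw [One.opG_l C ha, map_mul]
  rw [injective_iff_map_eq_one]
  intro g hg
  have := key g
  rw [hg, map_one] at this
  exact (congrArg (fun ξ : One.Pt C => ξ.l.z) this).symm

theorem Net.incl_x (N : Net κ ι A) {S' : Finset ι} (h : N.S ⊆ S') {i j : ι} {a : A}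
    (ha : N.ok i j a) : N.incl h (St.x N.ok i j a) = St.x (N.withS S').ok i j a :=
  St.reindex_x _ _ _ _ ha

/-- Adding indices of positive level, in decreasing order of levels. -/
theorem chain [Fintype ι] [DecidableEq ι] (N : Net κ ι A)
    (hunit : ∀ a : A, N.eps a = 0 → IsUnit (1 + a))
    (h4 : 4 ≤ (N.S.filter fun i => N.lev i = 0).card) (h0 : ∀ j ∈ N.S, N.lev j = 0)
    (hinj : ∀ i j, i ∉ N.S → j ∉ N.S → N.lev i = N.lev j → i = j)
    (hpos : ∀ i, i ∉ N.S → 0 < N.lev i) (T : Finset ι) (hT : Disjoint T N.S) :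
    Function.Injective (N.incl (Finset.subset_union_left (s₁ := N.S) (s₂ := T))) := by
  induction T using Finset.induction_on_min_value N.lev with
  | empty =>
    have h : N.S ∪ ∅ ⊆ N.S := by simp
    have : ((N.withS (N.S ∪ ∅)).incl h).comp (N.incl Finset.subset_union_left) =
        MonoidHom.id _ := by
      refine St.hom_ext fun i j a ha => ?_
      have ha' : (N.withS (N.S ∪ ∅)).ok i j a :=
        ⟨Finset.mem_union_left _ ha.1, Finset.mem_union_left _ ha.2.1, ha.2.2⟩
      rw [MonoidHom.comp_apply, Net.incl_x N _ ha, Net.incl_x _ h ha']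
      rfl
    exact Function.LeftInverse.injective (fun g => DFunLike.congr_fun this g)
  | insert s T hsT hmin ih =>
    rw [Finset.disjoint_insert_left] at hT
    have hs : s ∉ (N.withS (N.S ∪ T)).S := fun h =>
      (Finset.mem_union.mp h).elim hT.1 hsT
    have h1 := onestep (N.withS (N.S ∪ T)) hunit
      (h4.trans (Finset.card_le_card (Finset.filter_subset_filter _ Finset.subset_union_left)))
      s hs (hpos s hT.1) (fun j hj hj0 => by
        have hjT : j ∈ T := (Finset.mem_union.mp hj).resolve_left fun h => hj0 (h0 j h)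
        have h2 := hmin j hjT
        have h3 : N.lev s ≠ N.lev j := fun e =>
          hsT (hinj s j hT.1 (Finset.disjoint_left.mp hT.2 hjT) e ▸ hjT)
        exact lt_of_le_of_ne h2 h3)
    have h : (N.withS (N.S ∪ insert s T)).S ⊆ insert s (N.S ∪ T) :=
      (Finset.union_insert s N.S T).subset
    let f1 : St (N.withS (N.S ∪ insert s T)).ok →* St (N.withS (insert s (N.S ∪ T))).ok :=
      (N.withS (N.S ∪ insert s T)).incl h
    let f2 : St (N.withS (N.S ∪ T)).ok →* St (N.withS (insert s (N.S ∪ T))).ok :=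
      (N.withS (N.S ∪ T)).incl (Finset.subset_insert s _)
    have hf2 : Function.Injective f2 := h1
    have : f1.comp (N.incl Finset.subset_union_left) =
        f2.comp (N.incl Finset.subset_union_left) := by
      refine St.hom_ext fun i j a ha => ?_
      have ha' : ∀ U, (N.withS (N.S ∪ U)).ok i j a := fun U =>
        ⟨Finset.mem_union_left _ ha.1, Finset.mem_union_left _ ha.2.1, ha.2.2⟩
      have e1 : f1 (St.x (N.withS (N.S ∪ insert s T)).ok i j a) =
          St.x (N.withS (insert s (N.S ∪ T))).ok i j a := Net.incl_x _ h (ha' _)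
      have e2 : f2 (St.x (N.withS (N.S ∪ T)).ok i j a) =
          St.x (N.withS (insert s (N.S ∪ T))).ok i j a := Net.incl_x _ _ (ha' _)
      rw [MonoidHom.comp_apply, MonoidHom.comp_apply, Net.incl_x N _ ha, Net.incl_x N _ ha, e1, e2]
    have h2 : Function.Injective (f1.comp (N.incl Finset.subset_union_left)) := by
      rw [this]
      exact hf2.comp (ih hT.2)
    exact Function.Injective.of_comp (f := f1) h2

theorem unToBig_injective (ε : A →+* κ) (hunit : ∀ a : A, ε a = 0 → IsUnit (1 + a)) (m : ℕ) :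
    Function.Injective (unToBig ε m) := by
  let S0 : Finset (Fin 5 × Fin (m + 1)) := Finset.univ.filter fun p => p.2 = 0
  let N := (bigNet ε m).withS S0
  have hS : ∀ p, p ∈ N.S ↔ p.2 = 0 := fun p => by simp [N, S0, Net.withS]
  have hl : ∀ p, N.lev p = if p.2 = 0 then 0 else 5 * p.2.val + p.1.val := fun p => rfl
  have h1 := chain N hunit
    (by
      have : (Finset.univ.map ⟨fun i : Fin 5 => ((i, 0) : Fin 5 × Fin (m + 1)),
          fun _ _ h => congrArg Prod.fst h⟩) ⊆ N.S.filter fun i => N.lev i = 0 := by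
        intro p hp
        obtain ⟨i, -, rfl⟩ := Finset.mem_map.mp hp
        exact Finset.mem_filter.mpr ⟨(hS _).2 rfl, by rw [hl]; exact if_pos rfl⟩
      have := Finset.card_le_card this
      rw [Finset.card_map, Finset.card_univ, Fintype.card_fin] at this
      omega)
    (fun j hj => by rw [hl, if_pos ((hS j).1 hj)])
    (fun i j hi hj e => by
      rw [hS] at hi hj
      rw [hl, hl, if_neg hi, if_neg hj] at e
      have := i.1.2
      have := j.1.2
      ext <;> omega)
    (fun i hi => by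
      rw [hS] at hi
      rw [hl, if_neg hi]
      have : i.2.val ≠ 0 := fun e => hi (Fin.ext e)
      omega)
    S0ᶜ disjoint_compl_left
  let r : St (unNet ε).ok →* St N.ok :=
    St.reindex (unNet ε).closed (fun i => (i, 0)) (fun _ _ h => congrArg Prod.fst h)
      fun i j a h => ⟨(hS _).2 rfl, (hS _).2 rfl, fun e => h.2.2.1 (congrArg Prod.fst e),
        Or.inl (by rw [hl, hl]; simp)⟩
  have hfst : ∀ {i j a}, N.ok i j a → (unNet ε).ok i.1 j.1 a := fun {i j a} h =>
    (unNet_ok ..).2 fun e => h.2.2.1 (Prod.ext e (((hS i).1 h.1).trans ((hS j).1 h.2.1).symm))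
  have hne : ∀ {i j : Fin 5 × Fin (m + 1)}, i ∈ N.S → j ∈ N.S → i ≠ j → i.1 ≠ j.1 :=
    fun {i j} hi hj h e => h (Prod.ext e (((hS i).1 hi).trans ((hS j).1 hj).symm))
  have hst : IsSt N.ok fun i j a => St.x (unNet ε).ok i.1 j.1 a :=
    ⟨fun ha hb => (St.isSt _).add (hfst ha) (hfst hb),
     fun ha hb e1 e2 => (St.isSt _).comm (hfst ha) (hfst hb) (hne ha.2.1 hb.1 e1)
      (hne ha.1 hb.2.1 e2),
     fun ha hb e => (St.isSt _).mul (hfst ha) (hfst hb) (hne ha.1 hb.2.1 e)⟩
  have hok : ∀ {i j a}, (unNet ε).ok i j a → N.ok (i, 0) (j, 0) a := fun h =>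
    ⟨(hS _).2 rfl, (hS _).2 rfl, fun e => h.2.2.1 (congrArg Prod.fst e),
      Or.inl (by rw [hl, hl]; simp)⟩
  have hr : ∀ {i j a}, (unNet ε).ok i j a →
      r (St.x (unNet ε).ok i j a) = St.x N.ok (i, 0) (j, 0) a := fun ha =>
    St.reindex_x _ _ _ _ ha
  have h2 : (St.lift N.closed _ hst).comp r = MonoidHom.id _ := by
    refine St.hom_ext fun i j a ha => ?_
    rw [MonoidHom.comp_apply, hr ha, St.lift_x _ _ _ (hok ha)]
    rfl
  have h3 : Function.Injective r :=
    Function.LeftInverse.injective (fun g => DFunLike.congr_fun h2 g)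
  let ρ : St (bigNet ε m).ok →* St (N.withS (N.S ∪ S0ᶜ)).ok :=
    St.reindex (bigNet ε m).closed id Function.injective_id fun i j _ h =>
      ⟨(Finset.union_compl S0).ge (Finset.mem_univ i),
        (Finset.union_compl S0).ge (Finset.mem_univ j), h.2.2⟩
  have h4 : ρ.comp (unToBig ε m) = (N.incl Finset.subset_union_left).comp r := by
    refine St.hom_ext fun i j a ha => ?_
    have hb : (bigNet ε m).ok (i, 0) (j, 0) a :=
      ⟨Finset.mem_univ _, Finset.mem_univ _, (hok ha).2.2⟩
    have e1 : unToBig ε m (St.x (unNet ε).ok i j a) = St.x (bigNet ε m).ok (i, 0) (j, 0) a :=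
      St.reindex_x _ _ _ _ ha
    rw [MonoidHom.comp_apply, MonoidHom.comp_apply, e1, hr ha, Net.incl_x _ _ (hok ha)]
    exact St.reindex_x _ _ _ _ hb
  have h5 : Function.Injective (ρ.comp (unToBig ε m)) := by
    rw [h4]
    exact h1.comp h3
  exact Function.Injective.of_comp (f := ρ) h5

end PartF

end Vale.Agent.N192
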