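import Mathlib

/-!
# P192: Steinberg groups of nets over a ring; unipotent subgroups
-/

namespace Vale.Agent.N192

open scoped commutatorElement

section General

variable {ι A : Type} [Ring A]

/-- Closure properties of the admissible entries. -/
structure Closed (ok : ι → ι → A → Prop) : Prop where
  ne : ∀ {i j a}, ok i j a → i ≠ j
  zero : ∀ {i j a}, ok i j a → ok i j 0
  neg : ∀ {i j a}, ok i j a → ok i j (-a)
  add : ∀ {i j a b}, ok i j a → ok i j b → ok i j (a + b)
  mul : ∀ {i j k a b}, ok i j a → ok j k b → i ≠ k → ok i k (a * b)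

/-- The Steinberg relations for admissible entries, in any group. -/
structure IsSt (ok : ι → ι → A → Prop) {Γ : Type*} [Group Γ] (x : ι → ι → A → Γ) : Prop where
  add : ∀ {i j a b}, ok i j a → ok i j b → x i j (a + b) = x i j a * x i j b
  comm : ∀ {i j k l a b}, ok i j a → ok k l b → j ≠ k → i ≠ l → Commute (x i j a) (x k l b)
  mul : ∀ {i j k a b}, ok i j a → ok j k b → i ≠ k → ⁅x i j a, x j k b⁆ = x i k (a * b)

namespace IsSt

variable {ok : ι → ι → A → Prop} {Γ : Type*} [Group Γ] {x : ι → ι → A → Γ}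

theorem zero (h : IsSt ok x) {i j : ι} (h0 : ok i j 0) : x i j 0 = 1 := by
  have := h.add h0 h0
  rw [add_zero] at this
  exact left_eq_mul.mp this

theorem mul_neg (h : IsSt ok x) (hc : Closed ok) {i j : ι} {a : A}
    (ha : ok i j a) : x i j a * x i j (-a) = 1 := by
  rw [← h.add ha (hc.neg ha), add_neg_cancel, h.zero (hc.zero ha)]

theorem neg_mul (h : IsSt ok x) (hc : Closed ok) {i j : ι} {a : A}
    (ha : ok i j a) : x i j (-a) * x i j a = 1 := by
  rw [← h.add (hc.neg ha) ha, neg_add_cancel, h.zero (hc.zero ha)]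

theorem inv (h : IsSt ok x) (hc : Closed ok) {i j : ι} {a : A}
    (ha : ok i j a) : (x i j a)⁻¹ = x i j (-a) :=
  inv_eq_of_mul_eq_one_left (h.neg_mul hc ha)

/-- `x_ij(a) x_jk(b) x_ij(a)⁻¹ = x_ik(ab) x_jk(b)`. -/
theorem conj_left (h : IsSt ok x) {i j k : ι} {a b : A} (ha : ok i j a) (hb : ok j k b)
    (hik : i ≠ k) : x i j a * x j k b * (x i j a)⁻¹ = x i k (a * b) * x j k b := by
  rw [← h.mul ha hb hik, commutatorElement_def]; group

/-- `x_jk(b) x_ij(a) x_jk(b)⁻¹ = x_ik(-ab) x_ij(a)`. -/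
theorem conj_right (h : IsSt ok x) (hc : Closed ok) {i j k : ι} {a b : A}
    (ha : ok i j a) (hb : ok j k b) (hik : i ≠ k) :
    x j k b * x i j a * (x j k b)⁻¹ = x i k (-(a * b)) * x i j a := by
  have h1 : x j k b * x i j a * (x j k b)⁻¹ = ⁅x i j a, x j k b⁆⁻¹ * x i j a := by
    rw [commutatorElement_def]; group
  rw [h1, h.mul ha hb hik, h.inv hc (hc.mul ha hb hik)]

theorem conj_comm (h : IsSt ok x) {i j k l : ι} {a b : A} (ha : ok i j a) (hb : ok k l b)
    (hjk : j ≠ k) (hil : i ≠ l) : x i j a * x k l b * (x i j a)⁻¹ = x k l b := by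
  rw [(h.comm ha hb hjk hil).eq]; group

theorem map (h : IsSt ok x) {Δ : Type*} [Group Δ] (f : Γ →* Δ) :
    IsSt ok fun i j a => f (x i j a) :=
  ⟨fun ha hb => by rw [h.add ha hb, map_mul],
   fun ha hb h1 h2 => (h.comm ha hb h1 h2).map f,
   fun ha hb h1 => by rw [← map_commutatorElement, h.mul ha hb h1]⟩

end IsSt

/-- The relators of the Steinberg group. -/
def stRels (ok : ι → ι → A → Prop) : Set (FreeGroup (ι × ι × A)) :=
  {r | (∃ i j a, ¬ ok i j a ∧ r = FreeGroup.of (i, j, a)) ∨
    (∃ i j a b, ok i j a ∧ ok i j b ∧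
      r = FreeGroup.of (i, j, a + b) * (FreeGroup.of (i, j, a) * FreeGroup.of (i, j, b))⁻¹) ∨
    (∃ i j k l a b, ok i j a ∧ ok k l b ∧ j ≠ k ∧ i ≠ l ∧
      r = ⁅FreeGroup.of (i, j, a), FreeGroup.of (k, l, b)⁆) ∨
    (∃ i j k a b, ok i j a ∧ ok j k b ∧ i ≠ k ∧
      r = ⁅FreeGroup.of (i, j, a), FreeGroup.of (j, k, b)⁆ * (FreeGroup.of (i, k, a * b))⁻¹)}

/-- The Steinberg group for the admissible entries `ok`. -/
def St (ok : ι → ι → A → Prop) : Type := PresentedGroup (stRels ok)

namespace St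

variable (ok : ι → ι → A → Prop)

instance : Group (St ok) := inferInstanceAs (Group (PresentedGroup (stRels ok)))

/-- The generators. -/
def x (i j : ι) (a : A) : St ok := PresentedGroup.of (rels := stRels ok) (i, j, a)

theorem x_not_ok {i j : ι} {a : A} (h : ¬ ok i j a) : x ok i j a = 1 :=
  PresentedGroup.one_of_mem (rels := stRels ok) (Or.inl ⟨i, j, a, h, rfl⟩)

theorem isSt : IsSt ok (x ok) := by
  refine ⟨fun {i j a b} ha hb => ?_, fun {i j k l a b} ha hb h1 h2 => ?_,
    fun {i j k a b} ha hb h1 => ?_⟩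
  · exact PresentedGroup.mk_eq_mk_of_mul_inv_mem (rels := stRels ok)
      (Or.inr (Or.inl ⟨i, j, a, b, ha, hb, rfl⟩))
  · rw [← commutatorElement_eq_one_iff_commute]
    exact PresentedGroup.one_of_mem (rels := stRels ok)
      (Or.inr (Or.inr (Or.inl ⟨i, j, k, l, a, b, ha, hb, h1, h2, rfl⟩)))
  · exact PresentedGroup.mk_eq_mk_of_mul_inv_mem (rels := stRels ok)
      (Or.inr (Or.inr (Or.inr ⟨i, j, k, a, b, ha, hb, h1, rfl⟩)))

variable {ok}

open Classical in
/-- The universal property. -/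
noncomputable def lift (hc : Closed ok) {Γ : Type*} [Group Γ] (y : ι → ι → A → Γ)
    (h : IsSt ok y) : St ok →* Γ :=
  PresentedGroup.toGroup (rels := stRels ok)
    (f := fun t => if ok t.1 t.2.1 t.2.2 then y t.1 t.2.1 t.2.2 else 1) (by
      rintro r (⟨i, j, a, ha, rfl⟩ | ⟨i, j, a, b, ha, hb, rfl⟩ |
        ⟨i, j, k, l, a, b, ha, hb, h1, h2, rfl⟩ | ⟨i, j, k, a, b, ha, hb, h1, rfl⟩)
      · simp [ha]
      · simp [ha, hb, hc.add ha hb, h.add ha hb]
      · simp only [map_commutatorElement, FreeGroup.lift_apply_of, ha, hb, if_true]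
        exact commutatorElement_eq_one_iff_commute.mpr (h.comm ha hb h1 h2)
      · simp only [map_mul, map_inv, map_commutatorElement, FreeGroup.lift_apply_of, ha, hb,
          hc.mul ha hb h1, if_true, h.mul ha hb h1, mul_inv_cancel])

theorem lift_x (hc : Closed ok) {Γ : Type*} [Group Γ] (y : ι → ι → A → Γ) (h : IsSt ok y)
    {i j : ι} {a : A} (ha : ok i j a) : lift hc y h (x ok i j a) = y i j a := by
  unfold lift x
  erw [PresentedGroup.toGroup.of]
  simp [ha]

theorem hom_ext {Γ : Type*} [Group Γ] {f g : St ok →* Γ}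
    (h : ∀ i j a, ok i j a → f (x ok i j a) = g (x ok i j a)) : f = g := by
  refine PresentedGroup.ext (rels := stRels ok) fun t => ?_
  by_cases ht : ok t.1 t.2.1 t.2.2
  · exact h _ _ _ ht
  · have := x_not_ok ok ht
    show f (x ok t.1 t.2.1 t.2.2) = g (x ok t.1 t.2.1 t.2.2)
    rw [this, map_one, map_one]

theorem mem_of_gen (H : Subgroup (St ok)) (h : ∀ i j a, ok i j a → x ok i j a ∈ H)
    (g : St ok) : g ∈ H := by
  refine PresentedGroup.generated_by (stRels ok) H (fun t => ?_) g
  by_cases ht : ok t.1 t.2.1 t.2.2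
  · exact h _ _ _ ht
  · have := x_not_ok ok ht
    show x ok t.1 t.2.1 t.2.2 ∈ H
    rw [this]; exact H.one_mem

end St

/-- The subgroup generated by the admissible generators at positions in `T`. -/
def UT (ok : ι → ι → A → Prop) (T : ι → ι → Prop) : Subgroup (St ok) :=
  Subgroup.closure {g | ∃ i j a, ok i j a ∧ T i j ∧ g = St.x ok i j a}

theorem x_mem_UT {ok : ι → ι → A → Prop} {T : ι → ι → Prop} {i j : ι} {a : A} (h : T i j) :
    St.x ok i j a ∈ UT ok T := by
  by_cases ha : ok i j a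
  · exact Subgroup.subset_closure ⟨i, j, a, ha, h, rfl⟩
  · rw [St.x_not_ok ok ha]; exact Subgroup.one_mem _

theorem UT_mono {ok : ι → ι → A → Prop} {T T' : ι → ι → Prop} (h : ∀ i j, T i j → T' i j) :
    UT ok T ≤ UT ok T' :=
  Subgroup.closure_mono fun _ ⟨i, j, a, ha, ht, e⟩ => ⟨i, j, a, ha, h i j ht, e⟩

/-- Induction by left multiplication with generators (inverses of generators are generators). -/
theorem UT_induction {ok : ι → ι → A → Prop} (hc : Closed ok) {T : ι → ι → Prop}
    {p : St ok → Prop} (h1 : p 1)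
    (hx : ∀ i j a g, ok i j a → T i j → g ∈ UT ok T → p g → p (St.x ok i j a * g))
    {g : St ok} (hg : g ∈ UT ok T) : p g := by
  induction hg using Subgroup.closure_induction_left with
  | one => exact h1
  | mul_left s hs g hg ih =>
    obtain ⟨i, j, a, ha, ht, rfl⟩ := hs
    exact hx i j a g ha ht hg ih
  | inv_mul_cancel s hs g hg ih =>
    obtain ⟨i, j, a, ha, ht, rfl⟩ := hs
    rw [(St.isSt ok).inv hc ha]
    exact hx i j (-a) g (hc.neg ha) ht hg ih

theorem St.induction_left {ok : ι → ι → A → Prop} (hc : Closed ok)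
    {p : St ok → Prop} (h1 : p 1) (hx : ∀ i j a g, ok i j a → p g → p (St.x ok i j a * g))
    (g : St ok) : p g :=
  UT_induction hc (T := fun _ _ => True) h1 (fun i j a g ha _ _ hp => hx i j a g ha hp)
    (St.mem_of_gen _ (fun _ _ _ _ => x_mem_UT trivial) g)

section Phi

variable [Fintype ι] [DecidableEq ι]

/-- The elementary matrix, as a unit. -/
def elem (i j : ι) (a : A) : (Matrix ι ι A)ˣ :=
  if h : i = j then 1 else
    ⟨1 + Matrix.single i j a, 1 - Matrix.single i j a,
      by rw [add_mul, mul_sub, mul_sub, one_mul, one_mul, mul_one,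
          Matrix.single_mul_single_of_ne _ _ _ _ (Ne.symm h), sub_zero, sub_add_cancel],
      by rw [sub_mul, mul_add, mul_add, one_mul, one_mul, mul_one,
          Matrix.single_mul_single_of_ne _ _ _ _ (Ne.symm h), add_zero, add_sub_cancel_right]⟩

theorem elem_val {i j : ι} (h : i ≠ j) (a : A) :
    ((elem i j a : (Matrix ι ι A)ˣ) : Matrix ι ι A) = 1 + Matrix.single i j a := by
  unfold elem; rw [dif_neg h]

theorem elem_inv_val {i j : ι} (h : i ≠ j) (a : A) :
    (((elem i j a)⁻¹ : (Matrix ι ι A)ˣ) : Matrix ι ι A) = 1 - Matrix.single i j a := by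
  unfold elem; rw [dif_neg h]; rfl

theorem elem_isSt {ok : ι → ι → A → Prop} (hc : Closed ok) :
    IsSt ok (elem : ι → ι → A → (Matrix ι ι A)ˣ) := by
  refine ⟨fun {i j a b} ha hb => ?_, fun {i j k l a b} ha hb h1 h2 => ?_,
    fun {i j k a b} ha hb h1 => ?_⟩
  · have hij := hc.ne ha
    ext1
    rw [Units.val_mul, elem_val hij, elem_val hij, elem_val hij, add_mul, mul_add, mul_add,
      one_mul, one_mul, mul_one, Matrix.single_mul_single_of_ne _ _ _ _ (Ne.symm hij),
      Matrix.single_add]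
    abel
  · ext1
    rw [Units.val_mul, Units.val_mul, elem_val (hc.ne ha), elem_val (hc.ne hb)]
    simp only [add_mul, mul_add, one_mul, mul_one, Matrix.single_mul_single_of_ne _ _ _ _ h1,
      Matrix.single_mul_single_of_ne _ _ _ _ (Ne.symm h2)]
    abel
  · have hij := hc.ne ha
    have hjk := hc.ne hb
    ext1
    rw [commutatorElement_def, Units.val_mul, Units.val_mul, Units.val_mul, elem_inv_val hij,
      elem_inv_val hjk, elem_val hij, elem_val hjk, elem_val h1]
    simp only [add_mul, mul_add, mul_sub, one_mul, mul_one, Matrix.single_mul_single_same,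
      Matrix.single_mul_single_of_ne _ _ _ _ (Ne.symm hij),
      Matrix.single_mul_single_of_ne _ _ _ _ (Ne.symm hjk),
      Matrix.single_mul_single_of_ne _ _ _ _ (Ne.symm h1), add_zero, sub_mul]
    abel

/-- The map to invertible matrices. -/
noncomputable def phiU {ok : ι → ι → A → Prop} (hc : Closed ok) : St ok →* (Matrix ι ι A)ˣ :=
  St.lift hc elem (elem_isSt hc)

/-- The map to matrices. -/
noncomputable def phi {ok : ι → ι → A → Prop} (hc : Closed ok) : St ok →* Matrix ι ι A :=
  (Units.coeHom _).comp (phiU hc)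

theorem phi_x {ok : ι → ι → A → Prop} (hc : Closed ok) {i j : ι} {a : A} (ha : ok i j a) :
    phi hc (St.x ok i j a) = 1 + Matrix.single i j a := by
  show ((phiU hc (St.x ok i j a) : (Matrix ι ι A)ˣ) : Matrix ι ι A) = _
  unfold phiU
  rw [St.lift_x hc _ _ ha, elem_val (hc.ne ha)]

end Phi

/-- A net: indices `S`, levels, and an augmentation. Entries below the level diagonal lie in the
augmentation ideal. -/
structure Net (k ι A : Type) [Ring k] [Ring A] where
  S : Finset ι
  lev : ι → ℕ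
  eps : A →+* k

variable {k : Type} [Ring k]

namespace Net

variable (N : Net k ι A)

/-- Admissible entries of a net. -/
def ok (i j : ι) (a : A) : Prop :=
  i ∈ N.S ∧ j ∈ N.S ∧ i ≠ j ∧ (N.lev i ≤ N.lev j ∨ N.eps a = 0)

theorem closed : Closed N.ok := by
  refine ⟨fun h => h.2.2.1, fun h => ⟨h.1, h.2.1, h.2.2.1, Or.inr (map_zero _)⟩,
    fun h => ⟨h.1, h.2.1, h.2.2.1, h.2.2.2.imp id fun e => by rw [map_neg, e, neg_zero]⟩,
    fun ha hb => ⟨ha.1, ha.2.1, ha.2.2.1, ?_⟩, fun ha hb h => ⟨ha.1, hb.2.1, h, ?_⟩⟩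
  · rcases ha.2.2.2 with h | h
    · exact Or.inl h
    · rcases hb.2.2.2 with h' | h'
      · exact Or.inl h'
      · exact Or.inr (by rw [map_add, h, h', add_zero])
  · rcases ha.2.2.2 with h | h
    · rcases hb.2.2.2 with h' | h'
      · exact Or.inl (h.trans h')
      · exact Or.inr (by rw [map_mul, h', mul_zero])
    · exact Or.inr (by rw [map_mul, h, zero_mul])

/-- The same net on another index set. -/
def withS (S : Finset ι) : Net k ι A := ⟨S, N.lev, N.eps⟩

end Net

/-- Change of indices: a map of index types that respects admissible entries. -/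
noncomputable def St.reindex {κ : Type} {ok : ι → ι → A → Prop} {ok' : κ → κ → A → Prop}
    (hc : Closed ok) (f : ι → κ) (hf : Function.Injective f)
    (h : ∀ i j a, ok i j a → ok' (f i) (f j) a) : St ok →* St ok' :=
  St.lift hc (fun i j a => St.x ok' (f i) (f j) a)
    ⟨fun ha hb => (St.isSt ok').add (h _ _ _ ha) (h _ _ _ hb),
     fun ha hb h1 h2 => (St.isSt ok').comm (h _ _ _ ha) (h _ _ _ hb) (hf.ne h1) (hf.ne h2),
     fun ha hb h1 => (St.isSt ok').mul (h _ _ _ ha) (h _ _ _ hb) (hf.ne h1)⟩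

theorem St.reindex_x {κ : Type} {ok : ι → ι → A → Prop} {ok' : κ → κ → A → Prop}
    (hc : Closed ok) (f : ι → κ) (hf : Function.Injective f)
    (h : ∀ i j a, ok i j a → ok' (f i) (f j) a) {i j : ι} {a : A} (ha : ok i j a) :
    St.reindex hc f hf h (St.x ok i j a) = St.x ok' (f i) (f j) a :=
  St.lift_x hc _ _ ha

/-- The unital net on five indices. -/
def unNet (ε : A →+* k) : Net k (Fin 5) A := ⟨Finset.univ, fun _ => 0, ε⟩

/-- The Iwahori net on five indices. -/
def iwNet (ε : A →+* k) : Net k (Fin 5) A := ⟨Finset.univ, fun i => i.val, ε⟩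

/-- The parahoric net on `5 (m + 1)` indices whose first block is unital. -/
def bigNet (ε : A →+* k) (m : ℕ) : Net k (Fin 5 × Fin (m + 1)) A :=
  ⟨Finset.univ, fun p => if p.2 = 0 then 0 else 5 * p.2.val + p.1.val, ε⟩

theorem unNet_ok (ε : A →+* k) (i j : Fin 5) (a : A) : (unNet ε).ok i j a ↔ i ≠ j :=
  ⟨fun h => h.2.2.1, fun h => ⟨Finset.mem_univ _, Finset.mem_univ _, h, Or.inl le_rfl⟩⟩

theorem iwNet_ok (ε : A →+* k) (i j : Fin 5) (a : A) :
    (iwNet ε).ok i j a ↔ i ≠ j ∧ (i ≤ j ∨ ε a = 0) :=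
  ⟨fun h => h.2.2, fun h => ⟨Finset.mem_univ _, Finset.mem_univ _, h⟩⟩

/-- From the Iwahori group to the unital group. -/
noncomputable def iwToUn (ε : A →+* k) : St (iwNet ε).ok →* St (unNet ε).ok :=
  St.reindex (iwNet ε).closed id Function.injective_id
    fun i j a h => (unNet_ok ε i j a).mpr h.2.2.1

/-- From the unital group to the first block of the parahoric group. -/
noncomputable def unToBig (ε : A →+* k) (m : ℕ) : St (unNet ε).ok →* St (bigNet ε m).ok :=
  St.reindex (unNet ε).closed (fun i => (i, 0)) (fun _ _ h => congrArg Prod.fst h)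
    fun i j a h => ⟨Finset.mem_univ _, Finset.mem_univ _,
      fun e => h.2.2.1 (congrArg Prod.fst e), Or.inl (by simp [bigNet])⟩

/-- Enlarging the index set of a net. -/
noncomputable def Net.incl (N : Net k ι A) {S' : Finset ι} (h : N.S ⊆ S') :
    St N.ok →* St (N.withS S').ok :=
  St.reindex N.closed id Function.injective_id
    fun _ _ _ ha => ⟨h ha.1, h ha.2.1, ha.2.2⟩

end General

section Unip

variable {ι A : Type} [Ring A]

/-- Conjugating a generator by a generator (not the opposite one). -/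
theorem conj_x_mem {ok : ι → ι → A → Prop} (hc : Closed ok) {T : ι → ι → Prop} {i j k l : ι}
    {a b : A} (ha : ok i j a) (hb : ok k l b) (hT : T k l) (h0 : ¬ (j = k ∧ l = i))
    (h1 : j = k → T i l) (h2 : l = i → T k j) :
    St.x ok i j a * St.x ok k l b * (St.x ok i j a)⁻¹ ∈ UT ok T := by
  by_cases e1 : j = k
  · subst e1
    have hil : i ≠ l := fun e => h0 ⟨rfl, e.symm⟩
    rw [(St.isSt ok).conj_left ha hb hil]
    exact Subgroup.mul_mem _ (x_mem_UT (h1 rfl)) (x_mem_UT hT)
  · by_cases e2 : l = i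
    · subst e2
      rw [(St.isSt ok).conj_right hc hb ha (Ne.symm e1)]
      exact Subgroup.mul_mem _ (x_mem_UT (h2 rfl)) (x_mem_UT hT)
    · rw [(St.isSt ok).conj_comm ha hb e1 (Ne.symm e2)]
      exact x_mem_UT hT

/-- A generator normalises `UT ok T` under the obvious closure conditions. -/
theorem conj_UT_mem {ok : ι → ι → A → Prop} (hc : Closed ok) {T : ι → ι → Prop} {i j : ι}
    {a : A} (ha : ok i j a) (h0 : ¬ T j i) (h1 : ∀ l, T j l → T i l) (h2 : ∀ k, T k i → T k j)
    {g : St ok} (hg : g ∈ UT ok T) : St.x ok i j a * g * (St.x ok i j a)⁻¹ ∈ UT ok T := by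
  refine UT_induction hc (p := fun g => St.x ok i j a * g * (St.x ok i j a)⁻¹ ∈ UT ok T)
    (by simp) (fun k l b g hb hT _ ih => ?_) hg
  have := conj_x_mem hc ha hb hT (by rintro ⟨rfl, rfl⟩; exact h0 hT)
    (by rintro rfl; exact h1 l hT) (by rintro rfl; exact h2 k hT)
  have e : St.x ok i j a * (St.x ok k l b * g) * (St.x ok i j a)⁻¹ =
      (St.x ok i j a * St.x ok k l b * (St.x ok i j a)⁻¹) *
        (St.x ok i j a * g * (St.x ok i j a)⁻¹) := by group
  rw [e]
  exact Subgroup.mul_mem _ this ih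

/-- Every element of `UT ok T'` normalises `UT ok T` if the generators do. -/
theorem conj_UT_UT {ok : ι → ι → A → Prop} (hc : Closed ok) {T T' : ι → ι → Prop}
    (h0 : ∀ i j, T' i j → ¬ T j i) (h1 : ∀ i j l, T' i j → T j l → T i l)
    (h2 : ∀ i j k, T' i j → T k i → T k j) {z g : St ok} (hz : z ∈ UT ok T')
    (hg : g ∈ UT ok T) : z * g * z⁻¹ ∈ UT ok T := by
  refine UT_induction hc (p := fun z => z * g * z⁻¹ ∈ UT ok T)
    (by simpa using hg) (fun i j a z ha hT _ ih => ?_) hz
  have := conj_UT_mem hc ha (h0 i j hT) (fun l => h1 i j l hT) (fun k => h2 i j k hT) ih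
  have e : St.x ok i j a * z * g * (St.x ok i j a * z)⁻¹ =
      St.x ok i j a * (z * g * z⁻¹) * (St.x ok i j a)⁻¹ := by group
  rw [e]
  exact this

variable [Fintype ι] [DecidableEq ι]

/-- Support of the matrices of a transitive set of positions. -/
theorem phi_supp {ok : ι → ι → A → Prop} (hc : Closed ok) {T : ι → ι → Prop}
    (htr : ∀ i j k, T i j → T j k → T i k) {g : St ok} (hg : g ∈ UT ok T) :
    ∀ i j, ¬ T i j → phi hc g i j = (1 : Matrix ι ι A) i j := by
  refine UT_induction hc (p := fun g => ∀ i j, ¬ T i j → phi hc g i j = (1 : Matrix ι ι A) i j)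
    (by simp) (fun k l b g hb hT _ ih i j hij => ?_) hg
  rw [map_mul, phi_x hc hb, add_mul, one_mul, Matrix.add_apply, ih i j hij]
  by_cases e : i = k
  · subst e
    have h1 : ¬ T l j := fun h => hij (htr _ _ _ hT h)
    have h2 : l ≠ j := by rintro rfl; exact hij hT
    rw [Matrix.single_mul_apply_same, ih l j h1, Matrix.one_apply_ne h2, mul_zero, add_zero]
  · rw [Matrix.single_mul_apply_of_ne _ _ _ _ _ e, add_zero]

theorem unip_aux {ok : ι → ι → A → Prop} (hc : Closed ok) (ρ : ι → ℕ) (n : ℕ) :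
    ∀ T : Finset (ι × ι), T.card = n → (∀ i j, (i, j) ∈ T → ρ i < ρ j) →
      (∀ i j k, (i, j) ∈ T → ρ j < ρ k → (i, k) ∈ T) →
      (∀ i j k, (i, j) ∈ T → ρ k < ρ i → (k, j) ∈ T) →
      ∀ g ∈ UT ok (fun i j => (i, j) ∈ T), phi hc g = 1 → g = 1 := by
  induction n with
  | zero =>
    intro T hT _ _ _ g hg _
    rw [Finset.card_eq_zero] at hT
    subst hT
    exact UT_induction hc (p := fun g => g = 1) rfl (fun i j a g _ h => by simp at h) hg
  | succ n ih =>
    intro T hT hρ hr hl g hg h1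
    obtain ⟨⟨i, j⟩, hp, hmin⟩ := T.exists_min_image (fun p => ρ p.2 - ρ p.1)
      (Finset.card_pos.mp (by omega))
    have hij := hρ i j hp
    set T' := T.erase (i, j) with hT'
    have mem' : ∀ k l, (k, l) ∈ T' ↔ (k, l) ≠ (i, j) ∧ (k, l) ∈ T := fun k l => Finset.mem_erase
    have hρ' : ∀ k l, (k, l) ∈ T' → ρ k < ρ l := fun k l h => hρ k l ((mem' k l).mp h).2
    have hr' : ∀ k l m, (k, l) ∈ T' → ρ l < ρ m → (k, m) ∈ T' := by
      intro k l m h hm
      have h2 := ((mem' k l).mp h).2
      refine (mem' k m).mpr ⟨fun e => ?_, hr k l m h2 hm⟩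
      obtain ⟨rfl, rfl⟩ := Prod.mk.inj e
      have := hmin _ h2
      have := hρ _ _ h2
      simp only at *
      omega
    have hl' : ∀ k l m, (k, l) ∈ T' → ρ m < ρ k → (m, l) ∈ T' := by
      intro k l m h hm
      have h2 := ((mem' k l).mp h).2
      refine (mem' m l).mpr ⟨fun e => ?_, hl k l m h2 hm⟩
      obtain ⟨rfl, rfl⟩ := Prod.mk.inj e
      have := hmin _ h2
      have := hρ _ _ h2
      simp only at *
      omega
    have hconj : ∀ a, ok i j a → ∀ u ∈ UT ok (fun k l => (k, l) ∈ T'),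
        St.x ok i j a * u * (St.x ok i j a)⁻¹ ∈ UT ok (fun k l => (k, l) ∈ T') := by
      intro a ha u hu
      refine conj_UT_mem hc ha (fun h => ?_) (fun l h => hl' j l i h hij)
        (fun k h => hr' k i j h hij) hu
      have := hρ' _ _ h
      omega
    have hdec : g ∈ UT ok (fun k l => (k, l) ∈ T') ∨
        ∃ a, ok i j a ∧ ∃ u ∈ UT ok (fun k l => (k, l) ∈ T'), g = St.x ok i j a * u := by
      refine UT_induction hc (p := fun g => g ∈ UT ok (fun k l => (k, l) ∈ T') ∨
        ∃ a, ok i j a ∧ ∃ u ∈ UT ok (fun k l => (k, l) ∈ T'), g = St.x ok i j a * u)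
        (Or.inl (Subgroup.one_mem _)) (fun k l b g hb hkl _ ih => ?_) hg
      by_cases e : (k, l) = (i, j)
      · obtain ⟨rfl, rfl⟩ := Prod.mk.inj e
        rcases ih with h | ⟨a, ha, u, hu, rfl⟩
        · exact Or.inr ⟨b, hb, g, h, rfl⟩
        · exact Or.inr ⟨b + a, hc.add hb ha, u, hu, by rw [(St.isSt ok).add hb ha, mul_assoc]⟩
      · have hx : St.x ok k l b ∈ UT ok (fun k l => (k, l) ∈ T') :=
          x_mem_UT ((mem' k l).mpr ⟨e, hkl⟩)
        rcases ih with h | ⟨a, ha, u, hu, rfl⟩
        · exact Or.inl (Subgroup.mul_mem _ hx h)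
        · refine Or.inr ⟨a, ha, _, Subgroup.mul_mem _ (hconj (-a) (hc.neg ha) _ hx) hu, ?_⟩
          rw [← (St.isSt ok).inv hc ha]
          group
    have hcard : T'.card = n := by rw [hT', Finset.card_erase_of_mem hp]; omega
    rcases hdec with h | ⟨a, ha, u, hu, rfl⟩
    · exact ih T' hcard hρ' hr' hl' g h h1
    · have hs := phi_supp hc (T := fun k l => (k, l) ∈ T')
        (fun k l m h h' => hr' k l m h (hρ' _ _ h')) hu
      have e := congrFun (congrFun h1 i) j
      rw [map_mul, phi_x hc ha, add_mul, one_mul, Matrix.add_apply,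
        hs i j (fun h => ((mem' i j).mp h).1 rfl), Matrix.single_mul_apply_same,
        hs j j (fun h => lt_irrefl _ (hρ' _ _ h)), Matrix.one_apply_eq, mul_one] at e
      have ha0 : a = 0 := by simpa using e
      subst ha0
      rw [(St.isSt ok).zero ha, one_mul] at h1 ⊢
      exact ih T' hcard hρ' hr' hl' u hu h1

theorem unip_inj {ok : ι → ι → A → Prop} (hc : Closed ok)
    {T : ι → ι → Prop} (ρ : ι → ℕ) (hT : ∀ i j, T i j → ρ i < ρ j) {g : St ok}
    (hg : g ∈ UT ok T) (h1 : phi hc g = 1) : g = 1 := by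
  refine unip_aux hc ρ _ (Finset.univ.filter fun p : ι × ι => ρ p.1 < ρ p.2) rfl
    (fun i j h => by simpa using h) (fun i j k h h' => ?_) (fun i j k h h' => ?_) g
    (UT_mono (fun i j h => by simpa using hT i j h) hg) h1
  · simp only [Finset.mem_filter, Finset.mem_univ, true_and] at h ⊢; omega
  · simp only [Finset.mem_filter, Finset.mem_univ, true_and] at h ⊢; omega

theorem unip_ext {ok : ι → ι → A → Prop} (hc : Closed ok)
    {T : ι → ι → Prop} (ρ : ι → ℕ) (hT : ∀ i j, T i j → ρ i < ρ j) {g h : St ok}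
    (hg : g ∈ UT ok T) (hh : h ∈ UT ok T) (h1 : phi hc g = phi hc h) : g = h := by
  have := unip_inj hc ρ hT (Subgroup.mul_mem _ hg (Subgroup.inv_mem _ hh))
    (by rw [map_mul, h1, ← map_mul, mul_inv_cancel, map_one])
  exact mul_inv_eq_one.mp this

theorem exists_block {ok : ι → ι → A → Prop} (hc : Closed ok)
    (M : Matrix ι ι A) (hM : ∀ i j, M i j ≠ 0 → ok i j (M i j))
    (hd : ∀ i j k l, M i j ≠ 0 → M k l ≠ 0 → j ≠ k) :
    ∃ g ∈ UT ok (fun i j => M i j ≠ 0), phi hc g = 1 + M := by
  classical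
  have key : ∀ s : Finset (ι × ι), ∃ g ∈ UT ok (fun i j => M i j ≠ 0),
      phi hc g = 1 + Matrix.of fun i j => if (i, j) ∈ s then M i j else 0 := by
    intro s
    induction s using Finset.induction_on with
    | empty => exact ⟨1, Subgroup.one_mem _, by ext i j; simp⟩
    | insert p s hp ih =>
      obtain ⟨i, j⟩ := p
      obtain ⟨g, hg, e⟩ := ih
      by_cases h0 : M i j = 0
      · refine ⟨g, hg, ?_⟩
        rw [e]
        ext k l
        by_cases h : (k, l) = (i, j)
        · obtain ⟨rfl, rfl⟩ := Prod.mk.inj h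
          simp [h0]
        · simp only [Matrix.add_apply, Matrix.of_apply, Finset.mem_insert, h, false_or]
      · refine ⟨St.x ok i j (M i j) * g, Subgroup.mul_mem _ (x_mem_UT h0) hg, ?_⟩
        have hz : Matrix.single i j (M i j) *
            (Matrix.of fun k l => if (k, l) ∈ s then M k l else 0) = 0 := by
          ext k l
          by_cases h : k = i
          · subst h
            rw [Matrix.single_mul_apply_same, Matrix.of_apply]
            have : M j l = 0 := by
              by_contra h'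
              exact hd _ _ _ _ h0 h' rfl
            simp [this]
          · rw [Matrix.single_mul_apply_of_ne _ _ _ _ _ h]; rfl
        rw [map_mul, phi_x hc (hM i j h0), e, add_mul, one_mul, mul_add, mul_one, hz, add_zero]
        ext k l
        by_cases h : (k, l) = (i, j)
        · obtain ⟨rfl, rfl⟩ := Prod.mk.inj h
          simp [hp]
        · have h' : ¬ (i = k ∧ j = l) := fun ⟨a, b⟩ => h (by rw [a, b])
          simp only [Matrix.add_apply, Matrix.of_apply, Finset.mem_insert, h, false_or,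
            Matrix.single_apply, h', if_false, add_zero]
  obtain ⟨g, hg, e⟩ := key Finset.univ
  exact ⟨g, hg, by rw [e]; ext i j; simp⟩

end Unip

end Vale.Agent.N192
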